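import Vale.Agent.P026.H392.KE

open Complex Set Filter Topology MeasureTheory intervalIntegral

namespace Vale.Agent.P026.H392

/-- Partial sums of `ψ(n) n^{-s}` for periodic `ψ`, with the Vinogradov–Korobov input. -/
theorem KE {C c : ℝ} (hC : 0 < C) (hc : 0 < c) (hVK : VKSum C c) {A : ℝ} (hA : 1 ≤ A) :
    ∃ κ d₀ M₀ : ℝ, 10 ≤ κ ∧ 0 < d₀ ∧ d₀ ≤ 1/4 ∧ 1 ≤ M₀ ∧
      ∀ Q T d : ℝ, 1 ≤ Q → 3 ≤ T → 0 ≤ d → d ≤ d₀ →
      ∀ q : ℕ, 0 < q → (q:ℝ) ≤ Q^2 →
      ∀ ψ : ℕ → ℂ, (∀ n, ‖ψ n‖ ≤ 1) → (∀ n, ψ (n + q) = ψ n) →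
      ∀ s : ℂ, 1 - 2 * d ≤ s.re → s.re ≤ 2 → |s.im| ≤ 4 * T →
      ∃ ℓ : ℂ, Tendsto (FF q ψ s) atTop (𝓝 ℓ) ∧
        ∀ x : ℝ, Real.exp (κ * MM M₀ Q T d) ≤ x →
          ‖(∑ n ∈ Finset.Icc 1 ⌊x⌋₊, ψ n * pw s n) - mean q ψ * (∫ u in (1:ℝ)..x, pw s u) - ℓ‖
            ≤ (MM M₀ Q T d) ^ (-A) * Real.exp (-A * κ * d * MM M₀ Q T d) := by
  have hc₁ := cOne_pos hc
  have hc₁' := cOne_le c
  set c₁ := cOne c with hc₁def
  set y := 40 * A / c₁ with hy
  set Cp := 2 * C + 47 with hCp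
  have hCp1 : 1 ≤ Cp := by linarith
  set M₀ := 2 * Cp / c₁ + 10 with hM₀
  set d₀ := c₁ / 4 * y / (A * (y + 3) + 4) with hd₀
  have hy0 : 0 < y := by positivity
  have hy80 : 80 ≤ y := by
    rw [hy, le_div_iff₀ hc₁]; linarith
  refine ⟨y + 3, d₀, M₀, by linarith, by positivity, ?_, ?_, ?_⟩
  · rw [hd₀, div_le_iff₀ (by positivity)]
    have h1 : c₁ / 4 * y ≤ 1/8 * y := mul_le_mul_of_nonneg_right (by linarith) hy0.le
    have h2 : 1 * (y + 3) ≤ A * (y + 3) := mul_le_mul_of_nonneg_right hA (by linarith)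
    linarith
  · have : 0 < 2 * Cp / c₁ := by positivity
    linarith
  intro Q T d hQ hT hd hdd q hq hqQ ψ hψ hper s hs1 hs2 him
  set M := MM M₀ Q T d with hM
  have hLL := LL_nonneg hQ hT
  have hlT := log_T_pos hT
  have hM10 : 10 ≤ M := by
    have h1 : 0 < 2 * Cp / c₁ := by positivity
    have h2 : 0 ≤ Real.sqrt d * Real.log T := by positivity
    rw [hM]; unfold MM; linarith
  have hM0 : 0 < M := by linarith
  set w := wOne c T (y * M) with hw
  have hwdef : w = c₁ / 2 * min ((y * M/Real.log T)^2) 1 := rfl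
  obtain ⟨h2d, hwpos, hmain⟩ := param_bound hc₁ hc₁' hCp1 hA hy hM₀ hd₀ hQ hT hd hdd hM hwdef
  have hwle : w ≤ 1/4 := wOne_le hc
  have hyM : 0 < y * M := by positivity
  have hsre : 1/2 ≤ s.re := by linarith
  have hsw : 1 - s.re ≤ wOne c T (y * M) := by linarith
  obtain ⟨ℓ, hℓ, hbd⟩ := exists_ell hC hc hVK hT hsre hs2 him hyM hsw hq hψ hper
  refine ⟨ℓ, hℓ, ?_⟩
  intro x hx
  have hq0 : (0:ℝ) < q := by exact_mod_cast hq
  have hq1 : (1:ℝ) ≤ q := by exact_mod_cast hq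
  -- q ≤ e^{2M}
  have hqM : (q:ℝ) ≤ Real.exp (2 * M) := by
    have h1 : Real.log Q ≤ M := by
      have h2 : 0 ≤ Real.sqrt d * Real.log T := by positivity
      have h3 : 0 < 2 * Cp / c₁ := by positivity
      have h4 : Real.log Q ≤ LL Q T := by
        have := loglog_pos hT
        unfold LL
        have h5 : 0 ≤ (Real.log T) ^ (2/3 : ℝ) * (Real.log (Real.log T)) ^ (1/3 : ℝ) := by positivity
        linarith
      rw [hM]; unfold MM; linarith
    have hQ0 : 0 < Q := by linarith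
    calc (q:ℝ) ≤ Q^2 := hqQ
      _ = Real.exp (2 * Real.log Q) := by
          rw [two_mul, Real.exp_add, Real.exp_log hQ0]; ring
      _ ≤ _ := Real.exp_le_exp.2 (by linarith)
  have hx0 : 0 < x := lt_of_lt_of_le (Real.exp_pos _) hx
  have hxq : Real.exp ((y + 1) * M) ≤ x / q := by
    rw [le_div_iff₀ hq0]
    calc Real.exp ((y + 1) * M) * q ≤ Real.exp ((y + 1) * M) * Real.exp (2 * M) := by gcongr
      _ = Real.exp ((y + 3) * M) := by rw [← Real.exp_add]; congr 1; ring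
      _ ≤ x := hx
  set n := ⌊x⌋₊ with hn
  have hnx : x < n + 1 := Nat.lt_floor_add_one x
  have hnx' : (n:ℝ) ≤ x := Nat.floor_le hx0.le
  -- choice of m₁
  have hbig : Real.exp (y * M) + 4 ≤ x / q := by
    have h1 : Real.exp ((y+1) * M) = Real.exp (y * M) * Real.exp M := by
      rw [← Real.exp_add]; congr 1; ring
    have h2 : 1 + M ≤ Real.exp M := by linarith [Real.add_one_le_exp M]
    have h3 : 1 ≤ Real.exp (y * M) := Real.one_le_exp hyM.le
    have h4 : Real.exp (y * M) + 4 ≤ Real.exp (y * M) * Real.exp M := by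
      have : Real.exp (y * M) * 5 ≤ Real.exp (y * M) * Real.exp M :=
        mul_le_mul_of_nonneg_left (by linarith) (Real.exp_pos _).le
      linarith
    linarith
  obtain ⟨m₁, hm₁⟩ : ∃ m₁ : ℕ, n / q = m₁ + 1 ∧ Real.exp (y * M) ≤ m₁ := by
    have h1 : (n:ℝ) / q < ((n / q : ℕ):ℝ) + 1 := by
      rw [div_lt_iff₀ hq0]
      have h2 := Nat.lt_mul_div_succ n hq
      have h3 : (n:ℝ) < ((q * (n / q + 1) : ℕ):ℝ) := by exact_mod_cast h2
      push_cast at h3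
      linarith
    have h2 : x / q < (n:ℝ)/q + 1 := by
      rw [div_lt_iff₀ hq0]
      have : ((n:ℝ)/q + 1) * q = n + q := by field_simp
      rw [this]; linarith
    have h3 : Real.exp (y * M) + 2 ≤ ((n / q : ℕ):ℝ) := by linarith
    have h4 : 1 ≤ n / q := by
      have : (0:ℝ) < ((n / q : ℕ):ℝ) := by linarith [Real.exp_pos (y * M)]
      exact_mod_cast this
    refine ⟨n / q - 1, by omega, ?_⟩
    rw [Nat.cast_sub h4]
    push_cast
    linarith
  obtain ⟨hm1, hm2⟩ := hm₁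
  have hm0 : (0:ℝ) < m₁ := lt_of_lt_of_le (Real.exp_pos _) hm2
  have hm0' : 1 ≤ m₁ := by exact_mod_cast hm0
  have hmn : q * (m₁ + 1) ≤ n := by rw [← hm1]; exact Nat.mul_div_le n q
  have hlogm : y * M ≤ Real.log m₁ := by
    have := Real.log_le_log (Real.exp_pos _) hm2
    rwa [Real.log_exp] at this
  have hB := hbd m₁ hm0' hlogm n hmn
  -- the extra piece of the integral
  have hnR : (q:ℝ) * m₁ ≤ n := by
    have : ((q * (m₁ + 1) : ℕ):ℝ) ≤ n := by exact_mod_cast hmn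
    push_cast at this
    nlinarith
  have hqm0 : (0:ℝ) < q * m₁ := by positivity
  have hn0 : (0:ℝ) < n := lt_of_lt_of_le hqm0 hnR
  have hint : ‖∫ u in (n:ℝ)..x, pw s u‖ ≤ (q:ℝ) ^ (1 - s.re) * (m₁:ℝ) ^ (-w) := by
    refine (norm_integral_pw_trivial (s := s) (by linarith) hqm0 hnR hnx').trans ?_
    have h1 : x - n ≤ 1 := by linarith
    have h2 : 0 ≤ ((q:ℝ) * m₁) ^ (-s.re) := by positivity
    calc ((q:ℝ) * m₁) ^ (-s.re) * (x - n) ≤ ((q:ℝ) * m₁) ^ (-s.re) * q :=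
          mul_le_mul_of_nonneg_left (by linarith) h2
      _ = (q:ℝ) ^ (1 - s.re) * (m₁:ℝ) ^ (-s.re) := by
          rw [Real.mul_rpow hq0.le hm0.le, sub_eq_add_neg, add_comm (1:ℝ), Real.rpow_add_one hq0.ne']
          ring
      _ ≤ _ := by
          refine mul_le_mul_of_nonneg_left ?_ (by positivity)
          exact Real.rpow_le_rpow_of_exponent_le (by exact_mod_cast hm0') (by linarith)
  have hsplit : (∑ k ∈ Finset.Icc 1 n, ψ k * pw s k) - mean q ψ * (∫ u in (1:ℝ)..x, pw s u) - ℓ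
      = (FF q ψ s n - ℓ) - mean q ψ * ∫ u in (n:ℝ)..x, pw s u := by
    have h1 := intervalIntegral.integral_add_adjacent_intervals
      (intervalIntegrable_pw s one_pos hn0) (intervalIntegrable_pw s hn0 hx0)
    unfold FF
    rw [← h1]; ring
  rw [hsplit]
  have hmw : (m₁:ℝ) ^ (-w) ≤ Real.exp (-(w * (y * M))) := by
    rw [Real.rpow_def_of_pos hm0]
    apply Real.exp_le_exp.2
    have : y * M * w ≤ Real.log m₁ * w := mul_le_mul_of_nonneg_right hlogm hwpos.le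
    linarith
  have hqpow : (q:ℝ) ^ (1 - s.re) ≤ Real.exp (4 * d * M) := by
    calc (q:ℝ) ^ (1 - s.re) ≤ (q:ℝ) ^ (2 * d) := Real.rpow_le_rpow_of_exponent_le hq1 (by linarith)
      _ ≤ (Real.exp (2 * M)) ^ (2 * d) := Real.rpow_le_rpow hq0.le hqM (by linarith)
      _ = _ := by rw [← Real.exp_mul]; congr 1; ring
  have hKw : 2 * (C + 20) / w + 7 ≤ Cp / w := by
    rw [div_add' _ _ _ hwpos.ne', div_le_div_iff_of_pos_right hwpos]
    have : 7 * w ≤ 7 := by linarith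
    rw [hCp]; linarith
  have hCw : 0 < Cp / w := by positivity
  calc _ ≤ ‖FF q ψ s n - ℓ‖ + ‖mean q ψ * ∫ u in (n:ℝ)..x, pw s u‖ := norm_sub_le _ _
    _ ≤ (q:ℝ) ^ (1 - s.re) * (2 * (C + 20) / w + 6) * (m₁:ℝ) ^ (-w)
        + 1 * ((q:ℝ) ^ (1 - s.re) * (m₁:ℝ) ^ (-w)) := by
        rw [norm_mul]
        exact add_le_add hB (mul_le_mul (norm_mean_le hq hψ) hint (norm_nonneg _) zero_le_one)
    _ = (q:ℝ) ^ (1 - s.re) * (2 * (C + 20) / w + 7) * (m₁:ℝ) ^ (-w) := by ring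
    _ ≤ Real.exp (4 * d * M) * (Cp / w) * Real.exp (-(w * (y * M))) := by gcongr
    _ = Real.exp (4 * d * M + Real.log (Cp / w) - w * (y * M)) := by
        rw [sub_eq_add_neg, Real.exp_add, Real.exp_add, Real.exp_log hCw]
    _ ≤ Real.exp (-A * Real.log M + (-A * (y + 3) * d * M)) := by
        apply Real.exp_le_exp.2
        linarith
    _ = _ := by
        rw [Real.exp_add, Real.rpow_def_of_pos hM0]
        congr 2
        ring

end Vale.Agent.P026.H392
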