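import Vale.Agent.P026.H392.Ell

open Complex Set Filter Topology MeasureTheory intervalIntegral

namespace Vale.Agent.P026.H392

/-- Unconditional (Euler-Maclaurin) difference bound for the partial sums. -/
lemma FF_diff_em {s : ℂ} (hs : 1/2 ≤ s.re)
    {q : ℕ} (hq : 0 < q) {ψ : ℕ → ℂ} (hψ : ∀ n, ‖ψ n‖ ≤ 1) (hper : ∀ n, ψ (n + q) = ψ n)
    {M : ℕ} (hM : 1 ≤ M) {n₁ n₂ : ℕ} (hn : q * (M + 1) ≤ n₁) (hnn : n₁ ≤ n₂) :
    ‖FF q ψ s n₂ - FF q ψ s n₁‖
      ≤ (q:ℝ) ^ (1 - s.re) * (4 * ‖s‖ + 6) * (M:ℝ) ^ (-s.re) := by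
  refine FF_diff_gen hs hq hψ hper hM hn hnn (by positivity) (by linarith) le_rfl ?_
  intro a ha ha1 N N' hMN hNN
  exact em_sum' hs ha (hM.trans hMN) hNN

lemma exists_ell_em {s : ℂ} (hs : 1/2 ≤ s.re)
    {q : ℕ} (hq : 0 < q) {ψ : ℕ → ℂ} (hψ : ∀ n, ‖ψ n‖ ≤ 1) (hper : ∀ n, ψ (n + q) = ψ n) :
    ∃ ℓ : ℂ, Tendsto (FF q ψ s) atTop (𝓝 ℓ) ∧
      ∀ M : ℕ, 1 ≤ M → ∀ n, q * (M + 1) ≤ n →
        ‖FF q ψ s n - ℓ‖ ≤ (q:ℝ) ^ (1 - s.re) * (4 * ‖s‖ + 6) * (M:ℝ) ^ (-s.re) := by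
  have hw0 : 0 < s.re := by linarith
  have hcauchy : CauchySeq (FF q ψ s) := by
    rw [Metric.cauchySeq_iff']
    intro ε hε
    have hlim : Tendsto (fun M : ℕ => (q:ℝ) ^ (1 - s.re) * (4 * ‖s‖ + 6)
        * (M:ℝ) ^ (-s.re)) atTop (𝓝 ((q:ℝ) ^ (1 - s.re) * (4 * ‖s‖ + 6) * 0)) :=
      ((tendsto_rpow_neg_atTop hw0).comp tendsto_natCast_atTop_atTop).const_mul _
    rw [mul_zero] at hlim
    have h1 : ∀ᶠ M : ℕ in atTop, (q:ℝ) ^ (1 - s.re) * (4 * ‖s‖ + 6)
        * (M:ℝ) ^ (-s.re) < ε := hlim.eventually_lt_const hε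
    obtain ⟨M, hM1, hM3⟩ := (h1.and (eventually_ge_atTop 1)).exists
    refine ⟨q * (M+1), fun n hn => ?_⟩
    rw [dist_eq_norm]
    exact (FF_diff_em hs hq hψ hper hM3 le_rfl hn).trans_lt hM1
  obtain ⟨ℓ, hℓ⟩ := cauchySeq_tendsto_of_complete hcauchy
  refine ⟨ℓ, hℓ, fun M hM n hn => ?_⟩
  have h1 : Tendsto (fun n₂ => ‖FF q ψ s n₂ - FF q ψ s n‖) atTop (𝓝 ‖ℓ - FF q ψ s n‖) :=
    (hℓ.sub_const _).norm
  rw [norm_sub_rev]
  refine le_of_tendsto h1 ?_
  filter_upwards [eventually_ge_atTop n] with n₂ hn₂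
  exact FF_diff_em hs hq hψ hper hM hn hn₂

/-- A general identity principle on `Re s > 1/2`. -/
lemma ident_half {f : ℕ → ℂ → ℂ} {g G : ℂ → ℂ} (hf : ∀ n, Differentiable ℂ (f n))
    (hG : Differentiable ℂ G)
    (hunif : ∀ R : ℝ, TendstoUniformlyOn f g atTop {s : ℂ | 1/2 < s.re ∧ ‖s‖ < R})
    (heq : ∀ s : ℂ, 1 < s.re → g s = G s) : ∀ s : ℂ, 1/2 < s.re → g s = G s := by
  intro s hs
  set R : ℝ := ‖s‖ + 3 with hR
  set U : Set ℂ := {s : ℂ | 1/2 < s.re ∧ ‖s‖ < R} with hU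
  have hUo : IsOpen U :=
    (isOpen_lt continuous_const Complex.continuous_re).inter (isOpen_lt continuous_norm continuous_const)
  have hUc : IsPreconnected U := by
    refine Convex.isPreconnected ?_
    have e : U = {s : ℂ | 1/2 < s.re} ∩ Metric.ball 0 R := by
      ext z; simp [hU]
    rw [e]
    exact (convex_halfSpace_re_gt _).inter (convex_ball _ _)
  have hg : DifferentiableOn ℂ g U :=
    (hunif R).tendstoLocallyUniformlyOn.differentiableOn
      (Eventually.of_forall fun n => (hf n).differentiableOn) hUo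
  have h2 : (2:ℂ) ∈ U := by
    refine ⟨by norm_num, ?_⟩
    have : ‖(2:ℂ)‖ = 2 := by simp
    rw [this, hR]
    have := norm_nonneg s
    linarith
  refine AnalyticOnNhd.eqOn_of_preconnected_of_eventuallyEq (hg.analyticOnNhd hUo)
    (hG.differentiableOn.analyticOnNhd hUo) hUc h2 ?_ (⟨hs, by rw [hR]; linarith⟩ : s ∈ U)
  have : {z : ℂ | 1 < z.re} ∈ 𝓝 (2:ℂ) :=
    (isOpen_lt continuous_const Complex.continuous_re).mem_nhds (by norm_num)
  filter_upwards [this] with z hz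
  exact heq z hz

lemma unif_of_ell {q : ℕ} (hq : 0 < q) {ψ : ℕ → ℂ} (hψ : ∀ n, ‖ψ n‖ ≤ 1)
    (hper : ∀ n, ψ (n + q) = ψ n) {g : ℂ → ℂ}
    (hg : ∀ s : ℂ, 1/2 < s.re → Tendsto (FF q ψ s) atTop (𝓝 (g s))) {h : ℂ → ℂ}
    {R : ℝ} {B : ℝ} (hB : ∀ s : ℂ, ‖s‖ < R → ‖h s‖ ≤ B) :
    TendstoUniformlyOn (fun n s => h s * FF q ψ s n) (fun s => h s * g s) atTop
      {s : ℂ | 1/2 < s.re ∧ ‖s‖ < R} := by
  rcases le_or_gt R 0 with hR | hR
  · have : {s : ℂ | 1/2 < s.re ∧ ‖s‖ < R} = ∅ := by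
      ext s
      simp only [mem_ofPred_eq, mem_empty_iff_false, iff_false, not_and, not_lt]
      intro _
      exact hR.trans (norm_nonneg s)
    rw [this]
    exact tendstoUniformlyOn_empty
  have hB0 : 0 ≤ B := (norm_nonneg _).trans (hB 0 (by simpa using hR))
  rw [Metric.tendstoUniformlyOn_iff]
  intro ε hε
  have hq1 : (1:ℝ) ≤ q := by exact_mod_cast hq
  have hlim : Tendsto (fun M : ℕ => B * ((q:ℝ) * (4 * R + 6)
      * (M:ℝ) ^ (-(1/2:ℝ)))) atTop (𝓝 (B * ((q:ℝ) * (4 * R + 6) * 0))) :=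
    (((tendsto_rpow_neg_atTop (by norm_num : (0:ℝ) < 1/2)).comp
      tendsto_natCast_atTop_atTop).const_mul _).const_mul _
  rw [mul_zero, mul_zero] at hlim
  have h1 : ∀ᶠ M : ℕ in atTop, B * ((q:ℝ) * (4 * R + 6) * (M:ℝ) ^ (-(1/2:ℝ))) < ε :=
    hlim.eventually_lt_const hε
  obtain ⟨M, hM1, hM3⟩ := (h1.and (eventually_ge_atTop 1)).exists
  filter_upwards [eventually_ge_atTop (q * (M+1))] with n hn s hs
  obtain ⟨hs1, hs2⟩ := hs
  obtain ⟨ℓ, hℓ, hb⟩ := exists_ell_em hs1.le hq hψ hper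
  have e : g s = ℓ := tendsto_nhds_unique (hg s hs1) hℓ
  rw [dist_comm, dist_eq_norm, ← mul_sub, e, norm_mul]
  have hM1' : (1:ℝ) ≤ M := by exact_mod_cast hM3
  refine lt_of_le_of_lt ?_ hM1
  refine mul_le_mul (hB s hs2) ((hb M hM3 n hn).trans ?_) (norm_nonneg _) hB0
  refine mul_le_mul (mul_le_mul ?_ (by linarith) (by positivity) (by positivity)) ?_ (by positivity)
    (by positivity)
  · calc (q:ℝ) ^ (1 - s.re) ≤ (q:ℝ) ^ (1:ℝ) := Real.rpow_le_rpow_of_exponent_le hq1 (by linarith)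
      _ = q := Real.rpow_one _
  · exact Real.rpow_le_rpow_of_exponent_le hM1' (by linarith)

lemma sum_range_zmod {q : ℕ} [NeZero q] (f : ZMod q → ℂ) :
    ∑ a ∈ Finset.range q, f (a : ZMod q) = ∑ a : ZMod q, f a := by
  refine Finset.sum_nbij' (fun a : ℕ => (a : ZMod q)) (fun a : ZMod q => a.val) ?_ ?_ ?_ ?_ ?_
  · intro a _; simp
  · intro a _; simpa using ZMod.val_lt a
  · intro a ha; exact ZMod.val_cast_of_lt (Finset.mem_range.1 ha)
  · intro a _; exact ZMod.natCast_zmod_val a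
  · intro a _; rfl

lemma mean_char {q : ℕ} [NeZero q] {χ : DirichletCharacter ℂ q} (hχ : χ ≠ 1) :
    mean q (fun n => χ (n : ZMod q)) = 0 := by
  unfold mean
  rw [sum_range_zmod (fun a => χ a), MulChar.sum_eq_zero_of_ne_one hχ, zero_div]

lemma differentiable_pw {n : ℕ} (hn : n ≠ 0) : Differentiable ℂ (fun s : ℂ => pw s (n:ℝ)) := by
  intro s
  unfold pw
  have hn' : ((n:ℝ):ℂ) ≠ 0 := by
    simpa using hn
  exact (differentiableAt_neg_iff.2 differentiableAt_id).const_cpow (Or.inl hn')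

lemma tendsto_LSeries {q : ℕ} [NeZero q] (χ : DirichletCharacter ℂ q) {s : ℂ} (hs : 1 < s.re) :
    Tendsto (fun n : ℕ => ∑ k ∈ Finset.Icc 1 n, χ (k : ZMod q) * pw s k) atTop
      (𝓝 (DirichletCharacter.LFunction χ s)) := by
  rw [DirichletCharacter.LFunction_eq_LSeries χ hs]
  have hsum : LSeriesSummable (fun n => χ (n : ZMod q)) s :=
    DirichletCharacter.LSeriesSummable_of_one_lt_re χ hs
  have h1 := (hsum.LSeriesHasSum).tendsto_sum_nat
  have h2 := h1.comp (tendsto_add_atTop_nat 1)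
  refine h2.congr fun n => ?_
  simp only [Function.comp]
  rw [Finset.range_eq_Ico, Finset.sum_eq_sum_Ico_succ_bot (by omega : 0 < n + 1)]
  rw [LSeries.term_zero, zero_add]
  refine Finset.sum_congr (by ext x; simp only [Finset.mem_Ico, Finset.mem_Icc]; omega) fun k hk => ?_
  have hk0 : k ≠ 0 := by
    rw [Finset.mem_Icc] at hk; omega
  rw [LSeries.term_of_ne_zero hk0, pw, Complex.cpow_neg]
  simp [div_eq_mul_inv]

/-- The limit for non-principal characters is the L-function. -/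
theorem link_char {q : ℕ} [NeZero q] {χ : DirichletCharacter ℂ q} (hχ : χ ≠ 1) {s : ℂ}
    (hs : 1/2 < s.re) :
    Tendsto (FF q (fun n => χ (n : ZMod q)) s) atTop (𝓝 (DirichletCharacter.LFunction χ s)) := by
  have hq : 0 < q := Nat.pos_of_ne_zero (NeZero.ne q)
  have hψ : ∀ n : ℕ, ‖χ (n : ZMod q)‖ ≤ 1 := fun n => DirichletCharacter.norm_le_one χ _
  have hper : ∀ n : ℕ, χ ((n + q : ℕ) : ZMod q) = χ (n : ZMod q) := by
    intro n; simp
  have hex : ∀ s : ℂ, ∃ ℓ : ℂ, 1/2 < s.re → Tendsto (FF q (fun n => χ (n : ZMod q)) s) atTop (𝓝 ℓ) := by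
    intro s
    by_cases h : 1/2 < s.re
    · obtain ⟨ℓ, h1, _⟩ := exists_ell_em h.le hq hψ hper
      exact ⟨ℓ, fun _ => h1⟩
    · exact ⟨0, fun h' => absurd h' h⟩
  choose g hg using hex
  have hFF : ∀ s n, FF q (fun n => χ (n : ZMod q)) s n
      = ∑ k ∈ Finset.Icc 1 n, χ (k : ZMod q) * pw s k := by
    intro s n
    unfold FF
    rw [mean_char hχ, zero_mul, sub_zero]
  have key := ident_half (f := fun n s => 1 * FF q (fun n => χ (n : ZMod q)) s n)
    (g := fun s => 1 * g s) (G := DirichletCharacter.LFunction χ) ?_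
    (DirichletCharacter.differentiable_LFunction hχ) ?_ ?_ s hs
  · have := hg s hs
    rw [one_mul] at key
    rwa [key] at this
  · intro n
    have : (fun s => 1 * FF q (fun n => χ (n : ZMod q)) s n)
        = fun s => ∑ k ∈ Finset.Icc 1 n, χ (k : ZMod q) * pw s k := by
      ext s; rw [one_mul, hFF]
    rw [this]
    refine Differentiable.fun_sum fun k hk => ?_
    refine (differentiable_const _).mul (differentiable_pw ?_)
    rw [Finset.mem_Icc] at hk; omega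
  · intro R
    exact unif_of_ell hq hψ hper hg (h := fun _ => 1) (B := 1) (by simp)
  · intro s hs
    rw [one_mul]
    have h1 := hg s (by linarith)
    have h2 := tendsto_LSeries χ hs
    refine tendsto_nhds_unique h1 (h2.congr fun n => (hFF s n).symm)

lemma LFunctionTrivChar_one_eq : DirichletCharacter.LFunctionTrivChar 1 = riemannZeta :=
  DirichletCharacter.LFunction_modOne_eq

lemma mean_one : mean 1 (fun _ => (1:ℂ)) = 1 := by
  simp [mean]

lemma zeta_mul_FF (s : ℂ) {n : ℕ} (hn : 1 ≤ n) :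
    (s - 1) * FF 1 (fun _ => 1) s n
      = (s - 1) * (∑ k ∈ Finset.Icc 1 n, pw s k) + (pw (s - 1) n - 1) := by
  have hn' : (0:ℝ) < n := by exact_mod_cast hn
  unfold FF
  rw [mean_one, one_mul]
  simp only [one_mul]
  by_cases hs : s = 1
  · subst hs
    simp [pw]
  · rw [integral_pw hs one_pos hn']
    have h1 : (1 - s) ≠ 0 := sub_ne_zero.2 (Ne.symm hs)
    have h2 : pw (s - 1) 1 = 1 := by simp [pw]
    rw [h2]
    field_simp
    ring

/-- The limit for zeta. -/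
theorem link_zeta {s : ℂ} (hs : 1/2 < s.re) (hs1 : s ≠ 1) :
    Tendsto (FF 1 (fun _ => 1) s) atTop (𝓝 (riemannZeta s - 1/(s - 1))) := by
  have hq : 0 < 1 := one_pos
  have hψ : ∀ n : ℕ, ‖(fun _ : ℕ => (1:ℂ)) n‖ ≤ 1 := fun n => by simp
  have hper : ∀ n : ℕ, (fun _ : ℕ => (1:ℂ)) (n + 1) = (fun _ : ℕ => (1:ℂ)) n := by
    intro n; rfl
  have hex : ∀ s : ℂ, ∃ ℓ : ℂ, 1/2 < s.re → Tendsto (FF 1 (fun _ => 1) s) atTop (𝓝 ℓ) := by
    intro s
    by_cases h : 1/2 < s.re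
    · obtain ⟨ℓ, h1, _⟩ := exists_ell_em h.le hq hψ hper
      exact ⟨ℓ, fun _ => h1⟩
    · exact ⟨0, fun h' => absurd h' h⟩
  choose g hg using hex
  have key := ident_half (f := fun n s => (s - 1) * FF 1 (fun _ => 1) s (n + 1))
    (g := fun s => (s - 1) * g s) (G := fun s => DirichletCharacter.LFunctionTrivChar₁ 1 s - 1) ?_
    ((DirichletCharacter.differentiable_LFunctionTrivChar₁ 1).sub_const 1) ?_ ?_ s hs
  · have h1 := hg s hs
    have h2 : g s = riemannZeta s - 1/(s - 1) := by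
      have h3 : s - 1 ≠ 0 := sub_ne_zero.2 hs1
      rw [DirichletCharacter.LFunctionTrivChar₁, Function.update_of_ne hs1,
        LFunctionTrivChar_one_eq] at key
      field_simp
      rw [mul_comm, key]
      ring
    rwa [h2] at h1
  · intro n
    have : (fun s => (s - 1) * FF 1 (fun _ => 1) s (n + 1))
        = fun s => (s - 1) * (∑ k ∈ Finset.Icc 1 (n + 1), pw s k) + (pw (s - 1) ((n + 1 : ℕ) : ℝ) - 1) := by
      ext s; rw [zeta_mul_FF s (by omega)]
    rw [this]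
    have hd : Differentiable ℂ (fun s : ℂ => ∑ k ∈ Finset.Icc 1 (n + 1), pw s k) := by
      refine Differentiable.fun_sum fun k hk => differentiable_pw ?_
      rw [Finset.mem_Icc] at hk; omega
    have hd2 : Differentiable ℂ (fun s : ℂ => pw (s - 1) ((n + 1 : ℕ) : ℝ)) :=
      (differentiable_pw (by omega : n + 1 ≠ 0)).comp (differentiable_id.sub_const 1)
    exact ((differentiable_id.sub_const 1).mul hd).add (hd2.sub_const 1)
  · intro R
    have := unif_of_ell hq hψ hper hg (h := fun s => s - 1) (R := R) (B := R + 1) (fun s hs => by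
      calc ‖s - 1‖ ≤ ‖s‖ + ‖(1:ℂ)‖ := norm_sub_le _ _
        _ ≤ R + 1 := by rw [norm_one]; linarith)
    intro u hu
    exact (tendsto_add_atTop_nat 1).eventually (this u hu)
  · intro s hs
    have hs1 : s ≠ 1 := by
      intro h; rw [h] at hs; simp at hs
    have h1 := (hg s (by linarith)).const_mul (s - 1)
    have h2 := tendsto_LSeries (1 : DirichletCharacter ℂ 1) hs
    have h4 : Tendsto (fun n : ℕ => pw (s - 1) n) atTop (𝓝 0) := by
      rw [tendsto_zero_iff_norm_tendsto_zero]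
      have : Tendsto (fun n : ℕ => (n:ℝ) ^ (-(s.re - 1))) atTop (𝓝 0) :=
        (tendsto_rpow_neg_atTop (by linarith)).comp tendsto_natCast_atTop_atTop
      refine this.congr' ?_
      filter_upwards [eventually_ge_atTop 1] with n hn
      have hn' : (0:ℝ) < n := by exact_mod_cast hn
      rw [norm_pw hn']
      simp
    have h3 : Tendsto (fun n : ℕ => (s - 1) * (∑ k ∈ Finset.Icc 1 n, pw s k) + (pw (s - 1) n - 1)) atTop
        (𝓝 ((s - 1) * riemannZeta s + (0 - 1))) := by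
      refine Tendsto.add (Tendsto.const_mul _ ?_) (h4.sub_const 1)
      rw [DirichletCharacter.LFunction_modOne_eq] at h2
      refine h2.congr fun n => ?_
      refine Finset.sum_congr rfl fun k _ => ?_
      have : (1 : DirichletCharacter ℂ 1) (k : ZMod 1) = 1 := by
        rw [Subsingleton.elim (k : ZMod 1) 1, map_one]
      rw [this, one_mul]
    have h5 : Tendsto (fun n : ℕ => (s - 1) * FF 1 (fun _ => 1) s n) atTop
        (𝓝 ((s - 1) * riemannZeta s + (0 - 1))) := by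
      refine h3.congr' ?_
      filter_upwards [eventually_ge_atTop 1] with n hn
      rw [zeta_mul_FF s hn]
    rw [tendsto_nhds_unique h1 h5]
    rw [DirichletCharacter.LFunctionTrivChar₁, Function.update_of_ne hs1,
        LFunctionTrivChar_one_eq]
    ring

end Vale.Agent.P026.H392
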