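import Vale.Agent.P026.H392.KEmain
import Vale.Agent.P026.H392.Link

open Complex Set Filter Topology MeasureTheory intervalIntegral

namespace Vale.Agent.P026.H392

/-- `KE` with the limit identified: Dirichlet L-functions and zeta. -/
theorem KE_link {C c : ℝ} (hC : 0 < C) (hc : 0 < c) (hVK : VKSum C c) {A : ℝ} (hA : 1 ≤ A) :
    ∃ κ d₀ M₀ : ℝ, 10 ≤ κ ∧ 0 < d₀ ∧ d₀ ≤ 1/8 ∧ 1 ≤ M₀ ∧
      ∀ Q T d : ℝ, 1 ≤ Q → 3 ≤ T → 0 ≤ d → d ≤ d₀ →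
      (∀ (q : ℕ) [NeZero q] (χ : DirichletCharacter ℂ q), (q:ℝ) ≤ Q^2 → χ ≠ 1 →
        ∀ s : ℂ, 1 - 2 * d ≤ s.re → s.re ≤ 2 → |s.im| ≤ 4 * T →
        ∀ x : ℝ, Real.exp (κ * MM M₀ Q T d) ≤ x →
          ‖(∑ n ∈ Finset.Icc 1 ⌊x⌋₊, χ (n : ZMod q) * pw s n) - DirichletCharacter.LFunction χ s‖
            ≤ (MM M₀ Q T d) ^ (-A) * Real.exp (-A * κ * d * MM M₀ Q T d)) ∧
      (∀ s : ℂ, s ≠ 1 → 1 - 2 * d ≤ s.re → s.re ≤ 2 → |s.im| ≤ 4 * T →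
        ∀ x : ℝ, Real.exp (κ * MM M₀ Q T d) ≤ x →
          ‖(∑ n ∈ Finset.Icc 1 ⌊x⌋₊, pw s n) - pw (s - 1) x / (1 - s) - riemannZeta s‖
            ≤ (MM M₀ Q T d) ^ (-A) * Real.exp (-A * κ * d * MM M₀ Q T d)) := by
  obtain ⟨κ, d₀, M₀, hκ, hd₀, hd₀', hM₀, H⟩ := KE hC hc hVK hA
  refine ⟨κ, min d₀ (1/8), M₀, hκ, lt_min hd₀ (by norm_num), min_le_right _ _, hM₀, ?_⟩
  intro Q T d hQ hT hd hdd
  have hd1 : d ≤ d₀ := hdd.trans (min_le_left _ _)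
  have hd2 : d ≤ 1/8 := hdd.trans (min_le_right _ _)
  constructor
  · intro q _ χ hq hχ s hs1 hs2 him x hx
    have hq0 : 0 < q := Nat.pos_of_ne_zero (NeZero.ne q)
    obtain ⟨ℓ, h1, h2⟩ := H Q T d hQ hT hd hd1 q hq0 hq (fun n => χ (n : ZMod q))
      (fun n => DirichletCharacter.norm_le_one χ _) (fun n => by simp) s hs1 hs2 him
    have e : DirichletCharacter.LFunction χ s = ℓ :=
      tendsto_nhds_unique (link_char hχ (by linarith)) h1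
    have h3 := h2 x hx
    rw [mean_char hχ, zero_mul, sub_zero, ← e] at h3
    exact h3
  · intro s hs s1 hs2 him x hx
    obtain ⟨ℓ, h1, h2⟩ := H Q T d hQ hT hd hd1 1 one_pos (by push_cast; nlinarith) (fun _ => 1)
      (fun n => by simp) (fun n => rfl) s s1 hs2 him
    have e : riemannZeta s - 1/(s - 1) = ℓ :=
      tendsto_nhds_unique (link_zeta (by linarith) hs) h1
    have h3 := h2 x hx
    have hx0 : 0 < x := (Real.exp_pos _).trans_le hx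
    rw [mean_one, one_mul, integral_pw hs one_pos hx0, ← e] at h3
    simp only [one_mul] at h3
    refine le_of_eq_of_le (congrArg norm ?_) h3
    have a1 : (1 - s) ≠ 0 := sub_ne_zero.2 (Ne.symm hs)
    have a2 : (s - 1) ≠ 0 := sub_ne_zero.2 hs
    have a3 : pw (s - 1) 1 = 1 := by simp [pw]
    have a4 : (1:ℂ)/(s - 1) = - (1/(1 - s)) := by
      rw [← neg_sub, one_div_neg_eq_neg_one_div]
    rw [a3, a4]
    field_simp
    ring

lemma norm_sum_pw_le {ψ : ℕ → ℂ} (hψ : ∀ n, ‖ψ n‖ ≤ 1) {s : ℂ} {e x : ℝ} (he : 0 ≤ e)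
    (hs : 1 - e ≤ s.re) (hx : 1 ≤ x) :
    ‖∑ n ∈ Finset.Icc 1 ⌊x⌋₊, ψ n * pw s n‖ ≤ x ^ e * (1 + Real.log x) := by
  have h1 : ∀ n ∈ Finset.Icc 1 ⌊x⌋₊, ‖ψ n * pw s n‖ ≤ x ^ e * (n:ℝ)⁻¹ := by
    intro n hn
    rw [Finset.mem_Icc] at hn
    have hn0 : (0:ℝ) < n := by exact_mod_cast hn.1
    have hn1 : (1:ℝ) ≤ n := by exact_mod_cast hn.1
    have hnx : (n:ℝ) ≤ x := (Nat.le_floor_iff (by linarith)).1 hn.2
    rw [norm_mul, norm_pw hn0]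
    calc ‖ψ n‖ * (n:ℝ) ^ (-s.re) ≤ 1 * (n:ℝ) ^ (e + -1) := by
          refine mul_le_mul (hψ n) ?_ (by positivity) zero_le_one
          exact Real.rpow_le_rpow_of_exponent_le hn1 (by linarith)
      _ = (n:ℝ) ^ e * (n:ℝ)⁻¹ := by
          rw [one_mul, Real.rpow_add hn0, Real.rpow_neg_one]
      _ ≤ x ^ e * (n:ℝ)⁻¹ := by
          refine mul_le_mul_of_nonneg_right ?_ (by positivity)
          exact Real.rpow_le_rpow hn0.le hnx he
  have h2 : ∑ n ∈ Finset.Icc 1 ⌊x⌋₊, (n:ℝ)⁻¹ ≤ 1 + Real.log x := by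
    have := harmonic_floor_le_one_add_log x hx
    rw [harmonic_eq_sum_Icc] at this
    push_cast at this
    exact this
  calc _ ≤ ∑ n ∈ Finset.Icc 1 ⌊x⌋₊, ‖ψ n * pw s n‖ := norm_sum_le _ _
    _ ≤ ∑ n ∈ Finset.Icc 1 ⌊x⌋₊, x ^ e * (n:ℝ)⁻¹ := Finset.sum_le_sum h1
    _ = x ^ e * ∑ n ∈ Finset.Icc 1 ⌊x⌋₊, (n:ℝ)⁻¹ := by rw [Finset.mul_sum]
    _ ≤ _ := mul_le_mul_of_nonneg_left h2 (by positivity)

/-- Upper bound for `L(s, χ)` just to the left of `1` (Vinogradov–Korobov strength). -/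
theorem L_upper {C c : ℝ} (hC : 0 < C) (hc : 0 < c) (hVK : VKSum C c) :
    ∃ κ d₀ M₀ : ℝ, 10 ≤ κ ∧ 0 < d₀ ∧ d₀ ≤ 1/8 ∧ 1 ≤ M₀ ∧
      ∀ Q T d : ℝ, 1 ≤ Q → 3 ≤ T → 0 ≤ d → d ≤ d₀ →
      ∀ (q : ℕ) [NeZero q] (χ : DirichletCharacter ℂ q), (q:ℝ) ≤ Q^2 →
        ∀ s : ℂ, 1 - 2 * d ≤ s.re → s.re ≤ 2 → |s.im| ≤ 4 * T →
        (χ ≠ 1 ∨ (q = 1 ∧ 1/2 ≤ |s.im|)) →
          ‖DirichletCharacter.LFunction χ s‖
            ≤ Real.exp (2 * d * κ * MM M₀ Q T d) * (4 + κ * MM M₀ Q T d) := by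
  obtain ⟨κ, d₀, M₀, hκ, hd₀, hd₀', hM₀, H⟩ := KE_link hC hc hVK le_rfl
  refine ⟨κ, d₀, M₀, hκ, hd₀, hd₀', hM₀, ?_⟩
  intro Q T d hQ hT hd hdd q _ χ hq s hs1 hs2 him hχ
  obtain ⟨H1, H2⟩ := H Q T d hQ hT hd hdd
  set M := MM M₀ Q T d with hM
  have hLL := LL_nonneg hQ hT
  have hlT := log_T_pos hT
  have hM1 : 1 ≤ M := by
    have h2 : 0 ≤ Real.sqrt d * Real.log T := by positivity
    rw [hM]; unfold MM; linarith
  have hM0 : 0 < M := by linarith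
  set x := Real.exp (κ * M) with hx
  have hx1 : 1 ≤ x := Real.one_le_exp (by positivity)
  have hx0 : 0 < x := by linarith
  have hlx : Real.log x = κ * M := Real.log_exp _
  have hxd : x ^ (2 * d) = Real.exp (2 * d * κ * M) := by
    rw [hx, ← Real.exp_mul]; congr 1; ring
  have herr : M ^ (-(1:ℝ)) * Real.exp (-1 * κ * d * M) ≤ 1 := by
    have h1 : M ^ (-(1:ℝ)) ≤ 1 := Real.rpow_le_one_of_one_le_of_nonpos hM1 (by norm_num)
    have h2 : Real.exp (-1 * κ * d * M) ≤ 1 := by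
      rw [Real.exp_le_one_iff]
      have : 0 ≤ κ * d * M := by positivity
      linarith
    calc _ ≤ 1 * 1 := mul_le_mul h1 h2 (Real.exp_pos _).le zero_le_one
      _ = 1 := one_mul 1
  have hE1 : 1 ≤ Real.exp (2 * d * κ * M) := Real.one_le_exp (by positivity)
  by_cases h1 : χ = 1
  · obtain ⟨hq1, him2⟩ := hχ.resolve_left (fun h => h h1)
    subst hq1
    rw [DirichletCharacter.LFunction_modOne_eq]
    have hs : s ≠ 1 := by
      intro h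
      rw [h] at him2
      norm_num at him2
    have hb := H2 s hs hs1 hs2 him x le_rfl
    have hsum := norm_sum_pw_le (ψ := fun _ => 1) (fun n => by simp) (s := s) (e := 2 * d) (by positivity)
      hs1 hx1
    simp only [one_mul] at hsum
    have hpole : ‖pw (s - 1) x / (1 - s)‖ ≤ 2 * x ^ (2 * d) := by
      rw [norm_div, norm_pw hx0]
      have a1 : 1/2 ≤ ‖1 - s‖ := by
        have := Complex.abs_im_le_norm (1 - s)
        rw [Complex.sub_im, Complex.one_im, zero_sub, abs_neg] at this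
        linarith
      have a2 : x ^ (-(s - 1).re) ≤ x ^ (2 * d) := by
        refine Real.rpow_le_rpow_of_exponent_le hx1 ?_
        rw [Complex.sub_re, Complex.one_re]; linarith
      rw [div_le_iff₀ (by linarith)]
      have : 0 ≤ x ^ (2 * d) := by positivity
      nlinarith
    have e : riemannZeta s = (∑ n ∈ Finset.Icc 1 ⌊x⌋₊, pw s n) - pw (s - 1) x / (1 - s)
        - ((∑ n ∈ Finset.Icc 1 ⌊x⌋₊, pw s n) - pw (s - 1) x / (1 - s) - riemannZeta s) := by ring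
    rw [e]
    have h3 := norm_sub_le ((∑ n ∈ Finset.Icc 1 ⌊x⌋₊, pw s n) - pw (s - 1) x / (1 - s))
      ((∑ n ∈ Finset.Icc 1 ⌊x⌋₊, pw s n) - pw (s - 1) x / (1 - s) - riemannZeta s)
    have h4 := norm_sub_le (∑ n ∈ Finset.Icc 1 ⌊x⌋₊, pw s n) (pw (s - 1) x / (1 - s))
    rw [hxd, hlx] at hsum
    rw [hxd] at hpole
    nlinarith
  · have hb := H1 q χ hq h1 s hs1 hs2 him x le_rfl
    have hsum := norm_sum_pw_le (ψ := fun n : ℕ => χ (n : ZMod q))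
      (fun n => DirichletCharacter.norm_le_one χ _) (s := s) (e := 2 * d) (by positivity) hs1 hx1
    have e : DirichletCharacter.LFunction χ s = (∑ n ∈ Finset.Icc 1 ⌊x⌋₊, χ (n : ZMod q) * pw s n)
        - ((∑ n ∈ Finset.Icc 1 ⌊x⌋₊, χ (n : ZMod q) * pw s n) - DirichletCharacter.LFunction χ s) := by
      ring
    rw [e]
    have h3 := norm_sub_le (∑ n ∈ Finset.Icc 1 ⌊x⌋₊, χ (n : ZMod q) * pw s n)
        ((∑ n ∈ Finset.Icc 1 ⌊x⌋₊, χ (n : ZMod q) * pw s n) - DirichletCharacter.LFunction χ s)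
    rw [hxd, hlx] at hsum
    nlinarith

end Vale.Agent.P026.H392
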