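import Vale.Agent.P026.H392.SieveB
import Vale.Agent.P026.H142.Pair

open Complex Set Filter Topology

namespace Vale.Agent.P026.H392

/-- `KE` for every sufficiently large additive constant. -/
theorem KE_any {C c : ℝ} (hC : 0 < C) (hc : 0 < c) (hVK : VKSum C c) {A : ℝ} (hA : 1 ≤ A) :
    ∃ κ d₀ M₁ : ℝ, 10 ≤ κ ∧ 0 < d₀ ∧ d₀ ≤ 1/8 ∧ 1 ≤ M₁ ∧ ∀ M₀, M₁ ≤ M₀ →
      ∀ Q T d : ℝ, 1 ≤ Q → 3 ≤ T → 0 ≤ d → d ≤ d₀ →
      ∀ q : ℕ, 0 < q → (q:ℝ) ≤ Q^2 →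
      ∀ ψ : ℕ → ℂ, (∀ n, ‖ψ n‖ ≤ 1) → (∀ n, ψ (n + q) = ψ n) →
      ∀ s : ℂ, 1 - 2 * d ≤ s.re → s.re ≤ 2 → |s.im| ≤ 4 * T →
      ∃ ℓ : ℂ, Tendsto (FF q ψ s) atTop (𝓝 ℓ) ∧
        ∀ x : ℝ, Real.exp (κ * MM M₀ Q T d) ≤ x →
          ‖(∑ n ∈ Finset.Icc 1 ⌊x⌋₊, ψ n * pw s n) - mean q ψ * (∫ u in (1:ℝ)..x, pw s u) - ℓ‖
            ≤ (MM M₀ Q T d) ^ (-A) * Real.exp (-A * κ * d * MM M₀ Q T d) := by
  obtain ⟨κ, d₀, M₁, hκ, hd₀, _, hM₁, h⟩ := KE hC hc hVK hA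
  refine ⟨κ, min d₀ (1/8), M₁, hκ, lt_min hd₀ (by norm_num), min_le_right _ _, hM₁, ?_⟩
  intro M₀ hM₀ Q T d hQ hT hd hdd q hq hqQ ψ hψ hper s hs1 hs2 him
  set Q' := Q * Real.exp (M₀ - M₁) with hQ'
  have he : 1 ≤ Real.exp (M₀ - M₁) := Real.one_le_exp (by linarith)
  have hQQ' : Q ≤ Q' := by
    rw [hQ']; exact le_mul_of_one_le_right (by linarith) he
  have hMM : MM M₁ Q' T d = MM M₀ Q T d := by
    unfold MM LL
    rw [hQ', Real.log_mul (by linarith) (Real.exp_pos _).ne', Real.log_exp]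
    ring
  have := h Q' T d (hQ.trans hQQ') hT hd (hdd.trans (min_le_left _ _)) q hq
    (hqQ.trans (pow_le_pow_left₀ (by linarith) hQQ' 2)) ψ hψ hper s hs1 hs2 him
  rw [hMM] at this
  exact this

/-- The conclusion of `KE` with exponent `20`, for every large additive constant. -/
def KEH (κ d₀ M₁ : ℝ) : Prop := ∀ M₀, M₁ ≤ M₀ →
      ∀ Q T d : ℝ, 1 ≤ Q → 3 ≤ T → 0 ≤ d → d ≤ d₀ →
      ∀ q : ℕ, 0 < q → (q:ℝ) ≤ Q^2 →
      ∀ ψ : ℕ → ℂ, (∀ n, ‖ψ n‖ ≤ 1) → (∀ n, ψ (n + q) = ψ n) →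
      ∀ s : ℂ, 1 - 2 * d ≤ s.re → s.re ≤ 2 → |s.im| ≤ 4 * T →
      ∃ ℓ : ℂ, Tendsto (FF q ψ s) atTop (𝓝 ℓ) ∧
        ∀ x : ℝ, Real.exp (κ * MM M₀ Q T d) ≤ x →
          ‖(∑ n ∈ Finset.Icc 1 ⌊x⌋₊, ψ n * pw s n) - mean q ψ * (∫ u in (1:ℝ)..x, pw s u) - ℓ‖
            ≤ (MM M₀ Q T d) ^ (-(20:ℝ)) * Real.exp (-20 * κ * d * MM M₀ Q T d)

theorem exists_KEH {C c : ℝ} (hC : 0 < C) (hc : 0 < c) (hVK : VKSum C c) :
    ∃ κ d₀ M₁ : ℝ, 10 ≤ κ ∧ 0 < d₀ ∧ d₀ ≤ 1/8 ∧ 1 ≤ M₁ ∧ KEH κ d₀ M₁ :=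
  KE_any hC hc hVK (A := 20) (by norm_num)

/-- Real values of a character. -/
structure RealChar {q : ℕ} (χ : DirichletCharacter ℂ q) (x : ℕ → ℝ) : Prop where
  eq : ∀ n : ℕ, χ (n : ZMod q) = ((x n : ℝ) : ℂ)

lemma RealChar.one {q : ℕ} {χ : DirichletCharacter ℂ q} {x : ℕ → ℝ} (h : RealChar χ x) : x 1 = 1 := by
  have := h.eq 1
  rw [Nat.cast_one, map_one] at this
  exact_mod_cast this.symm

lemma RealChar.mul {q : ℕ} {χ : DirichletCharacter ℂ q} {x : ℕ → ℝ} (h : RealChar χ x) (m n : ℕ) :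
    x (m * n) = x m * x n := by
  have h1 := h.eq (m * n)
  rw [Nat.cast_mul, map_mul, h.eq m, h.eq n] at h1
  exact_mod_cast h1.symm

lemma RealChar.abs_le {q : ℕ} {χ : DirichletCharacter ℂ q} {x : ℕ → ℝ} (h : RealChar χ x) (n : ℕ) :
    |x n| ≤ 1 := by
  have h1 := DirichletCharacter.norm_le_one χ (n : ZMod q)
  rwa [h.eq n, Complex.norm_real, Real.norm_eq_abs] at h1

lemma pw_mul_nat {s : ℂ} (hs : s ≠ 0) (m n : ℕ) : pw s ((m * n : ℕ) : ℝ) = pw s m * pw s n := by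
  have h0 : pw s ((0 : ℕ) : ℝ) = 0 := by
    unfold pw
    simp only [Nat.cast_zero, Complex.ofReal_zero]
    exact Complex.zero_cpow (neg_ne_zero.2 hs)
  rcases Nat.eq_zero_or_pos m with rfl | hm
  · rw [zero_mul, h0, zero_mul]
  rcases Nat.eq_zero_or_pos n with rfl | hn
  · rw [mul_zero, h0, mul_zero]
  push_cast
  exact pw_mul (by exact_mod_cast hm) (by exact_mod_cast hn)

lemma norm_mul_pw_le {g : ℕ → ℂ} (hg : ∀ n, ‖g n‖ ≤ 1) {s : ℂ} {d : ℝ} (hs : 1 - d ≤ s.re) (n : ℕ)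
    (hn : 1 ≤ n) : ‖g n * pw s n‖ ≤ (n:ℝ) ^ (-(1 - d)) := by
  have hn0 : (0:ℝ) < n := by exact_mod_cast hn
  have hn1 : (1:ℝ) ≤ n := by exact_mod_cast hn
  rw [norm_mul, norm_pw hn0]
  calc ‖g n‖ * (n:ℝ) ^ (-s.re) ≤ 1 * (n:ℝ) ^ (-(1 - d)) :=
        mul_le_mul (hg n) (Real.rpow_le_rpow_of_exponent_le hn1 (by linarith)) (by positivity) zero_le_one
    _ = _ := one_mul _

/-- The convolution value. -/
lemma conv_value {q : ℕ} (χ : DirichletCharacter ℂ q) (x : ℕ → ℝ) {s : ℂ} (hs : s ≠ 0) (n : ℕ) :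
    (∑ d ∈ n.divisors, (χ (d : ZMod q) * pw s d) * (((x (n / d) : ℝ) : ℂ) * χ ((n / d : ℕ) : ZMod q)
        * pw s ((n / d : ℕ) : ℝ)))
      = ((fE x n : ℝ) : ℂ) * (χ (n : ZMod q) * pw s n) := by
  have h1 : ∀ d ∈ n.divisors, (χ (d : ZMod q) * pw s d) * (((x (n / d) : ℝ) : ℂ) * χ ((n / d : ℕ) : ZMod q)
        * pw s ((n / d : ℕ) : ℝ)) = ((x (n / d) : ℝ) : ℂ) * (χ (n : ZMod q) * pw s n) := by
    intro d hd
    have hdn := Nat.dvd_of_mem_divisors hd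
    have e1 : χ (n : ZMod q) = χ (d : ZMod q) * χ ((n / d : ℕ) : ZMod q) := by
      rw [← map_mul, ← Nat.cast_mul, Nat.mul_div_cancel' hdn]
    have e2 : pw s (n:ℝ) = pw s (d:ℝ) * pw s ((n / d : ℕ) : ℝ) := by
      rw [← pw_mul_nat hs, Nat.mul_div_cancel' hdn]
    rw [e1, e2]; ring
  rw [Finset.sum_congr rfl h1, ← Finset.sum_mul]
  congr 1
  unfold fE
  rw [← Nat.sum_div_divisors n (fun b => x b)]
  push_cast
  rfl

/-- Arithmetic of the error terms. -/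
lemma twist_arith {κ M d K₀ : ℝ} (hκ : 10 ≤ κ) (hd : 0 ≤ d) (hK₀ : 0 ≤ K₀)
    (hM : 8 * (23 * κ + 2 * K₀) * (5 * κ) ^ 16 ≤ M) :
    (M ^ (-(20:ℝ)) * Real.exp (-20 * κ * d * M)) * Real.exp (10 * κ * M) ^ d
        * (3 + 2 * Real.log (Real.exp (10 * κ * M)) + 2 * K₀)
      * (⌊Real.exp (2 * κ * M)⌋₊ : ℝ) ^ (2 * d) * (1 + 2 * Real.log (⌊Real.exp (2 * κ * M)⌋₊ : ℝ)) ^ 16
      ≤ 1/8 := by
  have h23 : (1:ℝ) ≤ 8 * (23 * κ + 2 * K₀) := by nlinarith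
  have h5κ : (1:ℝ) ≤ (5 * κ) ^ 16 := one_le_pow₀ (by linarith)
  have hM1 : 1 ≤ M := by
    calc (1:ℝ) = 1 * 1 := (one_mul 1).symm
      _ ≤ 8 * (23 * κ + 2 * K₀) * (5 * κ) ^ 16 := mul_le_mul h23 h5κ zero_le_one (by linarith)
      _ ≤ M := hM
  have hM0 : 0 < M := by linarith
  have hκ0 : 0 < κ := by linarith
  have hexp1 : 1 ≤ Real.exp (2 * κ * M) := Real.one_le_exp (by positivity)
  set N := ⌊Real.exp (2 * κ * M)⌋₊ with hN
  have hN1 : 1 ≤ N := Nat.one_le_iff_ne_zero.2 (Nat.floor_pos.2 hexp1).ne'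
  have hN1R : (1:ℝ) ≤ N := by exact_mod_cast hN1
  have hNle : (N:ℝ) ≤ Real.exp (2 * κ * M) := Nat.floor_le (by positivity)
  have hlogN : Real.log N ≤ 2 * κ * M := by
    rw [← Real.log_exp (2 * κ * M)]
    exact Real.log_le_log (by linarith) hNle
  have hlogN0 : 0 ≤ Real.log N := Real.log_nonneg hN1R
  rw [Real.log_exp]
  have e1 : Real.exp (10 * κ * M) ^ d = Real.exp (10 * κ * d * M) := by
    rw [← Real.exp_mul]; congr 1; ring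
  have e2 : (N:ℝ) ^ (2 * d) ≤ Real.exp (4 * κ * d * M) := by
    calc (N:ℝ) ^ (2 * d) ≤ Real.exp (2 * κ * M) ^ (2 * d) :=
          Real.rpow_le_rpow (by linarith) hNle (by linarith)
      _ = _ := by rw [← Real.exp_mul]; congr 1; ring
  have e3 : (1 + 2 * Real.log N) ^ 16 ≤ (5 * κ * M) ^ 16 := by
    refine pow_le_pow_left₀ (by linarith) ?_ 16
    have : 10 * 1 ≤ κ * M := mul_le_mul hκ hM1 zero_le_one hκ0.le
    nlinarith
  have e4 : 3 + 2 * (10 * κ * M) + 2 * K₀ ≤ (23 * κ + 2 * K₀) * M := by nlinarith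
  rw [e1]
  calc (M ^ (-(20:ℝ)) * Real.exp (-20 * κ * d * M)) * Real.exp (10 * κ * d * M)
        * (3 + 2 * (10 * κ * M) + 2 * K₀) * (N:ℝ) ^ (2 * d) * (1 + 2 * Real.log N) ^ 16
      ≤ (M ^ (-(20:ℝ)) * Real.exp (-20 * κ * d * M)) * Real.exp (10 * κ * d * M)
        * ((23 * κ + 2 * K₀) * M) * Real.exp (4 * κ * d * M) * (5 * κ * M) ^ 16 := by
        gcongr
    _ = ((23 * κ + 2 * K₀) * (5 * κ) ^ 16) * (M ^ (-(20:ℝ)) * M ^ 17)
          * (Real.exp (-20 * κ * d * M) * Real.exp (10 * κ * d * M) * Real.exp (4 * κ * d * M)) := by ring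
    _ = ((23 * κ + 2 * K₀) * (5 * κ) ^ 16) * M ^ (-(3:ℝ)) * Real.exp (-6 * κ * d * M) := by
        rw [← Real.exp_add, ← Real.exp_add, ← Real.rpow_natCast M 17, ← Real.rpow_add hM0]
        congr 2
        · norm_num
        · ring
    _ ≤ ((23 * κ + 2 * K₀) * (5 * κ) ^ 16) * M⁻¹ * 1 := by
        have h1 : M ^ (-(3:ℝ)) ≤ M⁻¹ := by
          rw [← Real.rpow_neg_one]
          exact Real.rpow_le_rpow_of_exponent_le hM1 (by norm_num)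
        have h2 : Real.exp (-6 * κ * d * M) ≤ 1 := by
          rw [Real.exp_le_one_iff]
          have : 0 ≤ κ * d * M := by positivity
          linarith
        gcongr
    _ ≤ 1/8 := by
        rw [mul_one, mul_inv_le_iff₀ hM0]
        linarith

/-- Twisted sums at a zero: the generic case. -/
theorem twist_generic {κ d₀ M₁ : ℝ} (H : KEH κ d₀ M₁) (hκ : 10 ≤ κ) (hd₀' : d₀ ≤ 1/8) (hM₁ : 1 ≤ M₁)
    {K₀ : ℝ} (hK₀ : 0 ≤ K₀) {M₀ : ℝ} (hM₀1 : M₁ ≤ M₀)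
    (hM₀2 : 8 * (23 * κ + 2 * K₀) * (5 * κ) ^ 16 ≤ M₀)
    {Q T d : ℝ} (hQ : 1 ≤ Q) (hT : 3 ≤ T) (hd : 0 ≤ d) (hdd : d ≤ d₀)
    {q₁ : ℕ} [NeZero q₁] {χ₁ : DirichletCharacter ℂ q₁} {x : ℕ → ℝ} (hq₁ : (q₁:ℝ) ≤ Q)
    (hprim₁ : χ₁.IsPrimitive) (hx : RealChar χ₁ x) {w : ℕ → ℝ} (hw : ∀ e, |w e| ≤ 1)
    (hws : ∀ e, w e ≠ 0 → Squarefree e ∧ e ≤ ⌊Real.exp (2 * κ * MM M₀ Q T d)⌋₊)
    {q : ℕ} [NeZero q] {χ : DirichletCharacter ℂ q} {ρ : ℂ} (hq : (q:ℝ) ≤ Q) (hprim : χ.IsPrimitive)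
    (hχ : χ ≠ 1) (hne : (⟨q, χ⟩ : Σ q : ℕ, DirichletCharacter ℂ q) ≠ ⟨q₁, χ₁⟩)
    (hzero : DirichletCharacter.LFunction χ ρ = 0) (hre : 1 - d ≤ ρ.re) (him : |ρ.im| ≤ T) :
    ‖∑ n ∈ Finset.Icc 1 ⌊Real.exp (10 * κ * MM M₀ Q T d)⌋₊,
      (((∑ e ∈ n.divisors, w e) ^ 2 : ℝ) : ℂ) * (((fE x n : ℝ) : ℂ) * (χ (n : ZMod q) * pw ρ n))‖
      ≤ 1/8 := by
  set M := MM M₀ Q T d with hM
  have hLL := LL_nonneg hQ hT
  have hlT := log_T_pos hT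
  have hMM₀ : M₀ ≤ M := by
    have h2 : 0 ≤ Real.sqrt d * Real.log T := by positivity
    rw [hM]; unfold MM; linarith
  have harith := twist_arith (d := d) hκ hd hK₀ (hM₀2.trans hMM₀)
  have hM1 : 1 ≤ M := hM₁.trans (hM₀1.trans hMM₀)
  have hM0 : 0 < M := by linarith
  have hκ0 : 0 < κ := by linarith
  have hq0 : 0 < q := Nat.pos_of_ne_zero (NeZero.ne q)
  have hq₁0 : 0 < q₁ := Nat.pos_of_ne_zero (NeZero.ne q₁)
  have hρ1 : ρ.re ≤ 1 := by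
    by_contra hcon
    exact DirichletCharacter.LFunction_ne_zero_of_one_le_re χ (Or.inl hχ) (not_le.1 hcon).le hzero
  have hρ0 : ρ ≠ 0 := by
    intro h; rw [h] at hre; simp at hre; linarith
  set ε := M ^ (-(20:ℝ)) * Real.exp (-20 * κ * d * M) with hε
  have hε0 : 0 ≤ ε := by positivity
  have hε1 : ε ≤ 1 := by
    have h1 : M ^ (-(20:ℝ)) ≤ 1 := Real.rpow_le_one_of_one_le_of_nonpos hM1 (by norm_num)
    have h2 : Real.exp (-20 * κ * d * M) ≤ 1 := by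
      rw [Real.exp_le_one_iff]
      have : 0 ≤ κ * d * M := by positivity
      linarith
    calc ε ≤ 1 * 1 := mul_le_mul h1 h2 (Real.exp_pos _).le zero_le_one
      _ = 1 := one_mul 1
  set u : ℕ → ℂ := fun n => χ (n : ZMod q) * pw ρ n with hu
  set v : ℕ → ℂ := fun n => ((x n : ℝ) : ℂ) * χ (n : ZMod q) * pw ρ n with hv
  -- partial sums of u
  obtain ⟨ℓ, hℓ1, hℓ2⟩ := H M₀ hM₀1 Q T d hQ hT hd hdd q hq0 (hq.trans (by nlinarith))
    (fun n => χ (n : ZMod q)) (fun n => DirichletCharacter.norm_le_one χ _) (fun n => by simp) ρ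
    (by linarith) (by linarith) (by linarith)
  have hℓ0 : ℓ = 0 := by
    rw [← hzero]
    exact tendsto_nhds_unique hℓ1 (link_char hχ (by linarith))
  have hA : ∀ t : ℝ, Real.exp (κ * M) ≤ t →
      ‖(∑ n ∈ Finset.Icc 1 ⌊t⌋₊, u n) - 0 - 0 * pw (ρ - 1) t‖ ≤ ε := by
    intro t ht
    have h1 := hℓ2 t ht
    rw [mean_char hχ, hℓ0, zero_mul, sub_zero] at h1
    rw [zero_mul, sub_zero]
    exact h1
  -- partial sums of v
  have hvper : ∀ n : ℕ, ((x (n + q * q₁) : ℝ) : ℂ) * χ ((n + q * q₁ : ℕ) : ZMod q)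
      = ((x n : ℝ) : ℂ) * χ (n : ZMod q) := by
    intro n
    rw [← hx.eq, ← hx.eq]
    simp
  have hvnorm : ∀ n : ℕ, ‖((x n : ℝ) : ℂ) * χ (n : ZMod q)‖ ≤ 1 := by
    intro n
    rw [norm_mul, Complex.norm_real, Real.norm_eq_abs]
    calc |x n| * ‖χ (n : ZMod q)‖ ≤ 1 * 1 :=
          mul_le_mul (hx.abs_le n) (DirichletCharacter.norm_le_one χ _) (norm_nonneg _) zero_le_one
      _ = 1 := one_mul 1
  have hmean : mean (q * q₁) (fun n => ((x n : ℝ) : ℂ) * χ (n : ZMod q)) = 0 := by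
    unfold mean
    have h1 := H142.pair_sum_zero hq0 hq₁0 χ χ₁ hprim hprim₁ hne
    have h2 : ∑ a ∈ Finset.range (q * q₁), ((x a : ℝ) : ℂ) * χ (a : ZMod q)
        = ∑ a ∈ Finset.range (q * q₁), χ (a : ZMod q) * (starRingEnd ℂ) (χ₁ (a : ZMod q₁)) := by
      refine Finset.sum_congr rfl fun a _ => ?_
      rw [hx.eq, Complex.conj_ofReal]; ring
    rw [h2, h1, zero_div]
  obtain ⟨β, hβ1, hβ2⟩ := H M₀ hM₀1 Q T d hQ hT hd hdd (q * q₁) (Nat.mul_pos hq0 hq₁0)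
    (by push_cast; nlinarith [show (0:ℝ) < q by exact_mod_cast hq0, show (0:ℝ) < q₁ by exact_mod_cast hq₁0])
    (fun n => ((x n : ℝ) : ℂ) * χ (n : ZMod q)) hvnorm hvper ρ
    (by linarith) (by linarith) (by linarith)
  have hB : ∀ t : ℝ, Real.exp (κ * M) ≤ t → ‖(∑ n ∈ Finset.Icc 1 ⌊t⌋₊, v n) - β‖ ≤ ε := by
    intro t ht
    have h1 := hβ2 t ht
    rw [hmean, zero_mul, sub_zero] at h1
    exact h1
  have hub : ∀ n : ℕ, 1 ≤ n → ‖u n‖ ≤ (n:ℝ) ^ (-(1 - d)) := fun n hn =>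
    norm_mul_pw_le (g := fun n => χ (n : ZMod q)) (fun n => DirichletCharacter.norm_le_one χ _) hre n hn
  have hvb : ∀ n : ℕ, 1 ≤ n → ‖v n‖ ≤ (n:ℝ) ^ (-(1 - d)) := fun n hn =>
    norm_mul_pw_le (g := fun n => ((x n : ℝ) : ℂ) * χ (n : ZMod q)) hvnorm hre n hn
  set X := Real.exp (10 * κ * M) with hX
  have hX1 : 1 ≤ X := Real.one_le_exp (by positivity)
  have hX0 : 0 < X := by linarith
  set N := ⌊Real.exp (2 * κ * M)⌋₊ with hN
  have hN1 : 1 ≤ N := Nat.one_le_iff_ne_zero.2 (Nat.floor_pos.2 (Real.one_le_exp (by positivity))).ne'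
  have hNle : (N:ℝ) ≤ Real.exp (2 * κ * M) := Nat.floor_le (by positivity)
  set E := ε * X ^ d * (3 + 2 * Real.log X + 2 * K₀) with hE
  have hlX : 0 ≤ Real.log X := Real.log_nonneg hX1
  have hE0 : 0 ≤ E := by positivity
  have hest : ∀ y, Real.exp (2 * κ * M) ≤ y → y ≤ X → ‖cv u v y - 0 * pw (ρ - 1) y‖ ≤ E := by
    intro y hy hyX
    have hy1 : 1 ≤ y := (Real.one_le_exp (by positivity)).trans hy
    have h1 := hyper_est (u := u) (v := v) (s := ρ) (α := 0) (β := β) (κ₀ := 0) (lam := 0) (d := d)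
      (ε := ε) (x₀ := Real.exp (κ * M)) (y := y) hd hre hub hvb hε0 hε1
      (Real.one_le_exp (by positivity)) (by
        rw [← Real.exp_nat_mul]
        refine le_trans (le_of_eq ?_) hy
        congr 1; push_cast; ring) hA hB (Or.inl rfl)
    rw [zero_mul, sub_zero, zero_mul, zero_mul, sub_zero, norm_zero, mul_zero, add_zero] at h1
    rw [zero_mul, sub_zero]
    refine h1.trans ?_
    rw [hE]
    have hyd : y ^ d ≤ X ^ d := Real.rpow_le_rpow (by linarith) hyX hd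
    have hly : Real.log y ≤ Real.log X := Real.log_le_log (by linarith) hyX
    have hly0 : 0 ≤ Real.log y := Real.log_nonneg hy1
    refine mul_le_mul (mul_le_mul_of_nonneg_left hyd hε0) (by linarith) (by linarith) (by positivity)
  have humul : ∀ m n, u (m * n) = u m * u n := by
    intro m n
    simp only [hu]
    rw [pw_mul_nat hρ0, Nat.cast_mul, map_mul]; ring
  have hvmul : ∀ m n, v (m * n) = v m * v n := by
    intro m n
    simp only [hv]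
    rw [pw_mul_nat hρ0, Nat.cast_mul, map_mul, hx.mul]; push_cast; ring
  have hfin := sieve_sum (u := u) (v := v) humul hvmul (x := x) hx.one hx.mul (w := w) (N := N) hN1 hw hws
    (s := ρ) (c := 0) (δ := d) (E := E) (Y₀ := Real.exp (2 * κ * M)) (X := X) hd (by linarith) hub hvb
    (Or.inl rfl) hE0 (Real.one_le_exp (by positivity)) hest (by
      calc (N:ℝ)^4 * Real.exp (2 * κ * M) ≤ (Real.exp (2 * κ * M))^4 * Real.exp (2 * κ * M) := by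
            gcongr
        _ = X := by
            rw [← Real.exp_nat_mul, ← Real.exp_add, hX]; congr 1; push_cast; ring)
  rw [zero_mul, zero_mul, sub_zero] at hfin
  have hsum : ∑ n ∈ Finset.Icc 1 ⌊X⌋₊,
          (((∑ e ∈ n.divisors, w e) ^ 2 : ℝ) : ℂ) * (((fE x n : ℝ) : ℂ) * (χ (n : ZMod q) * pw ρ n))
      = ∑ n ∈ Finset.Icc 1 ⌊X⌋₊, (((∑ d ∈ n.divisors, w d) ^ 2 : ℝ) : ℂ) * ∑ d ∈ n.divisors, u d * v (n / d) := by
    refine Finset.sum_congr rfl fun n _ => ?_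
    rw [← conv_value χ x hρ0 n]
  rw [hsum]
  refine hfin.trans ?_
  rw [hE]
  exact harith

/-- Twisted sums at a zero: zeta. -/
theorem twist_zeta {κ d₀ M₁ : ℝ} (H : KEH κ d₀ M₁) (hκ : 10 ≤ κ) (hd₀' : d₀ ≤ 1/8) (hM₁ : 1 ≤ M₁)
    {K₀ : ℝ} (hK₀ : 0 ≤ K₀) {M₀ : ℝ} (hM₀1 : M₁ ≤ M₀)
    (hM₀2 : 8 * (23 * κ + 2 * K₀) * (5 * κ) ^ 16 ≤ M₀)
    {Q T d : ℝ} (hQ : 1 ≤ Q) (hT : 3 ≤ T) (hd : 0 ≤ d) (hdd : d ≤ d₀)
    {q₁ : ℕ} [NeZero q₁] {χ₁ : DirichletCharacter ℂ q₁} {x : ℕ → ℝ} (hq₁ : (q₁:ℝ) ≤ Q)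
    (hχ₁ : χ₁ ≠ 1) (hx : RealChar χ₁ x) {w : ℕ → ℝ} (hw : ∀ e, |w e| ≤ 1)
    (hws : ∀ e, w e ≠ 0 → Squarefree e ∧ e ≤ ⌊Real.exp (2 * κ * MM M₀ Q T d)⌋₊)
    {ρ : ℂ} (hzero : riemannZeta ρ = 0) (hre : 1 - d ≤ ρ.re) (him : |ρ.im| ≤ T)
    (hκ₀ : ‖1 / (1 - ρ)‖ ≤ K₀) :
    ‖(∑ n ∈ Finset.Icc 1 ⌊Real.exp (10 * κ * MM M₀ Q T d)⌋₊,
      (((∑ e ∈ n.divisors, w e) ^ 2 : ℝ) : ℂ) * (((fE x n : ℝ) : ℂ) * pw ρ n))
      - (1 / (1 - ρ)) * DirichletCharacter.LFunction χ₁ 1 * pw (ρ - 1) (Real.exp (10 * κ * MM M₀ Q T d))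
        * ((∑ a ∈ Finset.Icc 1 ⌊Real.exp (2 * κ * MM M₀ Q T d)⌋₊,
            ∑ b ∈ Finset.Icc 1 ⌊Real.exp (2 * κ * MM M₀ Q T d)⌋₊, w a * w b * nuE x (Nat.lcm a b) : ℝ) : ℂ)‖
      ≤ 1/8 := by
  set M := MM M₀ Q T d with hM
  have hLL := LL_nonneg hQ hT
  have hlT := log_T_pos hT
  have hMM₀ : M₀ ≤ M := by
    have h2 : 0 ≤ Real.sqrt d * Real.log T := by positivity
    rw [hM]; unfold MM; linarith
  have harith := twist_arith (d := d) hκ hd hK₀ (hM₀2.trans hMM₀)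
  have hM1 : 1 ≤ M := hM₁.trans (hM₀1.trans hMM₀)
  have hM0 : 0 < M := by linarith
  have hκ0 : 0 < κ := by linarith
  have hq₁0 : 0 < q₁ := Nat.pos_of_ne_zero (NeZero.ne q₁)
  have hρ1 : ρ.re ≤ 1 := by
    by_contra hcon
    exact riemannZeta_ne_zero_of_one_le_re (not_le.1 hcon).le hzero
  have hρne1 : ρ ≠ 1 := by
    intro h
    rw [h] at hzero
    exact riemannZeta_one_ne_zero hzero
  have hρ0 : ρ ≠ 0 := by
    intro h; rw [h] at hre; simp at hre; linarith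
  set ε := M ^ (-(20:ℝ)) * Real.exp (-20 * κ * d * M) with hε
  have hε0 : 0 ≤ ε := by positivity
  have hε1 : ε ≤ 1 := by
    have h1 : M ^ (-(20:ℝ)) ≤ 1 := Real.rpow_le_one_of_one_le_of_nonpos hM1 (by norm_num)
    have h2 : Real.exp (-20 * κ * d * M) ≤ 1 := by
      rw [Real.exp_le_one_iff]
      have : 0 ≤ κ * d * M := by positivity
      linarith
    calc ε ≤ 1 * 1 := mul_le_mul h1 h2 (Real.exp_pos _).le zero_le_one
      _ = 1 := one_mul 1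
  set u : ℕ → ℂ := fun n => pw ρ n with hu
  set v : ℕ → ℂ := fun n => ((x n : ℝ) : ℂ) * pw ρ n with hv
  -- partial sums of u
  obtain ⟨ℓ, hℓ1, hℓ2⟩ := H M₀ hM₀1 Q T d hQ hT hd hdd 1 one_pos (by push_cast; nlinarith)
    (fun _ => 1) (fun n => by simp) (fun n => rfl) ρ
    (by linarith) (by linarith) (by linarith)
  have hℓ0 : ℓ = 1 / (1 - ρ) := by
    have h1 := tendsto_nhds_unique hℓ1 (link_zeta (by linarith) hρne1)
    rw [h1, hzero, zero_sub, ← neg_sub, one_div_neg_eq_neg_one_div, neg_neg]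
  have hA : ∀ t : ℝ, Real.exp (κ * M) ≤ t →
      ‖(∑ n ∈ Finset.Icc 1 ⌊t⌋₊, u n) - 0 - (1 / (1 - ρ)) * pw (ρ - 1) t‖ ≤ ε := by
    intro t ht
    have ht0 : 0 < t := (Real.exp_pos _).trans_le ht
    have h1 := hℓ2 t ht
    rw [mean_one, one_mul, integral_pw hρne1 one_pos ht0, hℓ0] at h1
    simp only [one_mul] at h1
    refine le_of_eq_of_le (congrArg norm ?_) h1
    have a1 : (1 - ρ) ≠ 0 := sub_ne_zero.2 (Ne.symm hρne1)
    have a3 : pw (ρ - 1) 1 = 1 := by simp [pw]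
    simp only [hu]
    rw [a3]
    field_simp
    ring
  -- partial sums of v
  have hxper : ∀ n : ℕ, ((x (n + q₁) : ℝ) : ℂ) = ((x n : ℝ) : ℂ) := by
    intro n
    rw [← hx.eq, ← hx.eq]
    simp
  have hxnorm : ∀ n : ℕ, ‖((x n : ℝ) : ℂ)‖ ≤ 1 := by
    intro n
    rw [Complex.norm_real, Real.norm_eq_abs]
    exact hx.abs_le n
  have hxfun : (fun n : ℕ => ((x n : ℝ) : ℂ)) = fun n : ℕ => χ₁ (n : ZMod q₁) := by
    ext n; rw [hx.eq]
  have hmean : mean q₁ (fun n => ((x n : ℝ) : ℂ)) = 0 := by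
    rw [hxfun]; exact mean_char hχ₁
  obtain ⟨β, hβ1, hβ2⟩ := H M₀ hM₀1 Q T d hQ hT hd hdd q₁ hq₁0 (hq₁.trans (by nlinarith))
    (fun n => ((x n : ℝ) : ℂ)) hxnorm hxper ρ (by linarith) (by linarith) (by linarith)
  have hB : ∀ t : ℝ, Real.exp (κ * M) ≤ t → ‖(∑ n ∈ Finset.Icc 1 ⌊t⌋₊, v n) - β‖ ≤ ε := by
    intro t ht
    have h1 := hβ2 t ht
    rw [hmean, zero_mul, sub_zero] at h1
    exact h1
  obtain ⟨lam, hl1, hl2⟩ := H M₀ hM₀1 Q T d hQ hT hd hdd q₁ hq₁0 (hq₁.trans (by nlinarith))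
    (fun n => ((x n : ℝ) : ℂ)) hxnorm hxper 1 (by simp; linarith) (by norm_num) (by simp; linarith)
  have hlam : lam = DirichletCharacter.LFunction χ₁ 1 := by
    rw [hxfun] at hl1
    exact tendsto_nhds_unique hl1 (link_char hχ₁ (by norm_num))
  have hB1 : ∀ t : ℝ, Real.exp (κ * M) ≤ t →
      ‖(∑ n ∈ Finset.Icc 1 ⌊t⌋₊, v n * pw (1 - ρ) n) - lam‖ ≤ ε := by
    intro t ht
    have h1 := hl2 t ht
    rw [hmean, zero_mul, sub_zero] at h1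
    refine le_of_eq_of_le (congrArg norm ?_) h1
    congr 1
    refine Finset.sum_congr rfl fun n hn => ?_
    rw [Finset.mem_Icc] at hn
    have hn0 : (n:ℂ) ≠ 0 := by
      have : n ≠ 0 := by omega
      exact_mod_cast this
    simp only [hv]
    unfold pw
    rw [mul_assoc, ← Complex.cpow_add _ _ (by simpa using hn0), show -ρ + -(1 - ρ) = -1 by ring]
  have hub : ∀ n : ℕ, 1 ≤ n → ‖u n‖ ≤ (n:ℝ) ^ (-(1 - d)) := fun n hn => by
    have := norm_mul_pw_le (g := fun _ => 1) (fun n => by simp) hre n hn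
    simpa [hu] using this
  have hvb : ∀ n : ℕ, 1 ≤ n → ‖v n‖ ≤ (n:ℝ) ^ (-(1 - d)) := fun n hn =>
    norm_mul_pw_le (g := fun n => ((x n : ℝ) : ℂ)) hxnorm hre n hn
  set X := Real.exp (10 * κ * M) with hX
  have hX1 : 1 ≤ X := Real.one_le_exp (by positivity)
  have hX0 : 0 < X := by linarith
  set N := ⌊Real.exp (2 * κ * M)⌋₊ with hN
  have hN1 : 1 ≤ N := Nat.one_le_iff_ne_zero.2 (Nat.floor_pos.2 (Real.one_le_exp (by positivity))).ne'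
  have hNle : (N:ℝ) ≤ Real.exp (2 * κ * M) := Nat.floor_le (by positivity)
  set E := ε * X ^ d * (3 + 2 * Real.log X + 2 * K₀) with hE
  have hlX : 0 ≤ Real.log X := Real.log_nonneg hX1
  have hE0 : 0 ≤ E := by positivity
  have hest : ∀ y, Real.exp (2 * κ * M) ≤ y → y ≤ X →
      ‖cv u v y - ((1 / (1 - ρ)) * lam) * pw (ρ - 1) y‖ ≤ E := by
    intro y hy hyX
    have hy1 : 1 ≤ y := (Real.one_le_exp (by positivity)).trans hy
    have h1 := hyper_est (u := u) (v := v) (s := ρ) (α := 0) (β := β) (κ₀ := 1 / (1 - ρ)) (lam := lam)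
      (d := d) (ε := ε) (x₀ := Real.exp (κ * M)) (y := y) hd hre hub hvb hε0 hε1
      (Real.one_le_exp (by positivity)) (by
        rw [← Real.exp_nat_mul]
        refine le_trans (le_of_eq ?_) hy
        congr 1; push_cast; ring) hA hB (Or.inr hB1)
    rw [zero_mul, sub_zero] at h1
    refine h1.trans ?_
    rw [hE]
    have hyd : y ^ d ≤ X ^ d := Real.rpow_le_rpow (by linarith) hyX hd
    have hly : Real.log y ≤ Real.log X := Real.log_le_log (by linarith) hyX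
    have hly0 : 0 ≤ Real.log y := Real.log_nonneg hy1
    have hn0 := norm_nonneg (1 / (1 - ρ))
    refine mul_le_mul (mul_le_mul_of_nonneg_left hyd hε0) (by linarith) (by linarith) (by positivity)
  have humul : ∀ m n, u (m * n) = u m * u n := by
    intro m n
    simp only [hu]
    rw [pw_mul_nat hρ0]
  have hvmul : ∀ m n, v (m * n) = v m * v n := by
    intro m n
    simp only [hv]
    rw [pw_mul_nat hρ0, hx.mul]; push_cast; ring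
  have hfin := sieve_sum (u := u) (v := v) humul hvmul (x := x) hx.one hx.mul (w := w) (N := N) hN1 hw hws
    (s := ρ) (c := (1 / (1 - ρ)) * lam) (δ := d) (E := E) (Y₀ := Real.exp (2 * κ * M)) (X := X) hd
    (by linarith) hub hvb
    (Or.inr fun n _ => ⟨rfl, rfl⟩) hE0 (Real.one_le_exp (by positivity)) hest (by
      calc (N:ℝ)^4 * Real.exp (2 * κ * M) ≤ (Real.exp (2 * κ * M))^4 * Real.exp (2 * κ * M) := by
            gcongr
        _ = X := by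
            rw [← Real.exp_nat_mul, ← Real.exp_add, hX]; congr 1; push_cast; ring)
  have hsum : ∑ n ∈ Finset.Icc 1 ⌊X⌋₊,
          (((∑ e ∈ n.divisors, w e) ^ 2 : ℝ) : ℂ) * (((fE x n : ℝ) : ℂ) * pw ρ n)
      = ∑ n ∈ Finset.Icc 1 ⌊X⌋₊, (((∑ d ∈ n.divisors, w d) ^ 2 : ℝ) : ℂ) * ∑ d ∈ n.divisors, u d * v (n / d) := by
    refine Finset.sum_congr rfl fun n _ => ?_
    congr 1
    have h1 := conv_value (1 : DirichletCharacter ℂ 1) x hρ0 n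
    have h2 : ∀ k : ℕ, (1 : DirichletCharacter ℂ 1) (k : ZMod 1) = 1 := fun k => by
      rw [Subsingleton.elim (k : ZMod 1) 1, map_one]
    simp only [h2, one_mul, mul_one] at h1
    rw [← h1]
  rw [hsum, ← hlam]
  refine hfin.trans ?_
  rw [hE]
  exact harith

end Vale.Agent.P026.H392
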