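import Mathlib

open Complex Metric Set Filter Topology

namespace Vale.Agent.P026.H392

/-- Analytic logarithm on a disc. -/
lemma exists_log_on_ball {g : ℂ → ℂ} {R : ℝ} (hR : 0 < R)
    (hg : DifferentiableOn ℂ g (ball 0 R))
    (h0 : ∀ z ∈ ball (0:ℂ) R, g z ≠ 0) :
    ∃ L : ℂ → ℂ, DifferentiableOn ℂ L (ball 0 R) ∧ L 0 = 0 ∧
      (∀ z ∈ ball (0:ℂ) R, g z = g 0 * exp (L z)) ∧ HasDerivAt L (logDeriv g 0) 0 := by
  have hlog : DifferentiableOn ℂ (logDeriv g) (ball 0 R) := by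
    have h1 : DifferentiableOn ℂ (deriv g) (ball 0 R) := hg.deriv isOpen_ball
    exact h1.div hg h0
  obtain ⟨F, hF⟩ := hlog.isExactOn_ball
  have h0mem : (0:ℂ) ∈ ball (0:ℂ) R := mem_ball_self hR
  refine ⟨fun z => F z - F 0, ?_, by simp, ?_, ?_⟩
  · intro z hz
    exact ((hF z hz).sub_const (F 0)).differentiableAt.differentiableWithinAt
  · intro z hz
    set H : ℂ → ℂ := fun z => g z * exp (-(F z - F 0)) with hH
    have hHd : ∀ w ∈ ball (0:ℂ) R, HasDerivAt H 0 w := by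
      intro w hw
      have hgw : HasDerivAt g (deriv g w) w :=
        (hg.differentiableAt (isOpen_ball.mem_nhds hw)).hasDerivAt
      have hFw : HasDerivAt (fun z => -(F z - F 0)) (-(logDeriv g w)) w :=
        ((hF w hw).sub_const (F 0)).neg
      have h3 := hgw.mul hFw.cexp
      refine h3.congr_deriv ?_
      have hgw0 := h0 w hw
      rw [logDeriv_apply]
      field_simp
      ring
    have hconst : H z = H 0 := by
      refine isOpen_ball.is_const_of_deriv_eq_zero (convex_ball (0:ℂ) R).isPreconnected ?_ ?_ hz h0mem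
      · intro w hw
        exact (hHd w hw).differentiableAt.differentiableWithinAt
      · intro w hw
        exact (hHd w hw).deriv
    have h4 : H 0 = g 0 := by simp [hH]
    have h5 : g z * exp (-(F z - F 0)) = g 0 := by rw [← h4, ← hconst]
    rw [← h5, mul_assoc, ← exp_add]
    simp
  · simpa using (hF 0 h0mem).sub_const (F 0)

/-- Borel–Carathéodory bound for the logarithmic derivative at the centre of a disc. -/
lemma norm_logDeriv_le {g : ℂ → ℂ} {R M : ℝ} (hR : 0 < R) (hM : 0 < M)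
    (hg : DifferentiableOn ℂ g (ball 0 R))
    (h0 : ∀ z ∈ ball (0:ℂ) R, g z ≠ 0)
    (hb : ∀ z ∈ ball (0:ℂ) R, ‖g z‖ ≤ Real.exp M * ‖g 0‖) :
    ‖logDeriv g 0‖ ≤ 2 * M / R := by
  obtain ⟨L, hL, hL0, hgL, hLd⟩ := exists_log_on_ball hR hg h0
  have hre : MapsTo L (ball 0 R) {z | z.re ≤ M} := by
    intro z hz
    have h1 := hb z hz
    rw [hgL z hz, norm_mul, Complex.norm_exp] at h1
    have hg0 : 0 < ‖g 0‖ := norm_pos_iff.2 (h0 0 (mem_ball_self hR))
    have h2 : Real.exp (L z).re ≤ Real.exp M := by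
      have : ‖g 0‖ * Real.exp (L z).re ≤ ‖g 0‖ * Real.exp M := by linarith
      exact le_of_mul_le_mul_left this hg0
    exact Real.exp_le_exp.1 h2
  have hbc : ∀ z ∈ ball (0:ℂ) R, ‖L z‖ ≤ 2 * M * ‖z‖ / (R - ‖z‖) := fun z hz =>
    borelCaratheodory_zero hM hL hre hR hz hL0
  -- take the limit of difference quotients along z → 0
  have hlim : Tendsto (fun z : ℂ => z⁻¹ * (L (0 + z) - L 0)) (𝓝[≠] 0) (𝓝 (logDeriv g 0)) := by
    have := hLd.tendsto_slope_zero
    simpa [smul_eq_mul] using this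
  have hlim2 : Tendsto (fun z : ℂ => 2 * M / (R - ‖z‖)) (𝓝[≠] 0) (𝓝 (2 * M / R)) := by
    have : ContinuousAt (fun z : ℂ => 2 * M / (R - ‖z‖)) 0 := by
      refine ContinuousAt.div (by fun_prop) (by fun_prop) (by simpa using hR.ne')
    have h := this.tendsto
    simp only [norm_zero, sub_zero] at h
    exact h.mono_left nhdsWithin_le_nhds
  refine le_of_tendsto_of_tendsto hlim.norm hlim2 ?_
  have hmem : ball (0:ℂ) R ∈ 𝓝[≠] (0:ℂ) := mem_nhdsWithin_of_mem_nhds (ball_mem_nhds 0 hR)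
  filter_upwards [hmem, self_mem_nhdsWithin] with z hz hz0
  have hz0' : z ≠ 0 := hz0
  have hzn : 0 < ‖z‖ := norm_pos_iff.2 hz0'
  have hzR : 0 < R - ‖z‖ := by
    have := mem_ball_zero_iff.1 hz
    linarith
  rw [zero_add, hL0, sub_zero, norm_mul, norm_inv]
  calc ‖z‖⁻¹ * ‖L z‖ ≤ ‖z‖⁻¹ * (2 * M * ‖z‖ / (R - ‖z‖)) := by
        gcongr
        exact hbc z hz
    _ = 2 * M / (R - ‖z‖) := by field_simp

/-- Factorization of an analytic function on a closed disc. -/
lemma exists_factor {f : ℂ → ℂ} {R : ℝ} (hR : 0 < R) (hf : AnalyticOnNhd ℂ f (closedBall 0 R))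
    (hf0 : f 0 ≠ 0) :
    ∃ (Z : Finset ℂ) (h : ℂ → ℂ),
      (∀ u ∈ Z, u ∈ closedBall (0:ℂ) R ∧ f u = 0) ∧
      (∀ u ∈ closedBall (0:ℂ) R, u ∉ Z → analyticOrderNatAt f u = 0) ∧
      AnalyticOnNhd ℂ h (closedBall 0 R) ∧ (∀ u ∈ closedBall (0:ℂ) R, h u ≠ 0) ∧
      ∀ z ∈ closedBall (0:ℂ) R, f z = (∏ u ∈ Z, (z - u) ^ (analyticOrderNatAt f u)) * h z := by
  classical
  set U := closedBall (0:ℂ) R with hU
  have h0U : (0:ℂ) ∈ U := mem_closedBall_self hR.le
  have hpre : IsPreconnected U := (convex_closedBall (0:ℂ) R).isPreconnected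
  have hord : ∀ u ∈ U, analyticOrderAt f u ≠ ⊤ := by
    intro u hu htop
    rw [analyticOrderAt_eq_top] at htop
    have := hf.eqOn_zero_of_preconnected_of_eventuallyEq_zero hpre hu htop
    exact hf0 (this h0U)
  have hmord : ∀ u : U, meromorphicOrderAt f u ≠ ⊤ := by
    intro u
    rw [(hf u u.2).meromorphicOrderAt_eq]
    intro h
    exact hord u u.2 (by simpa using h)
  have hfin : (MeromorphicOn.divisor f U).support.Finite :=
    (MeromorphicOn.divisor f U).finiteSupport (isCompact_closedBall 0 R)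
  obtain ⟨h, hh1, hh2, hh3⟩ := hf.meromorphicOn.extract_zeros_poles hmord hfin
  have hdiv : ∀ u ∈ U, MeromorphicOn.divisor f U u = (analyticOrderNatAt f u : ℤ) := by
    intro u hu
    rw [MeromorphicOn.AnalyticOnNhd.divisor_apply hf hu, ← Nat.cast_analyticOrderNatAt (hord u hu)]
    simp
  have hsup : ∀ u, u ∈ (MeromorphicOn.divisor f U).support → u ∈ U := by
    intro u hu
    by_contra hcon
    exact hu (by simp [hcon])
  refine ⟨hfin.toFinset, h, ?_, ?_, hh1, fun u hu => hh2 ⟨u, hu⟩, ?_⟩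
  · intro u hu
    have hu' : u ∈ (MeromorphicOn.divisor f U).support := by simpa using hu
    refine ⟨hsup u hu', ?_⟩
    by_contra hne
    apply hu'
    rw [hdiv u (hsup u hu')]
    have : analyticOrderAt f u = 0 := (hf u (hsup u hu')).analyticOrderAt_eq_zero.2 hne
    simp [analyticOrderNatAt, this]
  · intro u hu hnot
    have : MeromorphicOn.divisor f U u = 0 := by
      by_contra hcon
      exact hnot (by simpa using hcon)
    rw [hdiv u hu] at this
    exact_mod_cast this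
  · -- equality everywhere by continuity
    set P : ℂ → ℂ := fun z => (∏ u ∈ hfin.toFinset, (z - u) ^ (analyticOrderNatAt f u)) * h z with hP
    have hev : ∀ᶠ z in codiscreteWithin U, f z = P z := by
      filter_upwards [hh3, self_mem_codiscreteWithin U] with z hz hzU
      rw [hz, Pi.smul_apply', Function.FactorizedRational.finprod_eq_fun hfin]
      simp only [smul_eq_mul, hP]
      congr 1
      rw [finprod_eq_prod_of_mulSupport_subset (s := hfin.toFinset)]
      · refine Finset.prod_congr rfl fun u hu => ?_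
        have hu' : u ∈ (MeromorphicOn.divisor f U).support := by simpa using hu
        rw [hdiv u (hsup u hu'), zpow_natCast]
      · intro u
        contrapose
        simp_all
    have hPc : ContinuousOn P U := by
      refine ContinuousOn.mul ?_ hh1.continuousOn
      fun_prop
    intro z hz
    have hdis := (mem_codiscreteWithin.1 hev) z hz
    rw [disjoint_principal_right] at hdis
    have hnt : U.Nontrivial := by
      refine ⟨0, h0U, (R:ℂ), ?_, ?_⟩
      · rw [hU, mem_closedBall_zero_iff]; simp [abs_of_pos hR]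
      · exact_mod_cast hR.ne
    have hacc : AccPt z (𝓟 U) := hpre.preperfect_of_nontrivial hnt z hz
    have hne : (𝓝[≠] z ⊓ 𝓟 U).NeBot := hacc
    have hle : 𝓝[≠] z ⊓ 𝓟 U ≤ 𝓝[U] z := by
      rw [nhdsWithin, nhdsWithin]
      gcongr
      exact inf_le_left
    have hE : f =ᶠ[𝓝[≠] z ⊓ 𝓟 U] P := by
      rw [Filter.EventuallyEq, Filter.eventually_inf_principal]
      filter_upwards [hdis] with w hw hwU
      by_contra hcon
      exact hw ⟨hwU, hcon⟩
    have ht1 : Tendsto f (𝓝[≠] z ⊓ 𝓟 U) (𝓝 (f z)) :=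
      (hf.continuousOn z hz).tendsto.mono_left hle
    have ht2 : Tendsto P (𝓝[≠] z ⊓ 𝓟 U) (𝓝 (P z)) :=
      (hPc z hz).tendsto.mono_left hle
    exact tendsto_nhds_unique (ht1.congr' hE) ht2

/-- Landau's lemma, centred at `0`: if `f` is analytic on the closed disc `|z| ≤ R`,
`|f| ≤ e^M |f 0|` there and all zeros have nonpositive real part, then the zeros near `0`
are controlled by `Re (f'/f)(0)`. -/
theorem landau_zero {f : ℂ → ℂ} {R M : ℝ} (hR : 0 < R) (hM : 0 < M)
    (hf : AnalyticOnNhd ℂ f (closedBall 0 R)) (hf0 : f 0 ≠ 0)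
    (hb : ∀ z ∈ closedBall (0:ℂ) R, ‖f z‖ ≤ Real.exp M * ‖f 0‖)
    (hz : ∀ z ∈ closedBall (0:ℂ) R, f z = 0 → z.re ≤ 0)
    (F : Finset ℂ) (hF : ∀ ρ ∈ F, ρ ∈ closedBall (0:ℂ) R) :
    ∑ ρ ∈ F, (analyticOrderNatAt f ρ : ℝ) * (-ρ.re * (1 / ‖ρ‖ ^ 2 - 1 / R ^ 2))
      ≤ (logDeriv f 0).re + 2 * M / R := by
  classical
  obtain ⟨Z, h, hZ, hZ', hh1, hh2, hfac⟩ := exists_factor hR hf hf0
  set m : ℂ → ℕ := fun u => analyticOrderNatAt f u with hm
  have h0mem : (0:ℂ) ∈ closedBall (0:ℂ) R := mem_closedBall_self hR.le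
  have hZ0 : ∀ u ∈ Z, u ≠ 0 := by
    intro u hu h0
    exact hf0 (h0 ▸ (hZ u hu).2)
  have hZR : ∀ u ∈ Z, ‖u‖ ≤ R := fun u hu => mem_closedBall_zero_iff.1 (hZ u hu).1
  have hRC : (R:ℂ) ≠ 0 := by exact_mod_cast hR.ne'
  set b : ℂ → ℂ → ℂ := fun u z => ((R:ℂ)^2 - (starRingEnd ℂ u) * z) / R with hbdef
  set G : ℂ → ℂ := fun z => (∏ u ∈ Z, (b u z) ^ (m u)) * h z with hG
  -- modulus on the circle
  have hbcirc : ∀ u z : ℂ, ‖z‖ = R → ‖b u z‖ = ‖z - u‖ := by
    intro u z hzR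
    have h1 : ((R:ℂ)^2 - (starRingEnd ℂ u) * z) = z * (starRingEnd ℂ (z - u)) := by
      have : ((R:ℂ)^2) = z * starRingEnd ℂ z := by
        rw [Complex.mul_conj, Complex.normSq_eq_norm_sq, hzR]; push_cast; ring
      rw [this, map_sub]; ring
    rw [hbdef]
    simp only
    rw [h1, norm_div, norm_mul, RCLike.norm_conj, hzR, Complex.norm_real, Real.norm_eq_abs,
      abs_of_pos hR]
    field_simp
  have hGc : ∀ z : ℂ, ‖z‖ = R → ‖G z‖ = ‖f z‖ := by
    intro z hzR
    rw [hfac z (mem_closedBall_zero_iff.2 hzR.le), hG]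
    simp only
    rw [norm_mul, norm_mul, norm_prod, norm_prod]
    congr 1
    refine Finset.prod_congr rfl fun u _ => ?_
    rw [norm_pow, norm_pow, hbcirc u z hzR]
  have hb0 : ∀ u, b u 0 = R := by
    intro u
    simp only [hbdef, mul_zero, sub_zero]
    field_simp
  have hbne : ∀ u ∈ Z, ∀ z ∈ ball (0:ℂ) R, b u z ≠ 0 := by
    intro u hu z hz'
    have hzR : ‖z‖ < R := mem_ball_zero_iff.1 hz'
    have h1 : ‖(starRingEnd ℂ u) * z‖ < ‖(R:ℂ)^2‖ := by
      rw [norm_mul, RCLike.norm_conj, norm_pow, Complex.norm_real, Real.norm_eq_abs, abs_of_pos hR]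
      have := hZR u hu
      nlinarith [norm_nonneg u, norm_nonneg z]
    have h2 : (R:ℂ)^2 - (starRingEnd ℂ u) * z ≠ 0 := by
      intro h3
      rw [sub_eq_zero] at h3
      rw [h3] at h1
      exact lt_irrefl _ h1
    exact div_ne_zero h2 hRC
  have hbd : ∀ u, Differentiable ℂ (b u) := by
    intro u
    simp only [hbdef]
    fun_prop
  have hGana : DifferentiableOn ℂ G (closedBall 0 R) := by
    intro z hz'
    have h1 : DifferentiableAt ℂ h z := (hh1 z hz').differentiableAt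
    have h2 : DifferentiableAt ℂ (fun z => ∏ u ∈ Z, (b u z) ^ (m u)) z := by
      refine DifferentiableAt.fun_finsetProd fun u _ => ?_
      exact ((hbd u) z).pow _
    exact (h2.mul h1).differentiableWithinAt
  have hGne : ∀ z ∈ ball (0:ℂ) R, G z ≠ 0 := by
    intro z hz'
    refine mul_ne_zero (Finset.prod_ne_zero_iff.2 fun u hu => pow_ne_zero _ (hbne u hu z hz')) ?_
    exact hh2 z (ball_subset_closedBall hz')
  -- G(0) is at least f(0)
  have hG0 : ‖f 0‖ ≤ ‖G 0‖ := by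
    rw [hfac 0 h0mem, hG]
    simp only
    rw [norm_mul, norm_mul, norm_prod, norm_prod]
    refine mul_le_mul_of_nonneg_right ?_ (norm_nonneg _)
    refine Finset.prod_le_prod (fun u _ => norm_nonneg _) fun u hu => ?_
    rw [norm_pow, norm_pow, hb0, zero_sub, norm_neg, Complex.norm_real, Real.norm_eq_abs,
      abs_of_pos hR]
    exact pow_le_pow_left₀ (norm_nonneg _) (hZR u hu) _
  have hGb : ∀ z ∈ ball (0:ℂ) R, ‖G z‖ ≤ Real.exp M * ‖G 0‖ := by
    intro z hz'
    have h1 : ‖G z‖ ≤ Real.exp M * ‖f 0‖ := by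
      refine Complex.norm_le_of_forall_mem_frontier_norm_le (U := ball (0:ℂ) R) isBounded_ball ?_ ?_
        (subset_closure hz')
      · refine DifferentiableOn.diffContOnCl ?_
        rw [closure_ball _ hR.ne']
        exact hGana
      · intro w hw
        rw [frontier_ball _ hR.ne', mem_sphere_zero_iff_norm] at hw
        rw [hGc w hw]
        exact hb w (mem_closedBall_zero_iff.2 hw.le)
    exact h1.trans (mul_le_mul_of_nonneg_left hG0 (Real.exp_pos _).le)
  have hlG : ‖logDeriv G 0‖ ≤ 2 * M / R :=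
    norm_logDeriv_le hR hM (hGana.mono ball_subset_closedBall) hGne hGb
  have h0ball : (0:ℂ) ∈ ball (0:ℂ) R := mem_ball_self hR
  -- compute the logarithmic derivatives
  have hhd0 : DifferentiableAt ℂ h 0 := (hh1 0 h0mem).differentiableAt
  have hlogG : logDeriv G 0 = (∑ u ∈ Z, (m u : ℂ) * (-(starRingEnd ℂ u) / (R:ℂ)^2)) + logDeriv h 0 := by
    have h1 : logDeriv G 0 = logDeriv (fun z => ∏ u ∈ Z, (b u z) ^ (m u)) 0 + logDeriv h 0 := by
      refine logDeriv_mul (f := fun z => ∏ u ∈ Z, (b u z) ^ (m u)) (g := h) 0 ?_ (hh2 0 h0mem) ?_ hhd0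
      · exact Finset.prod_ne_zero_iff.2 fun u hu => pow_ne_zero _ (hbne u hu 0 h0ball)
      · exact DifferentiableAt.fun_finsetProd fun u _ => ((hbd u) 0).pow _
    rw [h1]
    congr 1
    have h2 : logDeriv (fun z => ∏ u ∈ Z, (b u z) ^ (m u)) 0
        = ∑ u ∈ Z, logDeriv (fun z => (b u z) ^ (m u)) 0 := by
      have := logDeriv_prod (s := Z) (f := fun u z => (b u z) ^ (m u)) (x := (0:ℂ))
        (fun u hu => pow_ne_zero _ (hbne u hu 0 h0ball)) (fun u hu => ((hbd u) 0).pow _)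
      convert this using 2
    rw [h2]
    refine Finset.sum_congr rfl fun u hu => ?_
    rw [logDeriv_fun_pow ((hbd u) 0), logDeriv_apply, hb0]
    have h3 : deriv (b u) 0 = -(starRingEnd ℂ u) / R := by
      have : HasDerivAt (b u) ((0 - (starRingEnd ℂ u) * 1) / R) 0 := by
        simp only [hbdef]
        exact (((hasDerivAt_const (0:ℂ) ((R:ℂ)^2)).sub ((hasDerivAt_id (0:ℂ)).const_mul _)).div_const _)
      rw [this.deriv]
      ring
    rw [h3]
    field_simp
  have hlogf : logDeriv f 0 = (∑ u ∈ Z, (m u : ℂ) * (-1 / u)) + logDeriv h 0 := by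
    have hev : f =ᶠ[𝓝 0] fun z => (∏ u ∈ Z, (z - u) ^ (m u)) * h z := by
      filter_upwards [closedBall_mem_nhds (0:ℂ) hR] with z hz'
      exact hfac z hz'
    rw [(logDeriv_congr_nhds hev).self_of_nhds]
    have hne : ∀ u ∈ Z, (0:ℂ) - u ≠ 0 := fun u hu => by simpa using hZ0 u hu
    have h1 : logDeriv (fun z => (∏ u ∈ Z, (z - u) ^ (m u)) * h z) 0
        = logDeriv (fun z => ∏ u ∈ Z, (z - u) ^ (m u)) 0 + logDeriv h 0 := by
      refine logDeriv_mul (f := fun z => ∏ u ∈ Z, (z - u) ^ (m u)) (g := h) 0 ?_ (hh2 0 h0mem) ?_ hhd0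
      · exact Finset.prod_ne_zero_iff.2 fun u hu => pow_ne_zero _ (hne u hu)
      · fun_prop
    rw [h1]
    congr 1
    have h2 : logDeriv (fun z => ∏ u ∈ Z, (z - u) ^ (m u)) 0
        = ∑ u ∈ Z, logDeriv (fun z => (z - u) ^ (m u)) 0 := by
      have := logDeriv_prod (s := Z) (f := fun u z => (z - u) ^ (m u)) (x := (0:ℂ))
        (fun u hu => pow_ne_zero _ (hne u hu)) (fun u hu => by fun_prop)
      convert this using 2
    rw [h2]
    refine Finset.sum_congr rfl fun u hu => ?_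
    rw [logDeriv_fun_pow (by fun_prop), logDeriv_apply]
    have h3 : deriv (fun z : ℂ => z - u) 0 = 1 := by simp
    rw [h3]
    have := hZ0 u hu
    field_simp
    ring
  have hkey : logDeriv f 0 = logDeriv G 0 + ∑ u ∈ Z, (m u : ℂ) * (-1 / u + (starRingEnd ℂ u) / (R:ℂ)^2) := by
    rw [hlogf, hlogG]
    simp only [mul_add, Finset.sum_add_distrib, neg_div, mul_neg, Finset.sum_neg_distrib]
    ring
  have hre : ∀ u ∈ Z, ((m u : ℂ) * (-1 / u + (starRingEnd ℂ u) / (R:ℂ)^2)).re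
      = (m u : ℝ) * (-u.re * (1 / ‖u‖ ^ 2 - 1 / R ^ 2)) := by
    intro u hu
    have hu0 := hZ0 u hu
    rw [← Complex.ofReal_natCast, Complex.re_ofReal_mul]
    congr 1
    have h1 : (-1 / u : ℂ) = -(starRingEnd ℂ u) / ((‖u‖ ^ 2 : ℝ) : ℂ) := by
      rw [← Complex.normSq_eq_norm_sq, Complex.normSq_eq_conj_mul_self]
      have : (starRingEnd ℂ u) ≠ 0 := by simpa using hu0
      field_simp
    have h2 : ((R:ℂ)^2) = ((R^2 : ℝ) : ℂ) := by push_cast; ring
    rw [h1, h2, Complex.add_re, Complex.div_ofReal_re, Complex.div_ofReal_re, Complex.neg_re,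
      Complex.conj_re]
    ring
  have hsum : ∑ u ∈ Z, (m u : ℝ) * (-u.re * (1 / ‖u‖ ^ 2 - 1 / R ^ 2))
      ≤ (logDeriv f 0).re + 2 * M / R := by
    have h1 := congrArg Complex.re hkey
    rw [Complex.add_re, Complex.re_sum, Finset.sum_congr rfl hre] at h1
    have h2 : -(2 * M / R) ≤ (logDeriv G 0).re := by
      have := Complex.abs_re_le_norm (logDeriv G 0)
      have := neg_abs_le (logDeriv G 0).re
      linarith
    linarith
  have hnn : ∀ u ∈ Z, 0 ≤ (m u : ℝ) * (-u.re * (1 / ‖u‖ ^ 2 - 1 / R ^ 2)) := by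
    intro u hu
    have hu1 : u.re ≤ 0 := hz u (hZ u hu).1 (hZ u hu).2
    have hu2 : 0 < ‖u‖ := norm_pos_iff.2 (hZ0 u hu)
    have hu3 : 1 / R ^ 2 ≤ 1 / ‖u‖ ^ 2 := by
      have := hZR u hu
      gcongr
    refine mul_nonneg (Nat.cast_nonneg _) (mul_nonneg (by linarith) (by linarith))
  refine le_trans ?_ hsum
  calc ∑ ρ ∈ F, (analyticOrderNatAt f ρ : ℝ) * (-ρ.re * (1 / ‖ρ‖ ^ 2 - 1 / R ^ 2))
      = ∑ ρ ∈ F ∩ Z, (m ρ : ℝ) * (-ρ.re * (1 / ‖ρ‖ ^ 2 - 1 / R ^ 2)) := by
        symm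
        refine Finset.sum_subset Finset.inter_subset_left fun u hu hnu => ?_
        have : u ∉ Z := fun h => hnu (Finset.mem_inter.2 ⟨hu, h⟩)
        have h0 : m u = 0 := hZ' u (hF u hu) this
        rw [h0]; simp
    _ ≤ ∑ u ∈ Z, (m u : ℝ) * (-u.re * (1 / ‖u‖ ^ 2 - 1 / R ^ 2)) := by
        refine Finset.sum_le_sum_of_subset_of_nonneg Finset.inter_subset_right fun u hu _ => hnn u hu

end Vale.Agent.P026.H392
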