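import Vale.Agent.P026.H392.Link
import Vale.Agent.P026.H392.Landau

open Complex Set Filter Topology Metric

namespace Vale.Agent.P026.H392

/-- Landau's lemma centred at an arbitrary point. -/
theorem landau_at {f : ℂ → ℂ} {c : ℂ} {R M : ℝ} (hR : 0 < R) (hM : 0 < M)
    (hf : AnalyticOnNhd ℂ f (closedBall c R)) (hf0 : f c ≠ 0)
    (hb : ∀ z ∈ closedBall c R, ‖f z‖ ≤ Real.exp M * ‖f c‖)
    (hz : ∀ z ∈ closedBall c R, f z = 0 → z.re ≤ c.re)
    (F : Finset ℂ) (hF : ∀ ρ ∈ F, ρ ∈ closedBall c R) :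
    ∑ ρ ∈ F, (analyticOrderNatAt f ρ : ℝ) * ((c.re - ρ.re) * (1 / ‖ρ - c‖ ^ 2 - 1 / R ^ 2))
      ≤ (logDeriv f c).re + 2 * M / R := by
  classical
  set g : ℂ → ℂ := fun z => f (z + c) with hg
  have hmem : ∀ z : ℂ, z ∈ closedBall (0:ℂ) R ↔ z + c ∈ closedBall c R := by
    intro z
    rw [mem_closedBall, mem_closedBall, dist_eq_norm, dist_eq_norm, sub_zero, add_sub_cancel_right]
  have hT : ∀ z : ℂ, AnalyticAt ℂ (fun z : ℂ => z + c) z := fun z => by fun_prop
  have hga : AnalyticOnNhd ℂ g (closedBall 0 R) := by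
    intro z hz
    exact AnalyticAt.fun_comp (g := f) (f := fun z : ℂ => z + c) (hf (z + c) ((hmem z).1 hz)) (hT z)
  have hord : ∀ z : ℂ, analyticOrderNatAt g z = analyticOrderNatAt f (z + c) := by
    intro z
    have h := analyticOrderAt_comp_of_deriv_ne_zero (f := f) (g := fun z : ℂ => z + c) (z₀ := z) (hT z)
      (by simp)
    unfold analyticOrderNatAt
    exact congrArg ENat.toNat h
  have hg0 : g 0 = f c := by simp [hg]
  have hld : logDeriv g 0 = logDeriv f c := by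
    unfold logDeriv
    simp only [Pi.div_apply]
    rw [hg0]
    congr 1
    have := deriv_comp_add_const (f := f) c 0
    simpa [hg] using this
  have key := landau_zero (f := g) hR hM hga (by rw [hg0]; exact hf0)
    (fun z hz => by rw [hg0]; exact hb _ ((hmem z).1 hz))
    (fun z hz h0 => by
      have := hz
      have h2 := ‹∀ z ∈ closedBall c R, f z = 0 → z.re ≤ c.re› (z + c) ((hmem z).1 hz) h0
      rw [Complex.add_re] at h2
      linarith)
    (F.image (fun z => z - c)) (fun ρ hρ => by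
      obtain ⟨z, hz1, rfl⟩ := Finset.mem_image.1 hρ
      rw [hmem, sub_add_cancel]
      exact hF z hz1)
  rw [Finset.sum_image (fun x _ y _ h => by simpa using h), hld] at key
  refine le_of_eq_of_le (Finset.sum_congr rfl fun ρ _ => ?_) key
  rw [hord, sub_add_cancel, Complex.sub_re]
  ring

/-- Counting zeros near the line `Re = c.re - η`. -/
theorem count_at {f : ℂ → ℂ} {c : ℂ} {R M η ρ₀ D : ℝ} (hη : 0 < η) (hρ₀ : 0 < ρ₀) (hρR : ρ₀ < R)
    (hM : 0 < M)
    (hf : AnalyticOnNhd ℂ f (closedBall c R)) (hf0 : f c ≠ 0)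
    (hb : ∀ z ∈ closedBall c R, ‖f z‖ ≤ Real.exp M * ‖f c‖)
    (hz : ∀ z ∈ closedBall c R, f z = 0 → z.re ≤ c.re - η)
    (hD : (logDeriv f c).re ≤ D)
    (F : Finset ℂ) (hF : ∀ ρ ∈ F, ρ ∈ closedBall c ρ₀) :
    (∑ ρ ∈ F, (analyticOrderNatAt f ρ : ℝ)) * (η * (1 / ρ₀ ^ 2 - 1 / R ^ 2))
      ≤ D + 2 * M / R := by
  have hR : 0 < R := hρ₀.trans hρR
  have hFR : ∀ ρ ∈ F, ρ ∈ closedBall c R := fun ρ hρ => closedBall_subset_closedBall hρR.le (hF ρ hρ)
  have key := landau_at hR hM hf hf0 hb (fun z h1 h2 => (hz z h1 h2).trans (by linarith)) F hFR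
  have hstep : (∑ ρ ∈ F, (analyticOrderNatAt f ρ : ℝ)) * (η * (1 / ρ₀ ^ 2 - 1 / R ^ 2))
      ≤ ∑ ρ ∈ F, (analyticOrderNatAt f ρ : ℝ) * ((c.re - ρ.re) * (1 / ‖ρ - c‖ ^ 2 - 1 / R ^ 2)) := by
    rw [Finset.sum_mul]
    refine Finset.sum_le_sum fun ρ hρ => ?_
    rcases Nat.eq_zero_or_pos (analyticOrderNatAt f ρ) with h0 | h0
    · rw [h0]; simp
    · have hfz : f ρ = 0 := apply_eq_zero_of_analyticOrderNatAt_ne_zero h0.ne'
      have h1 := hz ρ (hFR ρ hρ) hfz
      have h2 : ‖ρ - c‖ ≤ ρ₀ := by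
        have := hF ρ hρ
        rwa [mem_closedBall, dist_eq_norm] at this
      have h3 : 0 < ‖ρ - c‖ := by
        rw [norm_pos_iff, sub_ne_zero]
        intro h
        rw [h] at hfz
        exact hf0 hfz
      refine mul_le_mul_of_nonneg_left ?_ (Nat.cast_nonneg _)
      have h4 : 1 / ρ₀ ^ 2 ≤ 1 / ‖ρ - c‖ ^ 2 := by
        apply one_div_le_one_div_of_le (by positivity)
        exact pow_le_pow_left₀ h3.le h2 2
      have h5 : 1 / R ^ 2 ≤ 1 / ρ₀ ^ 2 := by
        apply one_div_le_one_div_of_le (by positivity)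
        exact pow_le_pow_left₀ hρ₀.le hρR.le 2
      refine mul_le_mul (by linarith) (by linarith) (by linarith) (by linarith)
  linarith

/-- Comparison of L-series with a nonnegative majorant. -/
lemma norm_LSeries_le {f : ℕ → ℂ} {g : ℕ → ℝ} (hfg : ∀ n, ‖f n‖ ≤ g n) {s : ℂ}
    (hsum : LSeriesSummable (fun n => (g n : ℂ)) (s.re : ℂ)) :
    ‖LSeries f s‖ ≤ ‖LSeries (fun n => (g n : ℂ)) (s.re : ℂ)‖ := by
  have hg0 : ∀ n, 0 ≤ g n := fun n => (norm_nonneg _).trans (hfg n)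
  have hterm : ∀ n, LSeries.term (fun n => (g n : ℂ)) (s.re : ℂ) n
      = ((‖LSeries.term (fun n => (g n : ℂ)) (s.re : ℂ) n‖ : ℝ) : ℂ) := by
    intro n
    rcases Nat.eq_zero_or_pos n with rfl | hn
    · simp
    · have hn' : (0:ℝ) < n := by exact_mod_cast hn
      rw [LSeries.term_of_ne_zero hn.ne']
      have : ((n:ℂ) ^ ((s.re : ℝ) : ℂ)) = (((n:ℝ) ^ s.re : ℝ) : ℂ) := by
        rw [Complex.ofReal_cpow hn'.le]; simp
      rw [this, ← Complex.ofReal_div, Complex.norm_real, Real.norm_eq_abs,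
        abs_of_nonneg (div_nonneg (hg0 n) (by positivity))]
  have hsn : Summable (fun n => ‖LSeries.term (fun n => (g n : ℂ)) (s.re : ℂ) n‖) := hsum.norm
  have h1 : LSeries (fun n => (g n : ℂ)) (s.re : ℂ)
      = ((∑' n, ‖LSeries.term (fun n => (g n : ℂ)) (s.re : ℂ) n‖ : ℝ) : ℂ) := by
    rw [LSeries, Complex.ofReal_tsum]
    exact tsum_congr hterm
  rw [h1, Complex.norm_real, Real.norm_eq_abs, abs_of_nonneg (tsum_nonneg fun _ => norm_nonneg _)]
  refine tsum_of_norm_bounded hsn.hasSum fun n => ?_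
  rw [LSeries.norm_term_eq, LSeries.norm_term_eq]
  split_ifs with h
  · exact le_rfl
  · have hn' : (0:ℝ) < n := by exact_mod_cast Nat.pos_of_ne_zero h
    rw [Complex.ofReal_re, Complex.norm_real, Real.norm_eq_abs, abs_of_nonneg (hg0 n)]
    exact div_le_div_of_nonneg_right (hfg n) (by positivity)

lemma near_one : ∃ r₀ : ℝ, 0 < r₀ ∧ r₀ ≤ 1/16 ∧ ∀ r : ℝ, 0 < r → r ≤ r₀ →
    ‖riemannZeta (((1 + r : ℝ)) : ℂ)‖ ≤ 2 / r ∧
    ‖deriv riemannZeta (((1 + r : ℝ)) : ℂ) / riemannZeta (((1 + r : ℝ)) : ℂ)‖ ≤ 2 / r := by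
  have h1 : ∀ᶠ s in 𝓝 (1:ℂ), ‖riemannZeta₁ s‖ < 2 := by
    have hc : Tendsto (fun s => ‖riemannZeta₁ s‖) (𝓝 1) (𝓝 ‖riemannZeta₁ 1‖) :=
      (differentiable_riemannZeta₁.continuous.continuousAt).norm
    rw [riemannZeta₁_one, norm_one] at hc
    exact hc.eventually_lt_const (by norm_num)
  obtain ⟨K, hK⟩ := log_deriv_riemannZeta_add_inv_sub_bounded.bound
  rw [eventually_nhdsWithin_iff] at hK
  obtain ⟨ε, hε, hball⟩ := Metric.eventually_nhds_iff.1 (h1.and hK)
  refine ⟨min (min (ε/2) (1/16)) (1/(|K| + 1)), by positivity, ?_, ?_⟩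
  · exact (min_le_left _ _).trans (min_le_right _ _)
  intro r hr0 hr
  have hr1 : r ≤ ε/2 := hr.trans ((min_le_left _ _).trans (min_le_left _ _))
  have hr3 : r ≤ 1/(|K| + 1) := hr.trans (min_le_right _ _)
  have hne : (((1 + r : ℝ)) : ℂ) ≠ 1 := by
    intro h
    have : (1 + r : ℝ) = 1 := by exact_mod_cast h
    linarith
  have hsub : (((1 + r : ℝ)) : ℂ) - 1 = ((r:ℝ):ℂ) := by push_cast; ring
  have hnr : ‖(((1 + r : ℝ)) : ℂ) - 1‖ = r := by
    rw [hsub, Complex.norm_real, Real.norm_eq_abs, abs_of_pos hr0]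
  obtain ⟨ha, hb⟩ := hball (y := (((1 + r : ℝ)) : ℂ)) (by rw [dist_eq_norm, hnr]; linarith)
  constructor
  · rw [riemannZeta_eq_inv_sub_mul hne, norm_mul, norm_inv, hnr]
    rw [inv_mul_eq_div]
    exact div_le_div_of_nonneg_right ha.le hr0.le
  · have hb' := hb hne
    rw [norm_one, mul_one] at hb'
    have h2 : deriv riemannZeta (((1 + r : ℝ)) : ℂ) / riemannZeta (((1 + r : ℝ)) : ℂ)
        = (deriv riemannZeta (((1 + r : ℝ)) : ℂ) / riemannZeta (((1 + r : ℝ)) : ℂ)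
          + ((((1 + r : ℝ)) : ℂ) - 1)⁻¹) - ((((1 + r : ℝ)) : ℂ) - 1)⁻¹ := by ring
    rw [h2]
    have h3 : ‖((((1 + r : ℝ)) : ℂ) - 1)⁻¹‖ = 1/r := by rw [norm_inv, hnr, one_div]
    have h4 : K ≤ 1/r := by
      have h5 : 0 < |K| + 1 := by positivity
      have h6 : r * (|K| + 1) ≤ 1 := by
        rw [le_div_iff₀ h5] at hr3
        exact hr3
      rw [le_div_iff₀ hr0]
      have := le_abs_self K
      nlinarith
    calc _ ≤ K + 1/r := (norm_sub_le _ _).trans (by rw [h3]; linarith)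
      _ ≤ 2/r := by rw [show (2:ℝ)/r = 1/r + 1/r by ring]; linarith

lemma LSeries_one_ofReal {σ : ℝ} (hσ : 1 < σ) :
    LSeries (fun _ => ((1:ℝ):ℂ)) (σ:ℂ) = riemannZeta (σ:ℂ) := by
  have := LSeries_one_eq_riemannZeta (s := (σ:ℂ)) (by simpa using hσ)
  rw [← this]
  congr 1

/-- Lower bound for `|L(s, χ)|` to the right of `1`. -/
lemma norm_LFunction_ge {q : ℕ} [NeZero q] (χ : DirichletCharacter ℂ q) {s : ℂ} (hs : 1 < s.re) :
    1 ≤ ‖DirichletCharacter.LFunction χ s‖ * ‖riemannZeta (s.re : ℂ)‖ := by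
  have h1 := DirichletCharacter.LSeries.mul_mu_eq_one χ hs
  have h2 : ‖LSeries ((fun n : ℕ => χ n) * (fun n : ℕ => ((ArithmeticFunction.moebius n : ℤ) : ℂ))) s‖
      ≤ ‖riemannZeta (s.re : ℂ)‖ := by
    rw [← LSeries_one_ofReal hs]
    refine norm_LSeries_le (g := fun _ => 1) ?_ ?_
    · intro n
      rw [Pi.mul_apply, norm_mul]
      have a1 := DirichletCharacter.norm_le_one χ (n : ZMod q)
      have a2 : ‖((ArithmeticFunction.moebius n : ℤ) : ℂ)‖ ≤ 1 := by
        rw [Complex.norm_intCast]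
        exact_mod_cast ArithmeticFunction.abs_moebius_le_one
      calc _ ≤ 1 * 1 := mul_le_mul a1 a2 (norm_nonneg _) zero_le_one
        _ = 1 := one_mul 1
    · have := LSeriesSummable_one_iff (s := ((s.re : ℝ) : ℂ))
      have h := this.2 (by simpa using hs)
      convert h using 1
      ext n
      simp
  rw [← DirichletCharacter.LFunction_eq_LSeries χ hs] at h1
  have h3 := congrArg norm h1
  rw [norm_mul, norm_one] at h3
  calc (1:ℝ) = _ := h3.symm
    _ ≤ _ := mul_le_mul_of_nonneg_left h2 (norm_nonneg _)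

/-- Upper bound for `|L'/L|` to the right of `1`. -/
lemma norm_logDeriv_LFunction_le {q : ℕ} [NeZero q] (χ : DirichletCharacter ℂ q) {s : ℂ}
    (hs : 1 < s.re) :
    ‖logDeriv (DirichletCharacter.LFunction χ) s‖
      ≤ ‖deriv riemannZeta (s.re : ℂ) / riemannZeta (s.re : ℂ)‖ := by
  have hs' : 1 < ((s.re : ℝ) : ℂ).re := by simpa using hs
  have e1 : logDeriv (DirichletCharacter.LFunction χ) s
      = - LSeries ((fun n : ℕ => χ n) * (fun n : ℕ => ((ArithmeticFunction.vonMangoldt n : ℝ) : ℂ))) s := by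
    rw [DirichletCharacter.LSeries_twist_vonMangoldt_eq χ hs, logDeriv_apply,
      DirichletCharacter.deriv_LFunction_eq_deriv_LSeries χ hs,
      DirichletCharacter.LFunction_eq_LSeries χ hs]
    ring
  have e2 : deriv riemannZeta (s.re : ℂ) / riemannZeta (s.re : ℂ)
      = - LSeries (fun n : ℕ => ((ArithmeticFunction.vonMangoldt n : ℝ) : ℂ)) (s.re : ℂ) := by
    rw [ArithmeticFunction.LSeries_vonMangoldt_eq_deriv_riemannZeta_div hs']
    ring
  rw [e1, e2, norm_neg, norm_neg]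
  refine norm_LSeries_le (g := fun n => ArithmeticFunction.vonMangoldt n) ?_
    (ArithmeticFunction.LSeriesSummable_vonMangoldt hs')
  intro n
  rw [Pi.mul_apply, norm_mul, Complex.norm_real, Real.norm_eq_abs,
    abs_of_nonneg ArithmeticFunction.vonMangoldt_nonneg]
  exact mul_le_of_le_one_left ArithmeticFunction.vonMangoldt_nonneg
    (DirichletCharacter.norm_le_one χ _)

end Vale.Agent.P026.H392
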