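import Vale.Agent.P026.H392.KElink
import Vale.Agent.P026.H392.Bounds

open Complex Set Filter Topology Metric

namespace Vale.Agent.P026.H392

lemma analyticAt_LFunction {q : ℕ} [NeZero q] (χ : DirichletCharacter ℂ q) {s : ℂ}
    (hs : s ≠ 1 ∨ χ ≠ 1) : AnalyticAt ℂ (DirichletCharacter.LFunction χ) s := by
  rcases hs with hs | hχ
  · have h : DifferentiableOn ℂ (DirichletCharacter.LFunction χ) {1}ᶜ := by
      intro z hz
      exact (DirichletCharacter.differentiableAt_LFunction χ z (Or.inl hz)).differentiableWithinAt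
    exact h.analyticAt (isOpen_compl_singleton.mem_nhds hs)
  · exact (DirichletCharacter.differentiable_LFunction hχ).analyticAt s

/-- Counting zeros of `L(s, χ)` near `1 + iγ`, given an upper bound for `L`. -/
lemma count_L {r₀ : ℝ} (hnear : ∀ r : ℝ, 0 < r → r ≤ r₀ →
      ‖riemannZeta (((1 + r : ℝ)) : ℂ)‖ ≤ 2 / r ∧
      ‖deriv riemannZeta (((1 + r : ℝ)) : ℂ) / riemannZeta (((1 + r : ℝ)) : ℂ)‖ ≤ 2 / r)
    {q : ℕ} [NeZero q] (χ : DirichletCharacter ℂ q) {c : ℂ} {r ρ₀ R U : ℝ} (hr : 0 < r) (hr0 : r ≤ r₀)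
    (hr1 : r ≤ 1) (hρ : 0 < ρ₀) (hρR : ρ₀ < R) (hc : c.re = 1 + r)
    (hχ : χ ≠ 1 ∨ R < |c.im|) (hU1 : 1 ≤ U)
    (hU : ∀ s ∈ closedBall c R, ‖DirichletCharacter.LFunction χ s‖ ≤ U)
    (F : Finset ℂ) (hF : ∀ ρ ∈ F, ρ ∈ closedBall c ρ₀) :
    (∑ ρ ∈ F, (analyticOrderNatAt (DirichletCharacter.LFunction χ) ρ : ℝ))
        * (r * (1 / ρ₀ ^ 2 - 1 / R ^ 2)) ≤ 2 / r + 2 * Real.log (2 * U / r) / R := by
  obtain ⟨hz1, hz2⟩ := hnear r hr hr0
  have hR : 0 < R := hρ.trans hρR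
  have hne : ∀ s ∈ closedBall c R, s ≠ 1 ∨ χ ≠ 1 := by
    intro s hs
    rcases hχ with h | h
    · exact Or.inr h
    · left
      intro h1
      rw [h1, mem_closedBall, dist_eq_norm] at hs
      have h2 := Complex.abs_im_le_norm (1 - c)
      rw [Complex.sub_im, Complex.one_im, zero_sub, abs_neg] at h2
      linarith
  have hcre : 1 < c.re := by rw [hc]; linarith
  have hcc : ((c.re : ℝ) : ℂ) = (((1 + r : ℝ)) : ℂ) := by rw [hc]
  have hlow : r / 2 ≤ ‖DirichletCharacter.LFunction χ c‖ := by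
    have h1 := norm_LFunction_ge χ hcre
    rw [hcc] at h1
    have h2 : ‖DirichletCharacter.LFunction χ c‖ * ‖riemannZeta (((1 + r : ℝ)) : ℂ)‖
        ≤ ‖DirichletCharacter.LFunction χ c‖ * (2 / r) :=
      mul_le_mul_of_nonneg_left hz1 (norm_nonneg _)
    have h3 : 1 ≤ ‖DirichletCharacter.LFunction χ c‖ * (2 / r) := h1.trans h2
    have h4 : ‖DirichletCharacter.LFunction χ c‖ * (2 / r) * (r / 2) = ‖DirichletCharacter.LFunction χ c‖ := by
      field_simp
    calc r / 2 = 1 * (r / 2) := by ring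
      _ ≤ ‖DirichletCharacter.LFunction χ c‖ * (2 / r) * (r / 2) :=
        mul_le_mul_of_nonneg_right h3 (by positivity)
      _ = _ := h4
  have harg : 1 < 2 * U / r := by
    rw [lt_div_iff₀ hr]; linarith
  have hexp : Real.exp (Real.log (2 * U / r)) = 2 * U / r := Real.exp_log (by linarith)
  refine count_at (f := DirichletCharacter.LFunction χ) (c := c) (η := r) (D := 2 / r) hr hρ hρR
    (Real.log_pos harg) ?_ ?_ ?_ ?_ ?_ F hF
  · intro s hs
    exact analyticAt_LFunction χ (hne s hs)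
  · intro h
    rw [h, norm_zero] at hlow
    linarith
  · intro s hs
    rw [hexp]
    calc _ ≤ U := hU s hs
      _ = 2 * U / r * (r / 2) := by field_simp
      _ ≤ _ := mul_le_mul_of_nonneg_left hlow (by positivity)
  · intro s hs h0
    by_contra hcon
    rw [hc] at hcon
    have h1 : 1 ≤ s.re := by linarith
    have h2 : χ ≠ 1 ∨ s ≠ 1 := (hne s hs).symm
    exact DirichletCharacter.LFunction_ne_zero_of_one_le_re χ h2 h1 h0
  · have h1 := norm_logDeriv_LFunction_le χ hcre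
    rw [hcc] at h1
    exact (Complex.re_le_norm _).trans (h1.trans hz2)

/-- The zeros of zeta in a fixed compact set. -/
lemma zeta_compact_count {S : Set ℂ} (hS : IsCompact S) : ∃ K : ℝ, 1 ≤ K ∧ ∀ F : Finset ℂ,
    (∀ ρ ∈ F, ρ ∈ S) → ∑ ρ ∈ F, (analyticOrderNatAt riemannZeta ρ : ℝ) ≤ K := by
  classical
  have hfin := hS.inter_riemannZetaZeros_finite
  refine ⟨1 + ∑ ρ ∈ hfin.toFinset, (analyticOrderNatAt riemannZeta ρ : ℝ), ?_, ?_⟩
  · have : 0 ≤ ∑ ρ ∈ hfin.toFinset, (analyticOrderNatAt riemannZeta ρ : ℝ) :=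
      Finset.sum_nonneg fun _ _ => Nat.cast_nonneg _
    linarith
  intro F hF
  have h1 : ∑ ρ ∈ F, (analyticOrderNatAt riemannZeta ρ : ℝ)
      = ∑ ρ ∈ F.filter (fun ρ => analyticOrderNatAt riemannZeta ρ ≠ 0),
          (analyticOrderNatAt riemannZeta ρ : ℝ) := by
    rw [Finset.sum_filter]
    refine Finset.sum_congr rfl fun ρ _ => ?_
    split_ifs with h
    · rfl
    · push Not at h
      rw [h]; simp
  rw [h1]
  have h2 : ∑ ρ ∈ F.filter (fun ρ => analyticOrderNatAt riemannZeta ρ ≠ 0),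
          (analyticOrderNatAt riemannZeta ρ : ℝ)
      ≤ ∑ ρ ∈ hfin.toFinset, (analyticOrderNatAt riemannZeta ρ : ℝ) := by
    refine Finset.sum_le_sum_of_subset_of_nonneg ?_ (fun _ _ _ => Nat.cast_nonneg _)
    intro ρ hρ
    rw [Finset.mem_filter] at hρ
    rw [Set.Finite.mem_toFinset]
    exact ⟨hF ρ hρ.1, apply_eq_zero_of_analyticOrderNatAt_ne_zero hρ.2⟩
  linarith

end Vale.Agent.P026.H392
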