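import Vale.Agent.P026.H392.Local

open Complex Set Filter Topology Metric

namespace Vale.Agent.P026.H392

/-- Elementary inequality `(log T)^2 log Λ ≤ Λ^3`. -/
lemma lamb_cube {Q T Λ : ℝ} (hQ : 1 ≤ Q) (hT : 3 ≤ T) (hΛ : LL Q T + 3 ≤ Λ) :
    (Real.log T)^2 * Real.log Λ ≤ Λ^3 := by
  have hLL := LL_nonneg hQ hT
  have hlT := log_T_pos hT
  have hΛ3 : 3 ≤ Λ := by linarith
  have hΛ0 : 0 < Λ := by linarith
  have hlΛ : 0 < Real.log Λ := Real.log_pos (by linarith)
  rcases le_or_gt (Real.log T) Λ with h | h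
  · have h1 : Real.log Λ ≤ Λ := (Real.log_le_sub_one_of_pos hΛ0).trans (by linarith)
    calc (Real.log T)^2 * Real.log Λ ≤ Λ^2 * Λ :=
          mul_le_mul (pow_le_pow_left₀ (by linarith) h 2) h1 hlΛ.le (by positivity)
      _ = Λ^3 := by ring
  · have h1 : Real.log Λ ≤ Real.log (Real.log T) := Real.log_le_log hΛ0 h.le
    calc (Real.log T)^2 * Real.log Λ ≤ (Real.log T)^2 * Real.log (Real.log T) :=
          mul_le_mul_of_nonneg_left h1 (by positivity)
      _ ≤ (LL Q T)^3 := LL_cube hQ hT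
      _ ≤ Λ^3 := pow_le_pow_left₀ hLL (by linarith) 3

lemma log_div_le_of_sqrt {Λ : ℝ} (hΛ : 1 ≤ Λ) : Real.log Λ / Λ ≤ 2 / Real.sqrt Λ := by
  have hs : 0 < Real.sqrt Λ := Real.sqrt_pos.2 (by linarith)
  have h1 : Real.log Λ ≤ 2 * Real.sqrt Λ := by
    have h2 : Real.log (Real.sqrt Λ) ≤ Real.sqrt Λ - 1 := Real.log_le_sub_one_of_pos hs
    rw [Real.log_sqrt (by linarith)] at h2
    linarith
  rw [div_le_div_iff₀ (by linarith) hs]
  calc Real.log Λ * Real.sqrt Λ ≤ 2 * Real.sqrt Λ * Real.sqrt Λ :=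
        mul_le_mul_of_nonneg_right h1 hs.le
    _ = 2 * Λ := by rw [mul_assoc, Real.mul_self_sqrt (by linarith)]

/-- The arithmetic of the local count. -/
lemma local_arith {κ Λ l r R D : ℝ} (hκ : 10 ≤ κ) (hΛ : 3 ≤ Λ) (hl : 0 ≤ l)
    (hcube : l^2 * Real.log Λ ≤ Λ^3) (hrΛ : 1 / Λ ≤ r) (hr1 : r ≤ 1/16)
    (hR : R = max (16 * r) (Real.log Λ / Λ)) (hD : D ≤ Λ + Real.sqrt R * l) (hD0 : 0 ≤ D) :
    (r / R) * Real.log (2 * (Real.exp (R * κ * D) * (4 + κ * D)) / r)
      ≤ (6 * κ + 4) * (r * Λ + r ^ (3/2 : ℝ) * l) := by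
  have hΛ0 : 0 < Λ := by linarith
  have hr0 : 0 < r := lt_of_lt_of_le (by positivity) hrΛ
  have hlog1 : 1 ≤ Real.log Λ := by
    rw [Real.le_log_iff_exp_le hΛ0]
    exact (Real.exp_one_lt_d9.le.trans (by norm_num)).trans hΛ
  have hlogΛ0 : 0 < Real.log Λ := by linarith
  have hR1 : 16 * r ≤ R := by rw [hR]; exact le_max_left _ _
  have hR2 : Real.log Λ / Λ ≤ R := by rw [hR]; exact le_max_right _ _
  have hR0 : 0 < R := by linarith
  -- sqrt R * l
  have hsq1 : Real.sqrt (Real.log Λ / Λ) * l ≤ Λ := by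
    have h1 : (Real.sqrt (Real.log Λ / Λ) * l)^2 ≤ Λ^2 := by
      rw [mul_pow, Real.sq_sqrt (by positivity), div_mul_eq_mul_div, div_le_iff₀ hΛ0]
      calc Real.log Λ * l^2 = l^2 * Real.log Λ := by ring
        _ ≤ Λ^3 := hcube
        _ = Λ^2 * Λ := by ring
    exact le_of_sq_le_sq h1 hΛ0.le
  have hsqR : Real.sqrt R ≤ 4 * Real.sqrt r + Real.sqrt (Real.log Λ / Λ) := by
    have h16 : Real.sqrt (16 * r) = 4 * Real.sqrt r := by
      rw [Real.sqrt_mul (by norm_num), show (16:ℝ) = 4^2 by norm_num, Real.sqrt_sq (by norm_num)]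
    rw [hR]
    rcases le_total (16 * r) (Real.log Λ / Λ) with h | h
    · rw [max_eq_right h]
      have := Real.sqrt_nonneg r
      linarith
    · rw [max_eq_left h, h16]
      have := Real.sqrt_nonneg (Real.log Λ / Λ)
      linarith
  have hD2 : D ≤ 2 * Λ + 4 * Real.sqrt r * l := by
    have := mul_le_mul_of_nonneg_right hsqR hl
    nlinarith
  -- l ≤ Λ^2
  have hlΛ : l ≤ Λ^2 := by
    have h1 : l^2 ≤ (Λ^2)^2 := by
      calc l^2 = l^2 * 1 := by ring
        _ ≤ l^2 * Real.log Λ := mul_le_mul_of_nonneg_left hlog1 (by positivity)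
        _ ≤ Λ^3 := hcube
        _ ≤ Λ^3 * Λ := le_mul_of_one_le_right (by positivity) (by linarith)
        _ = (Λ^2)^2 := by ring
    exact le_of_sq_le_sq h1 (by positivity)
  have hsr : Real.sqrt r ≤ 1/4 := by
    rw [show (1/4:ℝ) = Real.sqrt ((1/4)^2) by rw [Real.sqrt_sq (by norm_num)]]
    exact Real.sqrt_le_sqrt (by linarith)
  have hD3 : D ≤ 2 * Λ^2 := by
    have h1 : 4 * Real.sqrt r * l ≤ 1 * Λ^2 := by
      refine mul_le_mul (by linarith) hlΛ hl zero_le_one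
    nlinarith
  have hκ0 : 0 < κ := by linarith
  -- logs
  have hU0 : 0 < 4 + κ * D := by positivity
  have hlogU : Real.log (2 * (Real.exp (R * κ * D) * (4 + κ * D)) / r)
      = Real.log 2 + R * κ * D + Real.log (4 + κ * D) + Real.log (1 / r) := by
    rw [show 2 * (Real.exp (R * κ * D) * (4 + κ * D)) / r
      = ((2 * Real.exp (R * κ * D)) * (4 + κ * D)) * (1/r) by ring]
    rw [Real.log_mul (by positivity) (by positivity), Real.log_mul (by positivity) (by positivity),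
      Real.log_mul (by norm_num) (by positivity), Real.log_exp]
  have hl1 : Real.log (4 + κ * D) ≤ (κ + 2) * Real.log Λ := by
    have h1 : 4 + κ * D ≤ (4 * κ) * Λ^2 := by nlinarith
    have h2 : Real.log (4 + κ * D) ≤ Real.log (4 * κ) + 2 * Real.log Λ := by
      rw [← Real.log_rpow hΛ0, ← Real.log_mul (by positivity) (by positivity)]
      refine Real.log_le_log hU0 ?_
      rw [Real.rpow_two]; exact h1
    have h3 : Real.log (4 * κ) ≤ κ := by
      have h4 : Real.log (4 * κ) = Real.log 4 + Real.log κ := Real.log_mul (by norm_num) (by positivity)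
      have h5 : Real.log 4 ≤ 2 := by
        rw [Real.log_le_iff_le_exp (by norm_num)]
        have := Real.add_one_le_exp (1:ℝ)
        have h6 : Real.exp 2 = Real.exp 1 * Real.exp 1 := by rw [← Real.exp_add]; norm_num
        rw [h6]; nlinarith
      have h6 : Real.log κ ≤ κ - 2 := by
        have h7 : Real.log (κ / 4) ≤ κ / 4 - 1 := Real.log_le_sub_one_of_pos (by positivity)
        rw [Real.log_div (by positivity) (by norm_num)] at h7
        linarith
      linarith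
    nlinarith
  have hl2 : Real.log (1 / r) ≤ Real.log Λ := by
    refine Real.log_le_log (by positivity) ?_
    rw [div_le_iff₀ hr0]
    rw [div_le_iff₀ hΛ0] at hrΛ
    linarith
  have hl3 : Real.log 2 ≤ 1 * Real.log Λ := by
    rw [one_mul]; exact Real.log_le_log (by norm_num) (by linarith)
  have hrR : r / R * Real.log Λ ≤ r * Λ := by
    have h1 : Real.log Λ ≤ R * Λ := by
      rwa [div_le_iff₀ hΛ0] at hR2
    rw [div_mul_eq_mul_div, div_le_iff₀ hR0]
    calc r * Real.log Λ ≤ r * (R * Λ) := mul_le_mul_of_nonneg_left h1 hr0.le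
      _ = r * Λ * R := by ring
  have hrR0 : 0 < r / R := by positivity
  have hr32 : r * (Real.sqrt r) = r ^ (3/2 : ℝ) := by
    rw [Real.sqrt_eq_rpow]
    nth_rewrite 1 [← Real.rpow_one r]
    rw [← Real.rpow_add hr0]; norm_num
  rw [hlogU]
  calc r / R * (Real.log 2 + R * κ * D + Real.log (4 + κ * D) + Real.log (1 / r))
      ≤ r / R * (R * κ * D + (κ + 4) * Real.log Λ) := by
        refine mul_le_mul_of_nonneg_left ?_ hrR0.le
        linarith
    _ = κ * (r * D) + (κ + 4) * (r / R * Real.log Λ) := by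
        field_simp
    _ ≤ κ * (r * (2 * Λ + 4 * Real.sqrt r * l)) + (κ + 4) * (r * Λ) := by
        gcongr
    _ = (3 * κ + 4) * (r * Λ) + 4 * κ * ((r * Real.sqrt r) * l) := by ring
    _ = (3 * κ + 4) * (r * Λ) + 4 * κ * (r ^ (3/2:ℝ) * l) := by rw [hr32]
    _ ≤ _ := by
        have h1 : 0 ≤ r * Λ := by positivity
        have h2 : 0 ≤ r ^ (3/2:ℝ) * l := by positivity
        nlinarith

lemma local_main {r₀ : ℝ} (hnear : ∀ r : ℝ, 0 < r → r ≤ r₀ →
      ‖riemannZeta (((1 + r : ℝ)) : ℂ)‖ ≤ 2 / r ∧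
      ‖deriv riemannZeta (((1 + r : ℝ)) : ℂ) / riemannZeta (((1 + r : ℝ)) : ℂ)‖ ≤ 2 / r)
    {q : ℕ} [NeZero q] (χ : DirichletCharacter ℂ q) {κ Λ l R D γ r : ℝ} (hκ : 10 ≤ κ) (hΛ : 3 ≤ Λ)
    (hl : 0 ≤ l) (hcube : l^2 * Real.log Λ ≤ Λ^3) (hrΛ : 1 / Λ ≤ r) (hr : r ≤ r₀) (hr16 : r ≤ 1/16)
    (hR : R = max (16 * r) (Real.log Λ / Λ)) (hR14 : R ≤ 1/4)
    (hDle : D ≤ Λ + Real.sqrt R * l) (hD0 : 0 ≤ D)
    (hχ' : χ ≠ 1 ∨ (q = 1 ∧ 1 ≤ |γ|))
    (hUb : ∀ s : ℂ, 1 - R ≤ s.re → s.re ≤ 2 → |s.im - γ| ≤ R →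
      ‖DirichletCharacter.LFunction χ s‖ ≤ Real.exp (R * κ * D) * (4 + κ * D))
    (F : Finset ℂ) (hF : ∀ ρ ∈ F, ρ ∈ closedBall ((1:ℂ) + γ * I) r) :
    ∑ ρ ∈ F, (analyticOrderNatAt (DirichletCharacter.LFunction χ) ρ : ℝ)
        ≤ 11 * (1 + (6 * κ + 4)) * (1 + r * Λ + r ^ (3/2 : ℝ) * l) := by
  have hΛ0 : 0 < Λ := by linarith
  have hr0 : 0 < r := lt_of_lt_of_le (by positivity) hrΛ
  have hκ0 : 0 < κ := by linarith
  have hR16 : 16 * r ≤ R := by rw [hR]; exact le_max_left _ _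
  have hR0 : 0 < R := by linarith
  have harith := local_arith hκ hΛ hl hcube hrΛ hr16 hR hDle hD0
  set U := Real.exp (R * κ * D) * (4 + κ * D) with hU
  set c₀ : ℂ := (((1 + r : ℝ)) : ℂ) + γ * I with hc₀
  have hc₀re : c₀.re = 1 + r := by simp [hc₀]
  have hc₀im : c₀.im = γ := by simp [hc₀]
  have hU1 : 1 ≤ U := by
    have h1 : 1 ≤ Real.exp (R * κ * D) := Real.one_le_exp (by positivity)
    have h2 : 1 ≤ 4 + κ * D := by
      have : 0 ≤ κ * D := by positivity
      linarith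
    calc (1:ℝ) = 1 * 1 := (one_mul 1).symm
      _ ≤ _ := mul_le_mul h1 h2 zero_le_one (by positivity)
  have hcount := count_L hnear χ (c := c₀) (r := r) (ρ₀ := 2 * r) (R := R) (U := U) hr0
    hr (by linarith) (by linarith) (by linarith) hc₀re
    (by
      rcases hχ' with h | h
      · exact Or.inl h
      · right; rw [hc₀im]; linarith [h.2]) hU1 (by
      intro s hs
      rw [mem_closedBall, dist_eq_norm] at hs
      have hre := (Complex.abs_re_le_norm (s - c₀)).trans hs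
      have him := (Complex.abs_im_le_norm (s - c₀)).trans hs
      rw [Complex.sub_re, hc₀re, abs_le] at hre
      rw [Complex.sub_im, hc₀im] at him
      exact hUb s (by linarith [hre.1]) (by linarith [hre.2]) him) F (by
      intro ρ hρ
      have h1 := hF ρ hρ
      rw [mem_closedBall, dist_eq_norm] at h1 ⊢
      have h2 : ρ - c₀ = (ρ - (1 + γ * I)) - ((r:ℝ):ℂ) := by rw [hc₀]; push_cast; ring
      rw [h2]
      refine (norm_sub_le _ _).trans ?_
      rw [Complex.norm_real, Real.norm_eq_abs, abs_of_pos hr0]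
      linarith)
  set S := ∑ ρ ∈ F, (analyticOrderNatAt (DirichletCharacter.LFunction χ) ρ : ℝ) with hS
  have hS0 : 0 ≤ S := Finset.sum_nonneg fun _ _ => Nat.cast_nonneg _
  have hw : 3 / (16 * r) ≤ r * (1 / (2 * r) ^ 2 - 1 / R ^ 2) := by
    have h1 : 1 / R^2 ≤ 1 / (16 * r)^2 := by
      apply one_div_le_one_div_of_le (by positivity)
      exact pow_le_pow_left₀ (by positivity) hR16 2
    have h2 : r * (1 / (2 * r) ^ 2 - 1 / (16 * r) ^ 2) = (1/4 - 1/256) / r := by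
      field_simp
      ring
    calc 3 / (16 * r) ≤ (1/4 - 1/256) / r := by
          rw [div_le_div_iff₀ (by positivity) hr0]; nlinarith
      _ = _ := h2.symm
      _ ≤ _ := mul_le_mul_of_nonneg_left (by linarith) hr0.le
  have h1 : S * (3 / (16 * r)) ≤ 2 / r + 2 * Real.log (2 * U / r) / R :=
    (mul_le_mul_of_nonneg_left hw hS0).trans hcount
  have h2 : S ≤ 32/3 * (1 + (r / R) * Real.log (2 * U / r)) := by
    have h3 := mul_le_mul_of_nonneg_right h1 (by positivity : 0 ≤ 16 * r / 3)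
    have h4 : S * (3 / (16 * r)) * (16 * r / 3) = S := by field_simp
    have h5 : (2 / r + 2 * Real.log (2 * U / r) / R) * (16 * r / 3)
        = 32/3 * (1 + (r / R) * Real.log (2 * U / r)) := by field_simp; ring
    rw [h4, h5] at h3
    exact h3
  have hrl : 0 ≤ r * Λ + r ^ (3/2:ℝ) * l := by positivity
  calc S ≤ 32/3 * (1 + (6 * κ + 4) * (r * Λ + r ^ (3/2:ℝ) * l)) := by
        refine h2.trans ?_
        linarith
    _ ≤ _ := by nlinarith

/-- **Local zero count** in discs around `1 + iγ` (Vinogradov–Korobov strength). -/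
theorem local_count {C c : ℝ} (hC : 0 < C) (hc : 0 < c) (hVK : VKSum C c) :
    ∃ K r₁ : ℝ, 1 ≤ K ∧ 0 < r₁ ∧ r₁ ≤ 1/16 ∧
      ∀ Q T : ℝ, 1 ≤ Q → 3 ≤ T →
      ∀ (q : ℕ) [NeZero q] (χ : DirichletCharacter ℂ q), (q:ℝ) ≤ Q^2 → (χ ≠ 1 ∨ q = 1) →
      ∀ γ r : ℝ, |γ| ≤ 2 * T → 0 ≤ r → r ≤ r₁ →
      ∀ F : Finset ℂ, (∀ ρ ∈ F, ρ ∈ closedBall ((1:ℂ) + γ * I) r) →
        ∑ ρ ∈ F, (analyticOrderNatAt (DirichletCharacter.LFunction χ) ρ : ℝ)
          ≤ K * (1 + r * LL Q T + r ^ (3/2 : ℝ) * Real.log T) := by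
  obtain ⟨κ, d₀, M₀, hκ, hd₀, hd₀', hM₀, HU⟩ := L_upper hC hc hVK
  obtain ⟨r₀, hr₀, hr₀', hnear⟩ := near_one
  obtain ⟨K₂, hK₂, hcomp⟩ := zeta_compact_count (isCompact_closedBall (1:ℂ) 2)
  set r₁ := min r₀ (d₀ / 8) with hr₁
  have hr₁0 : 0 < r₁ := lt_min hr₀ (by positivity)
  have hr₁a : r₁ ≤ r₀ := min_le_left _ _
  have hr₁b : r₁ ≤ d₀ / 8 := min_le_right _ _
  set M₁ := M₀ + 3 + 1 / r₁ + (1 / d₀)^2 with hM₁
  have hM₁3 : 3 ≤ M₁ := by
    have : 0 < 1 / r₁ := by positivity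
    have : 0 < (1 / d₀)^2 := by positivity
    linarith
  have hκ0 : 0 < κ := by linarith
  set K₁ := 11 * (1 + (6 * κ + 4)) * (2 + M₁) with hK₁
  have hK₁1 : 1 ≤ K₁ := by
    rw [hK₁]; nlinarith
  refine ⟨max K₁ K₂, r₁, le_max_of_le_left hK₁1, hr₁0, hr₁a.trans hr₀', ?_⟩
  intro Q T hQ hT q _ χ hq hχ γ r hγ hr0 hr F hF
  have hLL := LL_nonneg hQ hT
  have hlT := log_T_pos hT
  have hbase : 1 ≤ 1 + r * LL Q T + r ^ (3/2 : ℝ) * Real.log T := by
    have h1 : 0 ≤ r * LL Q T := by positivity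
    have h2 : 0 ≤ r ^ (3/2 : ℝ) * Real.log T := by positivity
    linarith
  -- small height for zeta
  by_cases hsmall : q = 1 ∧ |γ| < 1
  · obtain ⟨hq1, hγ1⟩ := hsmall
    subst hq1
    rw [DirichletCharacter.LFunction_modOne_eq]
    have h1 := hcomp F (fun ρ hρ => by
      have h2 := hF ρ hρ
      rw [mem_closedBall, dist_eq_norm] at h2 ⊢
      have h3 : ρ - 1 = (ρ - (1 + γ * I)) + γ * I := by ring
      rw [h3]
      refine (norm_add_le _ _).trans ?_
      have h4 : ‖(γ:ℂ) * I‖ = |γ| := by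
        rw [norm_mul, Complex.norm_I, mul_one, Complex.norm_real, Real.norm_eq_abs]
      rw [h4]
      have : r ≤ 1 := by linarith [hr.trans (hr₁a.trans hr₀')]
      linarith)
    calc _ ≤ K₂ * 1 := by rw [mul_one]; exact h1
      _ ≤ _ := mul_le_mul (le_max_right _ _) hbase zero_le_one (by positivity)
  have hχ' : χ ≠ 1 ∨ (q = 1 ∧ 1 ≤ |γ|) := by
    rcases hχ with h | h
    · exact Or.inl h
    · refine Or.inr ⟨h, ?_⟩
      by_contra hcon
      exact hsmall ⟨h, not_le.1 hcon⟩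
  set Λ := LL Q T + M₁ with hΛ
  have hΛ3 : 3 ≤ Λ := by linarith
  have hΛ0 : 0 < Λ := by linarith
  have hcube : (Real.log T)^2 * Real.log Λ ≤ Λ^3 := lamb_cube hQ hT (by linarith)
  have hlog1 : 1 ≤ Real.log Λ := by
    rw [Real.le_log_iff_exp_le hΛ0]
    exact (Real.exp_one_lt_d9.le.trans (by norm_num)).trans hΛ3
  -- main case
  have hmain : ∀ r : ℝ, 1 / Λ ≤ r → r ≤ r₁ → (∀ ρ ∈ F, ρ ∈ closedBall ((1:ℂ) + γ * I) r) →
      ∑ ρ ∈ F, (analyticOrderNatAt (DirichletCharacter.LFunction χ) ρ : ℝ)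
        ≤ 11 * (1 + (6 * κ + 4)) * (1 + r * Λ + r ^ (3/2 : ℝ) * Real.log T) := by
    intro r hrΛ hr hF
    have hr0 : 0 < r := lt_of_lt_of_le (by positivity) hrΛ
    have hr16 : r ≤ 1/16 := hr.trans (hr₁a.trans hr₀')
    set R := max (16 * r) (Real.log Λ / Λ) with hR
    have hR16 : 16 * r ≤ R := le_max_left _ _
    have hR0 : 0 < R := by linarith
    have hRd : R ≤ 2 * d₀ := by
      refine max_le (by linarith) ?_
      refine (log_div_le_of_sqrt (by linarith)).trans ?_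
      have h1 : 1 / d₀ ≤ Real.sqrt Λ := by
        rw [show (1/d₀:ℝ) = Real.sqrt ((1/d₀)^2) by rw [Real.sqrt_sq (by positivity)]]
        refine Real.sqrt_le_sqrt ?_
        have : 0 < 1 / r₁ := by positivity
        linarith
      have h2 : 0 < Real.sqrt Λ := Real.sqrt_pos.2 hΛ0
      rw [div_le_iff₀ h2]
      rw [div_le_iff₀ hd₀] at h1
      linarith
    have hR14 : R ≤ 1/4 := by linarith
    set D := MM M₀ Q T (R/2) with hD
    have hD0 : 0 ≤ D := by
      have h2 : 0 ≤ Real.sqrt (R/2) * Real.log T := by positivity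
      rw [hD]; unfold MM; linarith
    have hDle : D ≤ Λ + Real.sqrt R * Real.log T := by
      have h1 : Real.sqrt (R/2) ≤ Real.sqrt R := Real.sqrt_le_sqrt (by linarith)
      have h2 : Real.sqrt (R/2) * Real.log T ≤ Real.sqrt R * Real.log T :=
        mul_le_mul_of_nonneg_right h1 (by linarith)
      have h3 : 0 < 1 / r₁ := by positivity
      have h4 : 0 < (1 / d₀)^2 := by positivity
      rw [hD]; unfold MM; linarith
    exact local_main hnear χ hκ hΛ3 (by linarith) hcube hrΛ (hr.trans hr₁a) hr16 hR hR14 hDle hD0 hχ'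
      (by
        intro s hs1 hs2 him
        have hxx := HU Q T (R/2) hQ hT (by linarith) (by linarith) q χ hq s (by linarith)
          hs2 (by
            have : |s.im| ≤ |s.im - γ| + |γ| := by
              calc |s.im| = |(s.im - γ) + γ| := by ring_nf
                _ ≤ _ := abs_add_le _ _
            linarith) (by
            rcases hχ' with h | h
            · exact Or.inl h
            · refine Or.inr ⟨h.1, ?_⟩
              have : |γ| ≤ |s.im - γ| + |s.im| := by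
                calc |γ| = |(γ - s.im) + s.im| := by ring_nf
                  _ ≤ |γ - s.im| + |s.im| := abs_add_le _ _
                  _ = _ := by rw [abs_sub_comm]
              linarith [h.2])
        rw [show 2 * (R/2) * κ * MM M₀ Q T (R/2) = R * κ * D by rw [hD]; ring] at hxx
        exact hxx) F hF
  -- conclusion
  have hM₁r : 1 / Λ ≤ r₁ := by
    have h1 : 1 / r₁ ≤ Λ := by
      have : 0 < (1 / d₀)^2 := by positivity
      linarith
    rw [div_le_iff₀ hr₁0] at h1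
    rw [div_le_iff₀ hΛ0]
    linarith
  have hfin : ∑ ρ ∈ F, (analyticOrderNatAt (DirichletCharacter.LFunction χ) ρ : ℝ)
      ≤ K₁ * (1 + r * LL Q T + r ^ (3/2 : ℝ) * Real.log T) := by
    have hr1 : r ≤ 1 := by linarith [hr.trans (hr₁a.trans hr₀')]
    have hr32 : 0 ≤ r ^ (3/2:ℝ) * Real.log T := by positivity
    have hrLL : 0 ≤ r * LL Q T := by positivity
    rcases le_or_gt (1/Λ) r with h | h
    · refine (hmain r h hr hF).trans ?_
      rw [hK₁, mul_assoc (11 * (1 + (6 * κ + 4)))]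
      refine mul_le_mul_of_nonneg_left ?_ (by positivity)
      have h1 : r * Λ = r * LL Q T + r * M₁ := by rw [hΛ]; ring
      have h2 : r * M₁ ≤ 1 * M₁ := mul_le_mul_of_nonneg_right hr1 (by linarith)
      rw [h1]
      nlinarith
    · have hb := hmain (1/Λ) le_rfl hM₁r (fun ρ hρ => closedBall_subset_closedBall h.le (hF ρ hρ))
      have h1 : 1 / Λ * Λ = 1 := by field_simp
      have h2 : (1/Λ) ^ (3/2:ℝ) * Real.log T ≤ 1 := by
        have h3 : ((1/Λ) ^ (3/2:ℝ) * Real.log T)^2 ≤ 1^2 := by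
          rw [mul_pow, ← Real.rpow_natCast, ← Real.rpow_mul (by positivity)]
          norm_num
          rw [inv_mul_le_iff₀ (by positivity), mul_one]
          calc (Real.log T)^2 = (Real.log T)^2 * 1 := by ring
            _ ≤ (Real.log T)^2 * Real.log Λ := mul_le_mul_of_nonneg_left hlog1 (by positivity)
            _ ≤ Λ^3 := hcube
        exact le_of_sq_le_sq h3 zero_le_one
      refine hb.trans ?_
      rw [hK₁, mul_assoc (11 * (1 + (6 * κ + 4)))]
      refine mul_le_mul_of_nonneg_left ?_ (by positivity)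
      rw [h1]
      calc 1 + 1 + (1/Λ) ^ (3/2:ℝ) * Real.log T ≤ (2 + M₁) * 1 := by linarith
        _ ≤ _ := mul_le_mul_of_nonneg_left hbase (by linarith)
  calc _ ≤ K₁ * (1 + r * LL Q T + r ^ (3/2 : ℝ) * Real.log T) := hfin
    _ ≤ _ := mul_le_mul_of_nonneg_right (le_max_left _ _) (by linarith)

end Vale.Agent.P026.H392
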