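import Vale.Agent.P026.H392.Local

open Complex Set Filter Topology Metric

namespace Vale.Agent.P026.H392

lemma norm_FF_le {q : ℕ} (hq : 0 < q) {ψ : ℕ → ℂ} (hψ : ∀ n, ‖ψ n‖ ≤ 1) {s : ℂ} (hs : 0 ≤ s.re) (n : ℕ)
    (hn : 1 ≤ n) : ‖FF q ψ s n‖ ≤ 2 * n := by
  unfold FF
  have hn' : (1:ℝ) ≤ n := by exact_mod_cast hn
  have h1 : ‖∑ k ∈ Finset.Icc 1 n, ψ k * pw s k‖ ≤ n := by
    refine (norm_sum_le _ _).trans ?_
    have : ∀ k ∈ Finset.Icc 1 n, ‖ψ k * pw s k‖ ≤ 1 := by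
      intro k hk
      rw [Finset.mem_Icc] at hk
      have hk0 : (0:ℝ) < k := by exact_mod_cast hk.1
      have hk1 : (1:ℝ) ≤ k := by exact_mod_cast hk.1
      rw [norm_mul, norm_pw hk0]
      calc _ ≤ 1 * 1 := mul_le_mul (hψ k)
            (Real.rpow_le_one_of_one_le_of_nonpos hk1 (by linarith)) (by positivity) zero_le_one
        _ = 1 := one_mul 1
    calc _ ≤ ∑ _k ∈ Finset.Icc 1 n, (1:ℝ) := Finset.sum_le_sum this
      _ = n := by simp
  have h2 := norm_integral_pw_trivial (s := s) hs one_pos le_rfl hn'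
  rw [Real.one_rpow, one_mul] at h2
  calc _ ≤ ‖∑ k ∈ Finset.Icc 1 n, ψ k * pw s k‖ + ‖mean q ψ * ∫ u in (1:ℝ)..(n:ℝ), pw s u‖ :=
        norm_sub_le _ _
    _ ≤ n + 1 * (n - 1) := by
        rw [norm_mul]
        refine add_le_add h1 (mul_le_mul (norm_mean_le hq hψ) h2 (norm_nonneg _) zero_le_one)
    _ ≤ _ := by linarith

/-- Crude polynomial bound for L-functions on `Re s > 1/2`. -/
lemma L_crude {q : ℕ} [NeZero q] (χ : DirichletCharacter ℂ q) {s : ℂ} (hs : 1/2 < s.re)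
    (hχ : χ ≠ 1 ∨ (q = 1 ∧ 1/2 ≤ |s.im|)) :
    ‖DirichletCharacter.LFunction χ s‖ ≤ q * (4 * ‖s‖ + 12) := by
  have hq0 : 0 < q := Nat.pos_of_ne_zero (NeZero.ne q)
  have hq1 : (1:ℝ) ≤ q := by exact_mod_cast hq0
  have hqp : (q:ℝ) ^ (1 - s.re) ≤ q := by
    calc (q:ℝ) ^ (1 - s.re) ≤ (q:ℝ) ^ (1:ℝ) := Real.rpow_le_rpow_of_exponent_le hq1 (by linarith)
      _ = q := Real.rpow_one _
  have gen : ∀ {ψ : ℕ → ℂ}, (∀ n, ‖ψ n‖ ≤ 1) → (∀ n, ψ (n + q) = ψ n) → ∀ {ℓ : ℂ},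
      Tendsto (FF q ψ s) atTop (𝓝 ℓ) → ‖ℓ‖ ≤ q * (4 * ‖s‖ + 10) := by
    intro ψ hψ hper ℓ hℓ
    obtain ⟨ℓ', h1, h2⟩ := exists_ell_em hs.le hq0 hψ hper
    have e : ℓ = ℓ' := tendsto_nhds_unique hℓ h1
    have h3 := h2 1 le_rfl (q * (1 + 1)) le_rfl
    rw [Nat.cast_one, Real.one_rpow, mul_one, ← e] at h3
    have h4 := norm_FF_le hq0 hψ (s := s) (by linarith) (q * (1 + 1))
      (Nat.one_le_iff_ne_zero.2 (by positivity))
    have h5 : ‖ℓ‖ ≤ ‖FF q ψ s (q * (1 + 1))‖ + ‖FF q ψ s (q * (1 + 1)) - ℓ‖ := by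
      calc ‖ℓ‖ = ‖FF q ψ s (q * (1 + 1)) - (FF q ψ s (q * (1 + 1)) - ℓ)‖ := by congr 1; ring
        _ ≤ _ := norm_sub_le _ _
    have h6 : (q:ℝ) ^ (1 - s.re) * (4 * ‖s‖ + 6) ≤ q * (4 * ‖s‖ + 6) :=
      mul_le_mul_of_nonneg_right hqp (by positivity)
    push_cast at h4
    linarith
  by_cases h1 : χ = 1
  · obtain ⟨hq', him⟩ := hχ.resolve_left (fun h => h h1)
    subst hq'
    rw [DirichletCharacter.LFunction_modOne_eq]
    have hs1 : s ≠ 1 := by
      intro h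
      rw [h] at him
      norm_num at him
    have h2 := gen (ψ := fun _ => 1) (fun n => by simp) (fun n => rfl) (link_zeta hs hs1)
    have h3 : ‖1 / (s - 1)‖ ≤ 2 := by
      have a1 : 1/2 ≤ ‖s - 1‖ := by
        have := Complex.abs_im_le_norm (s - 1)
        rw [Complex.sub_im, Complex.one_im, sub_zero] at this
        linarith
      rw [norm_div, norm_one, div_le_iff₀ (by linarith)]
      linarith
    have h4 : ‖riemannZeta s‖ ≤ ‖riemannZeta s - 1/(s-1)‖ + ‖1 / (s - 1)‖ := by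
      calc ‖riemannZeta s‖ = ‖(riemannZeta s - 1/(s-1)) + 1/(s-1)‖ := by congr 1; ring
        _ ≤ _ := norm_add_le _ _
    push_cast at h2 ⊢
    linarith
  · have h2 := gen (ψ := fun n : ℕ => χ (n : ZMod q)) (fun n => DirichletCharacter.norm_le_one χ _)
      (fun n => by simp) (link_char h1 hs)
    linarith

/-- **Trivial zero count** in the disc of radius `3/8` around `1 + it`. -/
theorem trivial_count :
    ∃ K : ℝ, 1 ≤ K ∧ ∀ (q : ℕ) [NeZero q] (χ : DirichletCharacter ℂ q), (χ ≠ 1 ∨ q = 1) →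
      ∀ t : ℝ, ∀ F : Finset ℂ, (∀ ρ ∈ F, ρ ∈ closedBall ((1:ℂ) + t * I) (3/8)) →
        ∑ ρ ∈ F, (analyticOrderNatAt (DirichletCharacter.LFunction χ) ρ : ℝ)
          ≤ K * Real.log (q * (|t| + 3)) := by
  obtain ⟨r₀, hr₀, hr₀', hnear⟩ := near_one
  obtain ⟨K₂, hK₂, hcomp⟩ := zeta_compact_count (isCompact_closedBall (1:ℂ) 2)
  set ρ₀ := 3/8 + r₀ with hρ₀
  set R := 7/16 + r₀ with hR
  have hρR : ρ₀ < R := by rw [hρ₀, hR]; linarith
  have hρ0 : 0 < ρ₀ := by rw [hρ₀]; linarith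
  have hR0 : 0 < R := by linarith
  have hRhalf : R ≤ 1/2 := by rw [hR]; linarith
  set w := r₀ * (1 / ρ₀ ^ 2 - 1 / R ^ 2) with hw
  have hw0 : 0 < w := by
    have h1 : 1 / R ^ 2 < 1 / ρ₀ ^ 2 := by
      apply one_div_lt_one_div_of_lt (by positivity)
      exact pow_lt_pow_left₀ hρR hρ0.le (by norm_num)
    have h2 : 0 < 1 / ρ₀ ^ 2 - 1 / R ^ 2 := by linarith
    positivity
  have hlog16 : 0 ≤ Real.log (16 / r₀) := by
    refine Real.log_nonneg ?_
    rw [le_div_iff₀ hr₀]; linarith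
  set K₁ := (2 / r₀ + 2 * (Real.log (16 / r₀) + 1) / R) / w with hK₁
  refine ⟨max K₁ K₂, le_max_of_le_right hK₂, ?_⟩
  intro q _ χ hχ t F hF
  have hq0 : 0 < q := Nat.pos_of_ne_zero (NeZero.ne q)
  have hq1 : (1:ℝ) ≤ q := by exact_mod_cast hq0
  have habs := abs_nonneg t
  have harg3 : 3 ≤ (q:ℝ) * (|t| + 3) := by nlinarith
  have hL1 : 1 ≤ Real.log (q * (|t| + 3)) := by
    rw [Real.le_log_iff_exp_le (by linarith)]
    exact (Real.exp_one_lt_d9.le.trans (by norm_num)).trans harg3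
  by_cases hsmall : q = 1 ∧ |t| < 1
  · obtain ⟨hq', ht1⟩ := hsmall
    subst hq'
    rw [DirichletCharacter.LFunction_modOne_eq]
    have h1 := hcomp F (fun ρ hρ => by
      have h2 := hF ρ hρ
      rw [mem_closedBall, dist_eq_norm] at h2 ⊢
      have h3 : ρ - 1 = (ρ - (1 + t * I)) + t * I := by ring
      rw [h3]
      refine (norm_add_le _ _).trans ?_
      have h4 : ‖(t:ℂ) * I‖ = |t| := by
        rw [norm_mul, Complex.norm_I, mul_one, Complex.norm_real, Real.norm_eq_abs]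
      rw [h4]
      linarith)
    calc _ ≤ K₂ * 1 := by rw [mul_one]; exact h1
      _ ≤ _ := mul_le_mul (le_max_right _ _) hL1 zero_le_one (by positivity)
  have hχ' : χ ≠ 1 ∨ (q = 1 ∧ 1 ≤ |t|) := by
    rcases hχ with h | h
    · exact Or.inl h
    · refine Or.inr ⟨h, ?_⟩
      by_contra hcon
      exact hsmall ⟨h, not_le.1 hcon⟩
  set c₀ : ℂ := (((1 + r₀ : ℝ)) : ℂ) + t * I with hc₀
  have hc₀re : c₀.re = 1 + r₀ := by simp [hc₀]
  have hc₀im : c₀.im = t := by simp [hc₀]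
  set U := (q:ℝ) * (8 * (|t| + 3)) with hU
  have hU1 : 1 ≤ U := by rw [hU]; nlinarith
  have hcount := count_L hnear χ (c := c₀) (r := r₀) (ρ₀ := ρ₀) (R := R) (U := U) hr₀
    le_rfl (by linarith) hρ0 hρR hc₀re
    (by
      rcases hχ' with h | h
      · exact Or.inl h
      · right; rw [hc₀im]; linarith [h.2]) hU1 (by
      intro s hs
      rw [mem_closedBall, dist_eq_norm] at hs
      have hre := (Complex.abs_re_le_norm (s - c₀)).trans hs
      have him := (Complex.abs_im_le_norm (s - c₀)).trans hs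
      rw [Complex.sub_re, hc₀re, abs_le] at hre
      rw [Complex.sub_im, hc₀im] at him
      have h1 := L_crude χ (s := s) (by rw [hR] at hre; linarith [hre.1]) (by
        rcases hχ' with h | h
        · exact Or.inl h
        · refine Or.inr ⟨h.1, ?_⟩
          have : |t| ≤ |s.im - t| + |s.im| := by
            calc |t| = |(t - s.im) + s.im| := by ring_nf
              _ ≤ |t - s.im| + |s.im| := abs_add_le _ _
              _ = _ := by rw [abs_sub_comm]
          linarith [h.2])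
      refine h1.trans ?_
      rw [hU]
      refine mul_le_mul_of_nonneg_left ?_ (by positivity)
      have h2 : ‖s‖ ≤ |s.re| + |s.im| := Complex.norm_le_abs_re_add_abs_im s
      have h3 : |s.re| ≤ 2 := by
        rw [abs_le]; constructor <;> linarith [hre.1, hre.2]
      have h4 : |s.im| ≤ |s.im - t| + |t| := by
        calc |s.im| = |(s.im - t) + t| := by ring_nf
          _ ≤ _ := abs_add_le _ _
      linarith) F (by
      intro ρ hρ
      have h1 := hF ρ hρ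
      rw [mem_closedBall, dist_eq_norm] at h1 ⊢
      have h2 : ρ - c₀ = (ρ - (1 + t * I)) - ((r₀:ℝ):ℂ) := by rw [hc₀]; push_cast; ring
      rw [h2]
      refine (norm_sub_le _ _).trans ?_
      rw [Complex.norm_real, Real.norm_eq_abs, abs_of_pos hr₀]
      linarith)
  set S := ∑ ρ ∈ F, (analyticOrderNatAt (DirichletCharacter.LFunction χ) ρ : ℝ) with hS
  have hlogs : Real.log (2 * U / r₀) = Real.log (16 / r₀) + Real.log (q * (|t| + 3)) := by
    rw [← Real.log_mul (by positivity) (by positivity)]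
    congr 1
    rw [hU]; ring
  rw [hlogs] at hcount
  set L := Real.log (q * (|t| + 3)) with hL
  have h1 : S * w ≤ (2 / r₀ + 2 * (Real.log (16 / r₀) + 1) / R) * L := by
    refine hcount.trans ?_
    have h2 : 2 / r₀ ≤ 2 / r₀ * L := le_mul_of_one_le_right (by positivity) hL1
    have h3 : 2 * (Real.log (16 / r₀) + L) / R ≤ 2 * (Real.log (16 / r₀) + 1) / R * L := by
      rw [div_mul_eq_mul_div]
      refine div_le_div_of_nonneg_right ?_ hR0.le
      nlinarith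
    linarith
  have h2 : S ≤ K₁ * L := by
    rw [hK₁, div_mul_eq_mul_div, le_div_iff₀ hw0]
    exact h1
  exact h2.trans (mul_le_mul_of_nonneg_right (le_max_left _ _) (by linarith))

end Vale.Agent.P026.H392
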