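import Vale.Agent.P026.H392.EM

open Complex Set Filter Topology MeasureTheory intervalIntegral

namespace Vale.Agent.P026.H392

/-- The Vinogradov–Korobov exponential sum bound (Hurwitz form). -/
def VKSum (C c : ℝ) : Prop :=
  ∀ t : ℝ, 2 ≤ t → ∀ a : ℝ, 0 ≤ a → a ≤ 1 → ∀ N : ℕ, 1 ≤ N → (N:ℝ) ≤ t^2 →
    ∀ N' : ℕ, N ≤ N' → N' ≤ 2*N →
    ‖∑ n ∈ Finset.Ioc N N', (((n:ℝ)+a : ℝ) : ℂ)^(Complex.I * t)‖
      ≤ C * N * Real.exp (-c * (Real.log N)^3/(Real.log t)^2)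

/-- Abel summation with a decreasing nonnegative weight. -/
lemma abel_bound {z : ℕ → ℂ} {w : ℕ → ℝ} {N N' : ℕ} {B : ℝ} (hNN : N ≤ N')
    (hw0 : ∀ n, N ≤ n → 0 ≤ w n) (hw : ∀ n, N ≤ n → w (n+1) ≤ w n)
    (hB : ∀ M, N ≤ M → M ≤ N' → ‖∑ n ∈ Finset.Ioc N M, z n‖ ≤ B) :
    ‖∑ n ∈ Finset.Ioc N N', (w n : ℂ) * z n‖ ≤ w N * B := by
  set S : ℕ → ℂ := fun M => ∑ n ∈ Finset.Ioc N M, z n with hS
  have key : ∀ M, N ≤ M → ∑ n ∈ Finset.Ioc N M, (w n : ℂ) * z n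
      = (w M : ℂ) * S M + ∑ n ∈ Finset.Ico N M, ((w n - w (n+1) : ℝ) : ℂ) * S n := by
    intro M hM
    induction M, hM using Nat.le_induction with
    | base => simp [hS]
    | succ M hM ih =>
      rw [Finset.sum_Ioc_succ_top hM, ih, Finset.sum_Ico_succ_top hM]
      have : S (M+1) = S M + z (M+1) := by
        simp only [hS]
        rw [Finset.sum_Ioc_succ_top hM]
      rw [this]
      push_cast
      ring
  have hB0 : 0 ≤ B := (norm_nonneg _).trans (hB N le_rfl hNN)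
  rw [key N' hNN]
  have h1 : ∀ M, N ≤ M → w M + ∑ n ∈ Finset.Ico N M, (w n - w (n+1)) = w N := by
    intro M hM
    induction M, hM using Nat.le_induction with
    | base => simp
    | succ M hM ih => rw [Finset.sum_Ico_succ_top hM]; linarith
  calc _ ≤ ‖(w N' : ℂ) * S N'‖ + ‖∑ n ∈ Finset.Ico N N', ((w n - w (n+1) : ℝ) : ℂ) * S n‖ :=
        norm_add_le _ _
    _ ≤ w N' * B + ∑ n ∈ Finset.Ico N N', (w n - w (n+1)) * B := by
        refine add_le_add ?_ ((norm_sum_le _ _).trans (Finset.sum_le_sum fun n hn => ?_))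
        · rw [norm_mul, Complex.norm_real, Real.norm_eq_abs, abs_of_nonneg (hw0 N' hNN)]
          exact mul_le_mul_of_nonneg_left (hB N' hNN le_rfl) (hw0 N' hNN)
        · rw [Finset.mem_Ico] at hn
          have h2 : 0 ≤ w n - w (n+1) := by linarith [hw n hn.1]
          rw [norm_mul, Complex.norm_real, Real.norm_eq_abs, abs_of_nonneg h2]
          exact mul_le_mul_of_nonneg_left (hB n hn.1 hn.2.le) h2
    _ = (w N' + ∑ n ∈ Finset.Ico N N', (w n - w (n+1))) * B := by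
        rw [add_mul, Finset.sum_mul]
    _ = w N * B := by rw [h1 N' hNN]

/-- `u^{-s} = u^{-σ} u^{-iτ}`. -/
lemma pw_eq {s : ℂ} {u : ℝ} (hu : 0 < u) :
    pw s u = ((u ^ (-s.re) : ℝ) : ℂ) * (u : ℂ) ^ (-(Complex.I * s.im)) := by
  have hu' : (u:ℂ) ≠ 0 := by exact_mod_cast hu.ne'
  rw [pw, Complex.ofReal_cpow hu.le, ← Complex.cpow_add _ _ hu']
  congr 1
  apply Complex.ext <;> simp

lemma conj_cpow_real {u : ℝ} (hu : 0 < u) (t : ℝ) :
    starRingEnd ℂ ((u:ℂ) ^ (Complex.I * t)) = (u : ℂ) ^ (-(Complex.I * t)) := by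
  have h1 := Complex.cpow_conj (u:ℂ) (Complex.I * t) (by
    rw [Complex.arg_ofReal_of_nonneg hu.le]
    exact Real.pi_pos.ne)
  rw [Complex.conj_ofReal] at h1
  rw [← h1]
  simp

/-- VK bound with either sign of `τ`. -/
lemma vk_signed {C c : ℝ} (hVK : VKSum C c) {τ : ℝ} (hτ : 2 ≤ |τ|) {a : ℝ} (ha : 0 ≤ a) (ha1 : a ≤ 1)
    {N : ℕ} (hN : 1 ≤ N) (hNt : (N:ℝ) ≤ |τ|^2) {N' : ℕ} (h1 : N ≤ N') (h2 : N' ≤ 2 * N) :
    ‖∑ n ∈ Finset.Ioc N N', (((n:ℝ)+a : ℝ) : ℂ)^(-(Complex.I * τ))‖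
      ≤ C * N * Real.exp (-c * (Real.log N)^3/(Real.log |τ|)^2) := by
  have hpos : ∀ n ∈ Finset.Ioc N N', (0:ℝ) < (n:ℝ) + a := by
    intro n hn
    have := (Finset.mem_Ioc.1 hn).1
    have : (0:ℝ) < n := by exact_mod_cast (by omega : 0 < n)
    linarith
  rcases le_total 0 τ with h | h
  · have h3 := hVK |τ| hτ a ha ha1 N hN hNt N' h1 h2
    rw [← RCLike.norm_conj, map_sum] at h3
    rw [abs_of_nonneg h] at h3 ⊢
    refine le_of_eq_of_le ?_ h3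
    congr 1
    refine Finset.sum_congr rfl fun n hn => ?_
    exact (conj_cpow_real (hpos n hn) τ).symm
  · have h3 := hVK |τ| hτ a ha ha1 N hN hNt N' h1 h2
    refine le_of_eq_of_le ?_ h3
    congr 1
    refine Finset.sum_congr rfl fun n hn => ?_
    rw [abs_of_nonpos h]
    congr 1
    push_cast; ring

/-- Dyadic block, VK range. -/
lemma block_vk {C c : ℝ} (hVK : VKSum C c) {s : ℂ} (hs : 0 ≤ s.re) (hτ : 2 ≤ |s.im|) {a : ℝ}
    (ha : 0 ≤ a) (ha1 : a ≤ 1) {N : ℕ} (hN : 1 ≤ N) (hNt : (N:ℝ) ≤ |s.im|^2) {N' : ℕ}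
    (h1 : N ≤ N') (h2 : N' ≤ 2 * N) :
    ‖∑ n ∈ Finset.Ioc N N', pw s (n + a)‖
      ≤ (N:ℝ) ^ (-s.re) * (C * N * Real.exp (-c * (Real.log N)^3/(Real.log |s.im|)^2)) := by
  have hN0 : (0:ℝ) < N := by exact_mod_cast hN
  have hpos : ∀ n, N ≤ n → (0:ℝ) < (n:ℝ) + a := by
    intro n hn
    have : (0:ℝ) < n := by exact_mod_cast (by omega : 0 < n)
    linarith
  have e : ∑ n ∈ Finset.Ioc N N', pw s (n + a)
      = ∑ n ∈ Finset.Ioc N N', ((((n:ℝ) + a) ^ (-s.re) : ℝ) : ℂ) *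
          (((n:ℝ)+a : ℝ) : ℂ)^(-(Complex.I * s.im)) := by
    refine Finset.sum_congr rfl fun n hn => ?_
    exact pw_eq (hpos n (Finset.mem_Ioc.1 hn).1.le)
  rw [e]
  have h3 := abel_bound (z := fun n => (((n:ℝ)+a : ℝ) : ℂ)^(-(Complex.I * s.im)))
    (w := fun n => ((n:ℝ) + a) ^ (-s.re)) (N := N) (N' := N')
    (B := C * N * Real.exp (-c * (Real.log N)^3/(Real.log |s.im|)^2)) h1
    (fun n hn => Real.rpow_nonneg (hpos n hn).le _)
    (fun n hn => by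
      refine Real.rpow_le_rpow_of_nonpos (hpos n hn) ?_ (by linarith)
      push_cast; linarith)
    (fun M hM1 hM2 => vk_signed hVK hτ ha ha1 hN hNt hM1 (hM2.trans h2))
  refine h3.trans ?_
  have hB0 : 0 ≤ C * N * Real.exp (-c * (Real.log N)^3/(Real.log |s.im|)^2) :=
    (norm_nonneg _).trans (vk_signed hVK hτ ha ha1 hN hNt le_rfl (by omega))
  refine mul_le_mul_of_nonneg_right ?_ hB0
  exact Real.rpow_le_rpow_of_nonpos hN0 (by linarith) (by linarith)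

/-- The integral over a block. -/
lemma integral_pw {s : ℂ} (hs1 : s ≠ 1) {x y : ℝ} (hx : 0 < x) (hy : 0 < y) :
    ∫ u in x..y, pw s u = (pw (s-1) y - pw (s-1) x) / (1 - s) := by
  have hne : (1 - s) ≠ 0 := sub_ne_zero.2 (Ne.symm hs1)
  have h1 : ∀ u ∈ uIcc x y, HasDerivAt (fun u => pw (s-1) u / (1-s)) (pw s u) u := by
    intro u hu
    have hu0 : 0 < u := lt_of_lt_of_le (lt_min hx hy) hu.1
    have h2 := (hasDerivAt_pw (s := s-1) hu0).div_const (1-s)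
    refine h2.congr_deriv ?_
    rw [pw]
    have : (-(s-1) - 1 : ℂ) = -s := by ring
    rw [this]
    field_simp
    ring
  rw [intervalIntegral.integral_eq_sub_of_hasDerivAt h1 (intervalIntegrable_pw s hx hy)]
  ring

/-- Bound of the integral when `|τ|` is large. -/
lemma norm_integral_pw_le {s : ℂ} (hs : 1/2 ≤ s.re) (him : s.im ≠ 0) {x y : ℝ} (hx : 1 ≤ x)
    (hxy : x ≤ y) (hy : y ≤ 4 * x) :
    ‖∫ u in x..y, pw s u‖ ≤ 3 * x ^ (1 - s.re) / |s.im| := by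
  have hs1 : s ≠ 1 := by
    intro h; rw [h] at him; simp at him
  have hx0 : 0 < x := by linarith
  have hy0 : 0 < y := by linarith
  rw [integral_pw hs1 hx0 hy0, norm_div]
  have h1 : |s.im| ≤ ‖1 - s‖ := by
    have := Complex.abs_im_le_norm (1 - s)
    simpa using this
  have h2 : ‖pw (s-1) x‖ = x ^ (1 - s.re) := by
    rw [norm_pw hx0]; congr 1; simp
  have h3 : ‖pw (s-1) y‖ ≤ 2 * x ^ (1 - s.re) := by
    rw [norm_pw hy0]
    have e : (-(s - 1).re) = 1 - s.re := by simp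
    rw [e]
    rcases le_total (1 - s.re) 0 with h | h
    · have := Real.rpow_le_rpow_of_nonpos hx0 hxy h
      have h4 : 0 ≤ x ^ (1 - s.re) := by positivity
      linarith
    · have h4 : y ^ (1 - s.re) ≤ (4 * x) ^ (1 - s.re) := Real.rpow_le_rpow hy0.le hy h
      rw [Real.mul_rpow (by norm_num) hx0.le] at h4
      have h5 : (4:ℝ) ^ (1 - s.re) ≤ 4 ^ (1/2 : ℝ) :=
        Real.rpow_le_rpow_of_exponent_le (by norm_num) (by linarith)
      have h6 : (4:ℝ) ^ (1/2 : ℝ) = 2 := by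
        rw [← Real.sqrt_eq_rpow, show (4:ℝ) = 2^2 by norm_num, Real.sqrt_sq (by norm_num)]
      rw [h6] at h5
      have h7 : 0 ≤ x ^ (1 - s.re) := by positivity
      nlinarith
  have h4 : ‖pw (s-1) y - pw (s-1) x‖ ≤ 3 * x ^ (1 - s.re) := by
    refine (norm_sub_le _ _).trans ?_
    rw [h2]; linarith
  have him0 : 0 < |s.im| := abs_pos.2 him
  have h7 : 0 ≤ 3 * x ^ (1 - s.re) := by positivity
  calc ‖pw (s-1) y - pw (s-1) x‖ / ‖1 - s‖ ≤ (3 * x ^ (1 - s.re)) / ‖1-s‖ := by gcongr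
    _ ≤ 3 * x ^ (1 - s.re) / |s.im| := by gcongr

end Vale.Agent.P026.H392
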