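import Vale.Agent.P026.H392.Block

open Complex Set Filter Topology MeasureTheory intervalIntegral

namespace Vale.Agent.P026.H392

/-- The saving exponent `min((log N)^3/(log T)^2, log N)` as a function of `v = log N`. -/
noncomputable def sv (T v : ℝ) : ℝ := min (v^3/(Real.log T)^2) v

lemma log_T_pos {T : ℝ} (hT : 3 ≤ T) : 1 < Real.log T := by
  have h1 : Real.exp 1 < 3 := by
    have := Real.exp_one_lt_d9; linarith
  have := Real.log_lt_log (Real.exp_pos 1) (lt_of_lt_of_le h1 hT)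
  rwa [Real.log_exp] at this

/-- comparison of one dyadic block with the integral -/
lemma block_bound {C c : ℝ} (hC : 0 < C) (hc : 0 < c) (hVK : VKSum C c) {T : ℝ} (hT : 3 ≤ T)
    {s : ℂ} (hs : 1/2 ≤ s.re) (hs2 : s.re ≤ 2) (him : |s.im| ≤ 4 * T) {a : ℝ} (ha : 0 ≤ a)
    (ha1 : a ≤ 1) {N N' : ℕ} (hN : 1 ≤ N) (h1 : N ≤ N') (h2 : N' ≤ 2 * N) :
    ‖(∑ n ∈ Finset.Ioc N N', pw s (n + a)) - ∫ u in ((N:ℝ) + a)..((N':ℝ) + a), pw s u‖
      ≤ (C + 20) * (N:ℝ) ^ (1 - s.re) * Real.exp (-(min (c/9) (1/2)) * sv T (Real.log N)) := by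
  have hN0 : (0:ℝ) < N := by exact_mod_cast hN
  have hN1 : (1:ℝ) ≤ N := by exact_mod_cast hN
  have hlN : 0 ≤ Real.log N := Real.log_nonneg hN1
  have hlT := log_T_pos hT
  have hP : 0 < (N:ℝ) ^ (1 - s.re) := by positivity
  have hc1 : 0 < min (c/9) (1/2) := lt_min (by positivity) (by norm_num)
  set c₁ := min (c/9) (1/2) with hc₁
  have hsv0 : 0 ≤ sv T (Real.log N) := le_min (by positivity) hlN
  -- the bound N^{-1/2} ≤ exp(-c₁ sv)
  have hhalf : (N:ℝ) ^ (-(1/2) : ℝ) ≤ Real.exp (-c₁ * sv T (Real.log N)) := by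
    rw [Real.rpow_def_of_pos hN0]
    apply Real.exp_le_exp.2
    have h3 : sv T (Real.log N) ≤ Real.log N := min_le_right _ _
    have h4 : c₁ ≤ 1/2 := min_le_right _ _
    nlinarith
  have hEpos : 0 < Real.exp (-c₁ * sv T (Real.log N)) := Real.exp_pos _
  -- Case B estimate
  have caseB : ‖s‖ ≤ 4 * (N:ℝ)^(1/2 : ℝ) →
      ‖(∑ n ∈ Finset.Ioc N N', pw s (n + a)) - ∫ u in ((N:ℝ) + a)..((N':ℝ) + a), pw s u‖
      ≤ (C + 20) * (N:ℝ) ^ (1 - s.re) * Real.exp (-c₁ * sv T (Real.log N)) := by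
    intro hsn
    refine (em_sum' hs ha hN h1).trans ?_
    have h5 : 4 * ‖s‖ * (N:ℝ) ^ (-s.re) ≤ 4 * (4 * (N:ℝ)^(1/2 : ℝ)) * (N:ℝ) ^ (-s.re) := by gcongr
    have h6 : (N:ℝ)^(1/2 : ℝ) * (N:ℝ) ^ (-s.re) = (N:ℝ) ^ (1 - s.re) * (N:ℝ) ^ (-(1/2) : ℝ) := by
      rw [← Real.rpow_add hN0, ← Real.rpow_add hN0]; congr 1; ring
    calc 4 * ‖s‖ * (N:ℝ) ^ (-s.re) ≤ 16 * ((N:ℝ)^(1/2 : ℝ) * (N:ℝ) ^ (-s.re)) := by linarith
      _ = 16 * ((N:ℝ) ^ (1 - s.re) * (N:ℝ) ^ (-(1/2) : ℝ)) := by rw [h6]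
      _ ≤ 16 * ((N:ℝ) ^ (1 - s.re) * Real.exp (-c₁ * sv T (Real.log N))) := by gcongr
      _ ≤ _ := by nlinarith [mul_pos hP hEpos]
  by_cases hτ : 2 ≤ |s.im|
  · by_cases hNt : (N:ℝ) ≤ |s.im|^2
    · -- Case A
      have hA := block_vk hVK (by linarith) hτ ha ha1 hN hNt h1 h2
      have hτ0 : 0 < |s.im| := by linarith
      have hlτ : 0 < Real.log |s.im| := Real.log_pos (by linarith)
      have hlτ2 : Real.log |s.im| ≤ 3 * Real.log T := by
        have : |s.im| ≤ T^3 := by nlinarith [sq_nonneg T]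
        have h3 := Real.log_le_log hτ0 this
        rw [Real.log_pow] at h3
        exact_mod_cast h3
      have hexp : Real.exp (-c * (Real.log N)^3/(Real.log |s.im|)^2)
          ≤ Real.exp (-c₁ * sv T (Real.log N)) := by
        apply Real.exp_le_exp.2
        have h3 : sv T (Real.log N) ≤ (Real.log N)^3/(Real.log T)^2 := min_le_left _ _
        have h4 : c₁ ≤ c/9 := min_le_left _ _
        have h5 : (Real.log N)^3/(9 * (Real.log T)^2) ≤ (Real.log N)^3/(Real.log |s.im|)^2 := by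
          gcongr
          nlinarith
        have h6 : (Real.log N)^3/(9 * (Real.log T)^2) = (1/9) * ((Real.log N)^3/(Real.log T)^2) := by
          field_simp
        rw [h6] at h5
        have h7 : c₁ * sv T (Real.log N) ≤ (c/9) * ((Real.log N)^3/(Real.log T)^2) := by
          apply mul_le_mul h4 h3 hsv0 (by positivity)
        have h8 : -c * (Real.log N)^3/(Real.log |s.im|)^2 = -(c * ((Real.log N)^3/(Real.log |s.im|)^2)) := by
          ring
        rw [h8]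
        nlinarith
      have hA' : ‖∑ n ∈ Finset.Ioc N N', pw s (n + a)‖
          ≤ C * (N:ℝ) ^ (1 - s.re) * Real.exp (-c₁ * sv T (Real.log N)) := by
        refine hA.trans ?_
        have h6 : (N:ℝ) ^ (-s.re) * N = (N:ℝ) ^ (1 - s.re) := by
          rw [sub_eq_add_neg, add_comm, Real.rpow_add_one hN0.ne']
        calc _ = C * ((N:ℝ) ^ (-s.re) * N) * Real.exp (-c * (Real.log N)^3/(Real.log |s.im|)^2) := by ring
          _ = C * (N:ℝ) ^ (1 - s.re) * Real.exp (-c * (Real.log N)^3/(Real.log |s.im|)^2) := by rw [h6]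
          _ ≤ _ := by gcongr
      have him0 : s.im ≠ 0 := by
        intro h; rw [h] at hτ; simp at hτ; linarith
      have hNN' : (N':ℝ) ≤ 2 * N := by exact_mod_cast h2
      have hN1' : (N:ℝ) ≤ N' := by exact_mod_cast h1
      have hI := norm_integral_pw_le (s := s) hs him0 (x := (N:ℝ) + a) (y := (N':ℝ) + a)
        (by linarith) (by linarith) (by linarith)
      have hpw : ((N:ℝ) + a) ^ (1 - s.re) ≤ 2 * (N:ℝ) ^ (1 - s.re) := by
        rcases le_total (1 - s.re) 0 with h | h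
        · have := Real.rpow_le_rpow_of_nonpos hN0 (by linarith : (N:ℝ) ≤ (N:ℝ) + a) h
          linarith
        · have h4 : ((N:ℝ) + a) ^ (1 - s.re) ≤ (2 * N) ^ (1 - s.re) :=
            Real.rpow_le_rpow (by linarith) (by linarith) h
          rw [Real.mul_rpow (by norm_num) hN0.le] at h4
          have h5 : (2:ℝ) ^ (1 - s.re) ≤ 2 ^ (1 : ℝ) :=
            Real.rpow_le_rpow_of_exponent_le (by norm_num) (by linarith)
          rw [Real.rpow_one] at h5
          nlinarith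
      have hτN : (N:ℝ)^(1/2 : ℝ) ≤ |s.im| := by
        rw [← Real.sqrt_eq_rpow]
        exact Real.sqrt_le_iff.2 ⟨hτ0.le, hNt⟩
      have hI' : ‖∫ u in ((N:ℝ) + a)..((N':ℝ) + a), pw s u‖
          ≤ 6 * (N:ℝ) ^ (1 - s.re) * Real.exp (-c₁ * sv T (Real.log N)) := by
        refine hI.trans ?_
        have hNh : 0 < (N:ℝ)^(1/2 : ℝ) := by positivity
        calc 3 * ((N:ℝ) + a) ^ (1 - s.re) / |s.im|
            ≤ 3 * (2 * (N:ℝ) ^ (1 - s.re)) / (N:ℝ)^(1/2 : ℝ) := by gcongr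
          _ = 6 * (N:ℝ) ^ (1 - s.re) * (N:ℝ) ^ (-(1/2) : ℝ) := by
            rw [Real.rpow_neg hN0.le]; field_simp; norm_num
          _ ≤ _ := by gcongr
      refine (norm_sub_le _ _).trans ?_
      have : 0 ≤ (N:ℝ) ^ (1 - s.re) * Real.exp (-c₁ * sv T (Real.log N)) := by positivity
      nlinarith
    · push Not at hNt
      apply caseB
      have h3 : |s.im| ≤ (N:ℝ)^(1/2 : ℝ) := by
        rw [← Real.sqrt_eq_rpow]
        exact Real.le_sqrt_of_sq_le hNt.le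
      have h4 : (1:ℝ) ≤ (N:ℝ)^(1/2 : ℝ) := Real.one_le_rpow hN1 (by norm_num)
      have h5 := Complex.norm_le_abs_re_add_abs_im s
      have h6 : |s.re| ≤ 2 := abs_le.2 ⟨by linarith, hs2⟩
      linarith
  · push Not at hτ
    apply caseB
    have h4 : (1:ℝ) ≤ (N:ℝ)^(1/2 : ℝ) := Real.one_le_rpow hN1 (by norm_num)
    have h5 := Complex.norm_le_abs_re_add_abs_im s
    have h6 : |s.re| ≤ 2 := abs_le.2 ⟨by linarith, hs2⟩
    linarith

end Vale.Agent.P026.H392
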