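import Mathlib

namespace Vale.Agent.P026.H392

lemma exp_neg_le_inv {x : ℝ} (hx : 0 < x) : Real.exp (-x) ≤ 1 / x := by
  rw [Real.exp_neg, ← one_div]
  apply one_div_le_one_div_of_le hx
  linarith [Real.add_one_le_exp x]

/-- Smallness of the error terms in the positive part. -/
lemma pos_arith {κ : ℝ} (hκ : 10 ≤ κ) : ∃ M₂ : ℝ, 1 ≤ M₂ ∧ ∀ M q d δ : ℝ, M₂ ≤ M → 1 ≤ q →
    q ≤ Real.exp M → 0 ≤ d → d ≤ 1/(80*κ) → 0 ≤ δ → 10*κ*δ*M ≤ 1 →
    (218 * 872 * q ^ 2 * (⌊Real.exp (2*κ*M)⌋₊ : ℝ) ^ (-(1 / 8) : ℝ) ≤ 1 / 2) ∧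
    (Real.exp (10*κ*M) ^ d * ((Real.exp (10*κ*M) ^ δ - 1)
      + Real.exp (10*κ*M) ^ δ * (2 * (218 * 872 * q ^ 2 * (⌊Real.exp (2*κ*M)⌋₊ : ℝ) ^ (-(1 / 8) : ℝ)))
      + 218 * q * Real.exp (2*κ*M) ^ (-(1 / 8) : ℝ) * (⌊Real.exp (2*κ*M)⌋₊ : ℝ) ^ (2 * δ)
          * (1 + 2 * Real.log (⌊Real.exp (2*κ*M)⌋₊ : ℝ)) ^ 16)
      ≤ Real.exp (10*κ*M) ^ d * (20*κ*(δ*M)) + 1/8) ∧
    (218 * q * Real.exp (2*κ*M) ^ (-(1 / 8) : ℝ) ≤ 1/8) ∧
    ((436 * q) ^ (8 * δ) ≤ 2) := by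
  set K₂ : ℝ := 218 * 872 with hK₂
  set K₄ : ℝ := 436 * (5 * κ) ^ 16 * (Nat.factorial 17 : ℝ) with hK₄
  have hK₄0 : 0 < K₄ := by
    have : (0:ℝ) < (Nat.factorial 17 : ℝ) := by exact_mod_cast Nat.factorial_pos 17
    positivity
  have hK₂0 : 0 < K₂ := by norm_num [hK₂]
  refine ⟨8 + 8 * 218 + 600 * K₂ + 16 * K₄, by linarith, ?_⟩
  intro M q d δ hM hq hqM hd hdκ hδ hδM
  have hκ0 : 0 < κ := by linarith
  have hM8 : 8 ≤ M := by
    have : 0 < K₂ := by norm_num [hK₂]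
    linarith
  have hM0 : 0 < M := by linarith
  have hMa : 8 * 218 ≤ M := by
    have : 0 < K₂ := by norm_num [hK₂]
    linarith
  have hMb : 600 * K₂ ≤ M := by linarith
  have hMc : 16 * K₄ ≤ M := by
    have : 0 < K₂ := by norm_num [hK₂]
    linarith
  have hexpκ : 1 ≤ Real.exp (2*κ*M) := Real.one_le_exp (by positivity)
  set N := ⌊Real.exp (2*κ*M)⌋₊ with hN
  have hN1 : 1 ≤ N := Nat.one_le_iff_ne_zero.2 (Nat.floor_pos.2 hexpκ).ne'
  have hN1R : (1:ℝ) ≤ N := by exact_mod_cast hN1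
  have hNle : (N:ℝ) ≤ Real.exp (2 * κ * M) := Nat.floor_le (by positivity)
  have hNge : Real.exp (2 * κ * M) / 2 ≤ N := by
    have := Nat.lt_floor_add_one (Real.exp (2*κ*M))
    rw [← hN] at this
    linarith
  have hlogN : Real.log N ≤ 2 * κ * M := by
    rw [← Real.log_exp (2 * κ * M)]
    exact Real.log_le_log (by linarith) hNle
  have hlogN0 : 0 ≤ Real.log N := Real.log_nonneg hN1R
  -- N^(-1/8)
  have hN8 : (N:ℝ) ^ (-(1 / 8) : ℝ) ≤ 2 * Real.exp (-(5/2 * M)) := by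
    calc (N:ℝ) ^ (-(1 / 8) : ℝ) ≤ (Real.exp (2 * κ * M) / 2) ^ (-(1 / 8) : ℝ) :=
          Real.rpow_le_rpow_of_nonpos (by positivity) hNge (by norm_num)
      _ = Real.exp (-(κ * M / 4)) * (2:ℝ) ^ ((1/8 : ℝ)) := by
          rw [Real.div_rpow (Real.exp_pos _).le (by norm_num), ← Real.exp_mul, Real.rpow_neg (by norm_num : (0:ℝ) ≤ 2),
            div_inv_eq_mul]
          congr 2; ring
      _ ≤ Real.exp (-(5/2 * M)) * 2 := by
          refine mul_le_mul (Real.exp_le_exp.2 ?_) ?_ (by positivity) (Real.exp_pos _).le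
          · nlinarith
          · calc (2:ℝ) ^ ((1/8 : ℝ)) ≤ (2:ℝ) ^ (1:ℝ) :=
                Real.rpow_le_rpow_of_exponent_le (by norm_num) (by norm_num)
              _ = 2 := Real.rpow_one 2
      _ = _ := mul_comm _ _
  have hY8 : Real.exp (2*κ*M) ^ (-(1 / 8) : ℝ) ≤ Real.exp (-(5/2 * M)) := by
    rw [← Real.exp_mul]
    refine Real.exp_le_exp.2 ?_
    nlinarith
  have hq2 : q ^ 2 ≤ Real.exp (2 * M) := by
    calc q ^ 2 ≤ (Real.exp M) ^ 2 := pow_le_pow_left₀ (by linarith) hqM 2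
      _ = _ := by rw [← Real.exp_nat_mul]; congr 1
  have hη : 218 * 872 * q ^ 2 * (N:ℝ) ^ (-(1 / 8) : ℝ) ≤ 2 * K₂ * Real.exp (-(M/2)) := by
    calc 218 * 872 * q ^ 2 * (N:ℝ) ^ (-(1 / 8) : ℝ)
        ≤ K₂ * Real.exp (2 * M) * (2 * Real.exp (-(5/2 * M))) := by gcongr
      _ = 2 * K₂ * (Real.exp (2 * M) * Real.exp (-(5/2 * M))) := by ring
      _ = _ := by rw [← Real.exp_add]; congr 2; ring
  have hη0 : 0 ≤ 218 * 872 * q ^ 2 * (N:ℝ) ^ (-(1 / 8) : ℝ) := by positivity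
  have hXd : Real.exp (10*κ*M) ^ d ≤ Real.exp (M/8) := by
    rw [← Real.exp_mul]
    refine Real.exp_le_exp.2 ?_
    rw [le_div_iff₀ (by positivity)] at hdκ
    have : 10 * κ * M * d = (d * (80 * κ)) * (M / 8) := by ring
    rw [this]
    calc (d * (80 * κ)) * (M / 8) ≤ 1 * (M / 8) := mul_le_mul_of_nonneg_right hdκ (by positivity)
      _ = M / 8 := one_mul _
  have hXδe : Real.exp (10*κ*M) ^ δ = Real.exp (10*κ*δ*M) := by
    rw [← Real.exp_mul]; congr 1; ring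
  have ht0 : 0 ≤ 10*κ*δ*M := by positivity
  have hXδ1 : Real.exp (10*κ*M) ^ δ - 1 ≤ 20*κ*(δ*M) := by
    rw [hXδe]
    have h1 : Real.exp (10*κ*δ*M) ≤ 1 + 2 * (10*κ*δ*M) := by
      have h3 : |Real.exp (10*κ*δ*M) - 1 - (10*κ*δ*M)| ≤ (10*κ*δ*M)^2 :=
        Real.abs_exp_sub_one_sub_id_le (by rw [abs_of_nonneg ht0]; exact hδM)
      have h4 := (abs_le.1 h3).2
      nlinarith
    linarith
  have hXδ3 : Real.exp (10*κ*M) ^ δ ≤ 3 := by
    have : 20*κ*(δ*M) ≤ 2 := by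
      have : 20*κ*(δ*M) = 2 * (10*κ*δ*M) := by ring
      linarith
    linarith
  refine ⟨?_, ?_, ?_, ?_⟩
  · -- (i)
    refine hη.trans ?_
    have h1 : Real.exp (-(M/2)) ≤ 1 / (M/2) := exp_neg_le_inv (by positivity)
    calc 2 * K₂ * Real.exp (-(M/2)) ≤ 2 * K₂ * (1 / (M/2)) := by gcongr
      _ = 4 * K₂ / M := by field_simp; ring
      _ ≤ 1/2 := by
          rw [div_le_iff₀ hM0]
          have : 0 < K₂ := by norm_num [hK₂]
          linarith
  · -- (ii)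
    have hXd0 : 0 < Real.exp (10*κ*M) ^ d := by positivity
    have b1 : Real.exp (10*κ*M) ^ d * (Real.exp (10*κ*M) ^ δ - 1)
        ≤ Real.exp (10*κ*M) ^ d * (20*κ*(δ*M)) := mul_le_mul_of_nonneg_left hXδ1 hXd0.le
    have b2 : Real.exp (10*κ*M) ^ d * (Real.exp (10*κ*M) ^ δ *
        (2 * (218 * 872 * q ^ 2 * (N:ℝ) ^ (-(1 / 8) : ℝ)))) ≤ 1/16 := by
      calc _ ≤ Real.exp (M/8) * (3 * (2 * (2 * K₂ * Real.exp (-(M/2))))) := by gcongr
        _ = 12 * K₂ * (Real.exp (M/8) * Real.exp (-(M/2))) := by ring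
        _ = 12 * K₂ * Real.exp (-(3*M/8)) := by rw [← Real.exp_add]; congr 2; ring
        _ ≤ 12 * K₂ * (1 / (3*M/8)) := by
            have := exp_neg_le_inv (x := 3*M/8) (by positivity)
            gcongr
        _ = 32 * K₂ / M := by field_simp; ring
        _ ≤ 1/16 := by
            rw [div_le_iff₀ hM0]
            linarith
    have b3 : Real.exp (10*κ*M) ^ d * (218 * q * Real.exp (2*κ*M) ^ (-(1 / 8) : ℝ)
        * (N:ℝ) ^ (2 * δ) * (1 + 2 * Real.log N) ^ 16) ≤ 1/16 := by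
      have c1 : (N:ℝ) ^ (2 * δ) ≤ 2 := by
        calc (N:ℝ) ^ (2 * δ) ≤ Real.exp (2 * κ * M) ^ (2 * δ) :=
              Real.rpow_le_rpow (by linarith) hNle (by linarith)
          _ = Real.exp (4*κ*δ*M) := by rw [← Real.exp_mul]; congr 1; ring
          _ ≤ Real.exp (1/2) := Real.exp_le_exp.2 (by linarith)
          _ ≤ 2 := by
              have h1 : Real.exp (1/2) ^ 2 ≤ 2 ^ 2 := by
                rw [← Real.exp_nat_mul]
                norm_num
                linarith [Real.exp_one_lt_d9]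
              exact le_of_sq_le_sq h1 (by norm_num)
      have c2 : (1 + 2 * Real.log N) ^ 16 ≤ (5 * κ) ^ 16 * M ^ 16 := by
        rw [← mul_pow]
        refine pow_le_pow_left₀ (by linarith) ?_ 16
        have : 10 * 1 ≤ κ * M := mul_le_mul hκ (by linarith) zero_le_one hκ0.le
        nlinarith
      have c3 : M ^ 16 * Real.exp (-M) ≤ (Nat.factorial 17 : ℝ) / M := by
        have h1 := Real.pow_div_factorial_le_exp M hM0.le 17
        have hf : (0:ℝ) < (Nat.factorial 17 : ℝ) := by exact_mod_cast Nat.factorial_pos 17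
        rw [div_le_iff₀ hf] at h1
        rw [Real.exp_neg, le_div_iff₀ hM0, ← div_eq_mul_inv, div_mul_eq_mul_div, div_le_iff₀ (Real.exp_pos _)]
        calc M ^ 16 * M = M ^ 17 := by ring
          _ ≤ Real.exp M * (Nat.factorial 17 : ℝ) := h1
          _ = _ := mul_comm _ _
      calc _ ≤ Real.exp (M/8) * (218 * Real.exp M * Real.exp (-(5/2 * M)) * 2 * ((5 * κ) ^ 16 * M ^ 16)) := by
            gcongr
        _ = 436 * (5 * κ) ^ 16 * (M ^ 16 * (Real.exp (M/8) * Real.exp M * Real.exp (-(5/2 * M)))) := by ring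
        _ = 436 * (5 * κ) ^ 16 * (M ^ 16 * Real.exp (-(11*M/8))) := by
            rw [← Real.exp_add, ← Real.exp_add]; congr 4; ring
        _ ≤ 436 * (5 * κ) ^ 16 * (M ^ 16 * Real.exp (-M)) := by
            have : Real.exp (-(11*M/8)) ≤ Real.exp (-M) := Real.exp_le_exp.2 (by linarith)
            gcongr
        _ ≤ 436 * (5 * κ) ^ 16 * ((Nat.factorial 17 : ℝ) / M) := by gcongr
        _ = K₄ / M := by rw [hK₄]; ring
        _ ≤ 1/16 := by
            rw [div_le_iff₀ hM0]; linarith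
    calc _ = Real.exp (10*κ*M) ^ d * (Real.exp (10*κ*M) ^ δ - 1)
        + Real.exp (10*κ*M) ^ d * (Real.exp (10*κ*M) ^ δ *
        (2 * (218 * 872 * q ^ 2 * (N:ℝ) ^ (-(1 / 8) : ℝ))))
        + Real.exp (10*κ*M) ^ d * (218 * q * Real.exp (2*κ*M) ^ (-(1 / 8) : ℝ)
        * (N:ℝ) ^ (2 * δ) * (1 + 2 * Real.log N) ^ 16) := by ring
      _ ≤ _ := by linarith
  · -- (iii)
    calc 218 * q * Real.exp (2*κ*M) ^ (-(1 / 8) : ℝ) ≤ 218 * Real.exp M * Real.exp (-(5/2 * M)) := by gcongr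
      _ = 218 * Real.exp (-(3*M/2)) := by rw [mul_assoc, ← Real.exp_add]; congr 2; ring
      _ ≤ 218 * Real.exp (-M) := by
          have : Real.exp (-(3*M/2)) ≤ Real.exp (-M) := Real.exp_le_exp.2 (by linarith)
          gcongr
      _ ≤ 218 * (1 / M) := by
          have := exp_neg_le_inv hM0
          gcongr
      _ = 218 / M := by ring
      _ ≤ 1/8 := by
          rw [div_le_iff₀ hM0]; linarith
  · -- (iv)
    have h436 : (436:ℝ) ≤ Real.exp M := by
      have h1 := Real.pow_div_factorial_le_exp M hM0.le 1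
      simp at h1
      linarith
    calc (436 * q) ^ (8 * δ) ≤ (Real.exp M * Real.exp M) ^ (8 * δ) := by
          refine Real.rpow_le_rpow (by positivity) ?_ (by linarith)
          exact mul_le_mul h436 hqM (by linarith) (Real.exp_pos _).le
      _ = Real.exp (16 * (δ * M)) := by
          rw [← Real.exp_add, ← Real.exp_mul]; congr 1; ring
      _ ≤ Real.exp (1/2) := by
          refine Real.exp_le_exp.2 ?_
          have h2 : 100 * (δ * M) ≤ 1 := by
            have h3 : 100 * (δ * M) ≤ 10 * κ * (δ * M) :=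
              mul_le_mul_of_nonneg_right (by linarith) (by positivity)
            have h4 : 10 * κ * (δ * M) = 10*κ*δ*M := by ring
            linarith
          linarith
      _ ≤ 2 := by
          have h1 : Real.exp (1/2) ^ 2 ≤ 2 ^ 2 := by
            rw [← Real.exp_nat_mul]
            norm_num
            linarith [Real.exp_one_lt_d9]
          exact le_of_sq_le_sq h1 (by norm_num)

end Vale.Agent.P026.H392
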