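import Vale.Agent.P026.H392.DHcore
import Vale.Agent.P026.H392.DHarith
import Vale.Agent.P026.H517.Pos
import Vale.Agent.P026.H517.VK
import Vale.Agent.P026.H267.Defs

open Complex Set Filter Topology

namespace Vale.Agent.P026.H392

open Vale.Agent.P026.H517 (rchar char_real rchar_one rchar_mul abs_rchar_le fE_nonneg fE_one pos_part
  GS_lower LAM_lower)

/-- The conclusion of `pos_arith`, packaged. -/
def PosArith (κ M₂ : ℝ) : Prop := ∀ M q d δ : ℝ, M₂ ≤ M → 1 ≤ q →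
    q ≤ Real.exp M → 0 ≤ d → d ≤ 1/(80*κ) → 0 ≤ δ → 10*κ*δ*M ≤ 1 →
    (218 * 872 * q ^ 2 * (⌊Real.exp (2*κ*M)⌋₊ : ℝ) ^ (-(1 / 8) : ℝ) ≤ 1 / 2) ∧
    (Real.exp (10*κ*M) ^ d * ((Real.exp (10*κ*M) ^ δ - 1)
      + Real.exp (10*κ*M) ^ δ * (2 * (218 * 872 * q ^ 2 * (⌊Real.exp (2*κ*M)⌋₊ : ℝ) ^ (-(1 / 8) : ℝ)))
      + 218 * q * Real.exp (2*κ*M) ^ (-(1 / 8) : ℝ) * (⌊Real.exp (2*κ*M)⌋₊ : ℝ) ^ (2 * δ)
          * (1 + 2 * Real.log (⌊Real.exp (2*κ*M)⌋₊ : ℝ)) ^ 16)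
      ≤ Real.exp (10*κ*M) ^ d * (20*κ*(δ*M)) + 1/8) ∧
    (218 * q * Real.exp (2*κ*M) ^ (-(1 / 8) : ℝ) ≤ 1/8) ∧
    ((436 * q) ^ (8 * δ) ≤ 2)

lemma L_one_im {q : ℕ} [NeZero q] {χ : DirichletCharacter ℂ q} (hχ : χ ≠ 1) (hχ2 : χ ^ 2 = 1) :
    (DirichletCharacter.LFunction χ 1).im = 0 := by
  have h1 := link_char hχ (s := 1) (by norm_num)
  have h2 := (Complex.continuous_im.tendsto _).comp h1
  have h3 : (Complex.im ∘ FF q (fun n => χ (n : ZMod q)) 1) = fun _ => 0 := by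
    ext n
    simp only [Function.comp]
    unfold FF
    rw [mean_char hχ, zero_mul, sub_zero]
    rw [Complex.im_sum]
    refine Finset.sum_eq_zero fun k hk => ?_
    show (χ (k : ZMod q) * pw 1 (k:ℝ)).im = 0
    rw [char_real hχ2 k]
    unfold pw
    rw [show (-(1:ℂ)) = ((-1 : ℝ) : ℂ) by push_cast; ring,
      ← Complex.ofReal_cpow (Nat.cast_nonneg k), ← Complex.ofReal_mul, Complex.ofReal_im]
  rw [h3] at h2
  exact (tendsto_nhds_unique h2 tendsto_const_nhds)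

lemma L1_over_G {κ M₂ : ℝ} (hκ : 10 ≤ κ) (hM₂ : 1 ≤ M₂) (hpa : PosArith κ M₂)
    {q₁ : ℕ} [NeZero q₁] {χ₁ : DirichletCharacter ℂ q₁} (hχ₁ : χ₁ ≠ 1) (hχ₁2 : χ₁ ^ 2 = 1) {δ : ℝ}
    (hδ0 : 0 < δ) (hz : DirichletCharacter.LFunction χ₁ ((1 - δ : ℝ) : ℂ) = 0) {M : ℝ} (hM : M₂ ≤ M)
    (hq : (q₁:ℝ) ≤ Real.exp M) (hδM : 10*κ*δ*M ≤ 1) :
    0 < GS (nuE (rchar χ₁)) ⌊Real.exp (2*κ*M)⌋₊ ∧
    ‖DirichletCharacter.LFunction χ₁ 1‖ ≤ 2 * δ * GS (nuE (rchar χ₁)) ⌊Real.exp (2*κ*M)⌋₊ := by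
  have hq1 : (1:ℝ) ≤ q₁ := by exact_mod_cast Nat.pos_of_ne_zero (NeZero.ne q₁)
  have hM1 : 1 ≤ M := hM₂.trans hM
  have hκ0 : 0 < κ := by linarith
  have hδ8 : δ ≤ 1/8 := by
    have h1 : 10 * 10 * δ * 1 ≤ 10*κ*δ*M := by gcongr
    linarith
  obtain ⟨_, _, h3, h4⟩ := hpa M q₁ 0 δ hM hq1 hq le_rfl (by positivity) hδ0.le hδM
  have hL := LAM_lower hχ₁ hχ₁2 hδ0 hδ8 hz
  set LAM := (DirichletCharacter.LFunction χ₁ 1).re / δ with hLAM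
  have hpow0 : 0 < (436 * (q₁ : ℝ)) ^ (8 * δ) := Real.rpow_pos_of_pos (by linarith) _
  have hLAM0 : 0 < LAM := by
    by_contra hneg
    push Not at hneg
    have : LAM * (436 * (q₁ : ℝ)) ^ (8 * δ) ≤ 0 := mul_nonpos_of_nonpos_of_nonneg hneg hpow0.le
    linarith
  have hLAM1 : 1/4 ≤ LAM := by
    have : LAM * (436 * (q₁ : ℝ)) ^ (8 * δ) ≤ LAM * 2 := mul_le_mul_of_nonneg_left h4 hLAM0.le
    linarith
  have hG := GS_lower hχ₁ hχ₁2 hδ0 hδ8 hz (z := Real.exp (2*κ*M)) (Real.one_le_exp (by positivity))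
  rw [← hLAM] at hG
  have hG2 : LAM / 2 ≤ GS (nuE (rchar χ₁)) ⌊Real.exp (2*κ*M)⌋₊ := by linarith
  refine ⟨by linarith, ?_⟩
  have him := L_one_im hχ₁ hχ₁2
  have hre : (DirichletCharacter.LFunction χ₁ 1).re = LAM * δ := by
    rw [hLAM]; field_simp
  have hnorm : ‖DirichletCharacter.LFunction χ₁ 1‖ = LAM * δ := by
    have : DirichletCharacter.LFunction χ₁ 1 = ((LAM * δ : ℝ) : ℂ) := by
      apply Complex.ext
      · rw [hre, Complex.ofReal_re]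
      · rw [him, Complex.ofReal_im]
    rw [this, Complex.norm_real, Real.norm_eq_abs, abs_of_pos (by positivity)]
  rw [hnorm]
  nlinarith

/-- From a twisted estimate to repulsion. -/
theorem dh_one {κ M₂ : ℝ} (hκ : 10 ≤ κ) (hM₂ : 1 ≤ M₂) (hpa : PosArith κ M₂)
    {q₁ : ℕ} [NeZero q₁] {χ₁ : DirichletCharacter ℂ q₁} (hχ₁ : χ₁ ≠ 1) (hχ₁2 : χ₁ ^ 2 = 1) {δ : ℝ}
    (hδ0 : 0 < δ) (hz : DirichletCharacter.LFunction χ₁ ((1 - δ : ℝ) : ℂ) = 0) {M d : ℝ} (hM : M₂ ≤ M)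
    (hq : (q₁:ℝ) ≤ Real.exp M) (hd : 0 ≤ d) (hdκ : d ≤ 1/(80*κ))
    {w : ℕ → ℝ} (hw1 : w 1 = 1) (hw : ∀ e, |w e| ≤ 1)
    (hws : ∀ e, w e ≠ 0 → Squarefree e ∧ e ≤ ⌊Real.exp (2*κ*M)⌋₊)
    (hG : ∑ a ∈ Finset.Icc 1 ⌊Real.exp (2*κ*M)⌋₊, ∑ b ∈ Finset.Icc 1 ⌊Real.exp (2*κ*M)⌋₊,
      w a * w b * nuE (rchar χ₁) (Nat.lcm a b) = 1 / GS (nuE (rchar χ₁)) ⌊Real.exp (2*κ*M)⌋₊)
    {ψ : ℕ → ℂ} (ψ1 : ψ 1 = 1) (hψ : ∀ n, ‖ψ n‖ ≤ 1) {ρ mn : ℂ} {B : ℝ} (hB : 0 ≤ B)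
    (hre : 1 - d ≤ ρ.re)
    (htw : ‖(∑ n ∈ Finset.Icc 1 ⌊Real.exp (10*κ*M)⌋₊, (((∑ e ∈ n.divisors, w e) ^ 2 : ℝ) : ℂ)
      * (((fE (rchar χ₁) n : ℝ) : ℂ) * (ψ n * pw ρ n))) - mn‖ ≤ 1/8)
    (hmn : 10*κ*δ*M ≤ 1 → ‖mn‖ ≤ B * (δ * M) * Real.exp (10*κ*M) ^ d) :
    1 / (32 * κ + 8 * B) * Real.exp (-(10 * κ * d * M)) ≤ δ * M := by
  have hM1 : 1 ≤ M := hM₂.trans hM
  have hκ0 : 0 < κ := by linarith
  have hM0 : 0 < M := by linarith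
  have hexp1 : Real.exp (-(10 * κ * d * M)) ≤ 1 := by
    rw [Real.exp_le_one_iff]
    have : 0 ≤ 10 * κ * d * M := by positivity
    linarith
  have hden : 0 < 32 * κ + 8 * B := by positivity
  have hXd : Real.exp (10*κ*M) ^ d = Real.exp (10 * κ * d * M) := by
    rw [← Real.exp_mul]; congr 1; ring
  rcases lt_or_ge 1 (10*κ*δ*M) with hbig | hδM
  · -- trivial
    calc 1 / (32 * κ + 8 * B) * Real.exp (-(10 * κ * d * M)) ≤ 1 / (10 * κ) * 1 := by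
          refine mul_le_mul ?_ hexp1 (Real.exp_pos _).le (by positivity)
          apply one_div_le_one_div_of_le (by positivity)
          linarith
      _ ≤ δ * M := by
          rw [mul_one, div_le_iff₀ (by positivity)]
          linarith
  have hq1 : (1:ℝ) ≤ q₁ := by exact_mod_cast Nat.pos_of_ne_zero (NeZero.ne q₁)
  have hδ8 : δ ≤ 1/8 := by
    have h1 : 10 * 10 * δ * 1 ≤ 10*κ*δ*M := by gcongr
    linarith
  obtain ⟨h1, h2, _, _⟩ := hpa M q₁ d δ hM hq1 hq hd hdκ hδ0.le hδM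
  set X := Real.exp (10*κ*M) with hX
  set N := ⌊Real.exp (2*κ*M)⌋₊ with hN
  have hX1 : 1 ≤ X := Real.one_le_exp (by positivity)
  have hN1 : 1 ≤ N := Nat.one_le_iff_ne_zero.2 (Nat.floor_pos.2 (Real.one_le_exp (by positivity))).ne'
  have hNle : (N:ℝ) ≤ Real.exp (2 * κ * M) := Nat.floor_le (by positivity)
  have hX4 : (N:ℝ)^4 * Real.exp (2 * κ * M) ≤ X := by
    calc (N:ℝ)^4 * Real.exp (2 * κ * M) ≤ (Real.exp (2 * κ * M))^4 * Real.exp (2 * κ * M) := by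
          gcongr
      _ = X := by
          rw [← Real.exp_nat_mul, ← Real.exp_add, hX]; congr 1; push_cast; ring
  rcases le_or_gt ‖mn‖ (1/8) with hm | hm
  · have hpos := pos_part hχ₁ hχ₁2 hδ0 hδ8 hz hN1 hw1 hw hws hG (Y₀ := Real.exp (2*κ*M)) (X := X)
      (Real.one_le_exp (by positivity)) hX4 h1
    have hpos' : ∑ n ∈ Finset.Icc 2 ⌊X⌋₊, (∑ e ∈ n.divisors, w e) ^ 2 * fE (rchar χ₁) n * (n:ℝ) ^ (δ - 1)
        ≤ (X ^ δ - 1) + X ^ δ * (2 * (218 * 872 * (q₁ : ℝ) ^ 2 * (N : ℝ) ^ (-(1 / 8) : ℝ)))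
        + 218 * q₁ * Real.exp (2*κ*M) ^ (-(1 / 8) : ℝ) * (N : ℝ) ^ (2 * δ) * (1 + 2 * Real.log N) ^ 16 := by
      refine le_of_eq_of_le (Finset.sum_congr rfl fun n _ => ?_) hpos
      ring
    have hcore := dh_core (S := fun n => ∑ e ∈ n.divisors, w e) (f := fE (rchar χ₁)) (ψ := ψ) (ρ := ρ)
      (mn := mn) (X := X) (d := d) (δ := δ) hX1
      (fE_nonneg (rchar_one χ₁) (rchar_mul hχ₁2) (abs_rchar_le χ₁)) (fE_one (rchar_one χ₁))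
      (by simp [hw1]) ψ1 hψ hre hδ0.le hd htw hm hpos'
    have h3 : 5/8 ≤ X ^ d * (20*κ*(δ*M)) := by linarith
    rw [hXd] at h3
    have h4 : Real.exp (10 * κ * d * M) * Real.exp (-(10 * κ * d * M)) = 1 := by
      rw [← Real.exp_add]; simp
    have h5 : 5/8 * Real.exp (-(10 * κ * d * M)) ≤ 20*κ*(δ*M) := by
      have h6 := mul_le_mul_of_nonneg_right h3 (Real.exp_pos (-(10 * κ * d * M))).le
      calc 5/8 * Real.exp (-(10 * κ * d * M)) ≤ _ := h6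
        _ = (Real.exp (10 * κ * d * M) * Real.exp (-(10 * κ * d * M))) * (20*κ*(δ*M)) := by ring
        _ = _ := by rw [h4, one_mul]
    have hexp0 := Real.exp_pos (-(10 * κ * d * M))
    calc 1 / (32 * κ + 8 * B) * Real.exp (-(10 * κ * d * M))
        ≤ 1 / (32 * κ) * Real.exp (-(10 * κ * d * M)) := by
          refine mul_le_mul_of_nonneg_right ?_ hexp0.le
          apply one_div_le_one_div_of_le (by positivity)
          linarith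
      _ ≤ δ * M := by
          rw [one_div, inv_mul_le_iff₀ (by positivity)]
          linarith
  · have h3 := hmn hδM
    rw [hXd] at h3
    have h4 : Real.exp (10 * κ * d * M) * Real.exp (-(10 * κ * d * M)) = 1 := by
      rw [← Real.exp_add]; simp
    have hexp0 := Real.exp_pos (-(10 * κ * d * M))
    have h5 : 1/8 * Real.exp (-(10 * κ * d * M)) ≤ B * (δ * M) := by
      have h6 := mul_le_mul_of_nonneg_right (hm.le.trans h3) hexp0.le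
      calc 1/8 * Real.exp (-(10 * κ * d * M)) ≤ _ := h6
        _ = (Real.exp (10 * κ * d * M) * Real.exp (-(10 * κ * d * M))) * (B * (δ * M)) := by ring
        _ = _ := by rw [h4, one_mul]
    rw [one_div, inv_mul_le_iff₀ hden]
    have h6 : 0 ≤ δ * M := by positivity
    nlinarith

end Vale.Agent.P026.H392
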