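import Vale.Agent.P026.H392.Twist

open Complex Set Filter Topology

namespace Vale.Agent.P026.H392

/-- The core inequality. -/
lemma dh_core {S f : ℕ → ℝ} {ψ : ℕ → ℂ} {ρ mn : ℂ} {X d δ P : ℝ} (hX1 : 1 ≤ X)
    (hf0 : ∀ n, 0 ≤ f n) (f1 : f 1 = 1) (S1 : S 1 = 1) (ψ1 : ψ 1 = 1) (hψ : ∀ n, ‖ψ n‖ ≤ 1)
    (hre : 1 - d ≤ ρ.re) (hδ : 0 ≤ δ) (hd : 0 ≤ d)
    (htw : ‖(∑ n ∈ Finset.Icc 1 ⌊X⌋₊, (((S n) ^ 2 : ℝ) : ℂ) * (((f n : ℝ) : ℂ) * (ψ n * pw ρ n))) - mn‖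
      ≤ 1/8) (hmn : ‖mn‖ ≤ 1/8)
    (hpos : ∑ n ∈ Finset.Icc 2 ⌊X⌋₊, (S n) ^ 2 * f n * (n:ℝ) ^ (δ - 1) ≤ P) :
    3/4 ≤ X ^ d * P := by
  have hX0 : 0 < X := by linarith
  have hfl : 1 ≤ ⌊X⌋₊ := Nat.one_le_iff_ne_zero.2 (Nat.floor_pos.2 hX1).ne'
  set F : ℕ → ℂ := fun n => (((S n) ^ 2 : ℝ) : ℂ) * (((f n : ℝ) : ℂ) * (ψ n * pw ρ n)) with hF
  have hsplit : ∑ n ∈ Finset.Icc 1 ⌊X⌋₊, F n = F 1 + ∑ n ∈ Finset.Icc 2 ⌊X⌋₊, F n := by
    have e : Finset.Icc 1 ⌊X⌋₊ = insert 1 (Finset.Icc 2 ⌊X⌋₊) := by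
      ext n; simp only [Finset.mem_Icc, Finset.mem_insert]; omega
    rw [e, Finset.sum_insert (by simp)]
  have hF1 : F 1 = 1 := by
    simp only [hF, S1, f1, ψ1]
    simp [pw]
  have h1 : ‖∑ n ∈ Finset.Icc 1 ⌊X⌋₊, F n‖ ≤ 1/4 := by
    calc ‖∑ n ∈ Finset.Icc 1 ⌊X⌋₊, F n‖ = ‖((∑ n ∈ Finset.Icc 1 ⌊X⌋₊, F n) - mn) + mn‖ := by
          congr 1; ring
      _ ≤ 1/8 + 1/8 := (norm_add_le _ _).trans (add_le_add htw hmn)
      _ = 1/4 := by norm_num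
  have h2 : 3/4 ≤ ‖∑ n ∈ Finset.Icc 2 ⌊X⌋₊, F n‖ := by
    have h3 : (1:ℂ) = (∑ n ∈ Finset.Icc 1 ⌊X⌋₊, F n) - ∑ n ∈ Finset.Icc 2 ⌊X⌋₊, F n := by
      rw [hsplit, hF1]; ring
    have h4 : ‖(1:ℂ)‖ ≤ ‖∑ n ∈ Finset.Icc 1 ⌊X⌋₊, F n‖ + ‖∑ n ∈ Finset.Icc 2 ⌊X⌋₊, F n‖ := by
      conv_lhs => rw [h3]
      exact norm_sub_le _ _
    rw [norm_one] at h4
    linarith
  refine h2.trans ?_
  calc ‖∑ n ∈ Finset.Icc 2 ⌊X⌋₊, F n‖ ≤ ∑ n ∈ Finset.Icc 2 ⌊X⌋₊, ‖F n‖ := norm_sum_le _ _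
    _ ≤ ∑ n ∈ Finset.Icc 2 ⌊X⌋₊, X ^ d * ((S n) ^ 2 * f n * (n:ℝ) ^ (δ - 1)) := by
        refine Finset.sum_le_sum fun n hn => ?_
        rw [Finset.mem_Icc] at hn
        have hn0 : (0:ℝ) < n := by exact_mod_cast (by omega : 0 < n)
        have hn1 : (1:ℝ) ≤ n := by exact_mod_cast (by omega : 1 ≤ n)
        have hnX : (n:ℝ) ≤ X := (Nat.le_floor_iff hX0.le).1 hn.2
        simp only [hF]
        rw [norm_mul, norm_mul, norm_mul, Complex.norm_real, Complex.norm_real, Real.norm_eq_abs,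
          Real.norm_eq_abs, abs_of_nonneg (sq_nonneg _), abs_of_nonneg (hf0 n), norm_pw hn0]
        have h5 : ‖ψ n‖ * (n:ℝ) ^ (-ρ.re) ≤ X ^ d * (n:ℝ) ^ (δ - 1) := by
          calc ‖ψ n‖ * (n:ℝ) ^ (-ρ.re) ≤ 1 * (n:ℝ) ^ (d + (δ - 1)) :=
                mul_le_mul (hψ n) (Real.rpow_le_rpow_of_exponent_le hn1 (by linarith))
                  (by positivity) zero_le_one
            _ = (n:ℝ) ^ d * (n:ℝ) ^ (δ - 1) := by rw [one_mul, Real.rpow_add hn0]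
            _ ≤ _ := mul_le_mul_of_nonneg_right (Real.rpow_le_rpow hn0.le hnX hd) (by positivity)
        have h6 : 0 ≤ (S n) ^ 2 * f n := mul_nonneg (sq_nonneg _) (hf0 n)
        calc (S n) ^ 2 * (f n * (‖ψ n‖ * (n:ℝ) ^ (-ρ.re)))
            = ((S n) ^ 2 * f n) * (‖ψ n‖ * (n:ℝ) ^ (-ρ.re)) := by ring
          _ ≤ ((S n) ^ 2 * f n) * (X ^ d * (n:ℝ) ^ (δ - 1)) := mul_le_mul_of_nonneg_left h5 h6
          _ = _ := by ring
    _ = X ^ d * ∑ n ∈ Finset.Icc 2 ⌊X⌋₊, (S n) ^ 2 * f n * (n:ℝ) ^ (δ - 1) := by rw [Finset.mul_sum]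
    _ ≤ X ^ d * P := mul_le_mul_of_nonneg_left hpos (by positivity)

/-- `√d log T` against `LL`. -/
lemma sqrt_log_le {Q T d : ℝ} (hQ : 1 ≤ Q) (hT : 3 ≤ T) (hd : 0 ≤ d) :
    Real.sqrt d * Real.log T ≤ (1 + 1 / Real.sqrt (Real.log (Real.log 3))) * LL Q T
      * Real.exp (d * LL Q T + d ^ (3/2 : ℝ) * Real.log T) := by
  have hLL := LL_nonneg hQ hT
  have hlT := log_T_pos hT
  set m := Real.log (Real.log 3) with hm
  have hm0 : 0 < m := loglog_pos le_rfl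
  have hmT : m ≤ Real.log (Real.log T) := by
    have h1 : Real.log 3 ≤ Real.log T := Real.log_le_log (by norm_num) hT
    exact Real.log_le_log (by linarith [log_T_pos (le_refl (3:ℝ))]) h1
  set l := Real.log T with hl
  set L := LL Q T with hL
  have hcube := LL_cube hQ hT
  rw [← hl, ← hL] at hcube
  have hl2 : l^2 * m ≤ L^3 := (mul_le_mul_of_nonneg_left hmT (by positivity)).trans hcube
  have hL0 : 0 < L := by
    by_contra hcon
    have : L = 0 := le_antisymm (not_lt.1 hcon) hLL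
    rw [this] at hl2
    have h0 : 0 < l^2 * m := by positivity
    norm_num at hl2
    linarith
  have hlp : 0 ≤ d ^ (3/2 : ℝ) * l := by positivity
  have hE0 : 0 ≤ d * L + d ^ (3/2 : ℝ) * l := by positivity
  have hexp1 : 1 ≤ Real.exp (d * L + d ^ (3/2 : ℝ) * l) := Real.one_le_exp hE0
  have hsm : 0 < Real.sqrt m := Real.sqrt_pos.2 hm0
  rcases le_or_gt (d * L) 1 with h | h
  · -- √d l ≤ L / √m
    have h1 : (Real.sqrt d * l) ≤ 1 / Real.sqrt m * L := by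
      have h2 : (Real.sqrt d * l)^2 ≤ (1 / Real.sqrt m * L)^2 := by
        rw [mul_pow, mul_pow, Real.sq_sqrt hd, div_pow, Real.sq_sqrt hm0.le, one_pow,
          div_mul_eq_mul_div, one_mul, le_div_iff₀ hm0]
        have h3 : d * (l^2 * m) ≤ d * L^3 := mul_le_mul_of_nonneg_left hl2 hd
        have h4 : d * L^3 ≤ 1 * L^2 := by
          have : d * L^3 = (d * L) * L^2 := by ring
          rw [this]
          exact mul_le_mul_of_nonneg_right h (by positivity)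
        linarith
      exact le_of_sq_le_sq h2 (by positivity)
    calc Real.sqrt d * l ≤ 1 / Real.sqrt m * L := h1
      _ ≤ (1 + 1 / Real.sqrt m) * L := by
          refine mul_le_mul_of_nonneg_right ?_ hL0.le
          linarith
      _ ≤ (1 + 1 / Real.sqrt m) * L * Real.exp (d * L + d ^ (3/2 : ℝ) * l) :=
          le_mul_of_one_le_right (by positivity) hexp1
  · have hd0 : 0 < d := by
      by_contra hcon
      have : d = 0 := le_antisymm (not_lt.1 hcon) hd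
      rw [this] at h; norm_num at h
    have h1 : Real.sqrt d * l ≤ (d ^ (3/2 : ℝ) * l) * L := by
      have e1 : Real.sqrt d = d ^ (1/2 : ℝ) := Real.sqrt_eq_rpow d
      have e2 : d ^ (3/2 : ℝ) = d ^ (1/2 : ℝ) * d := by
        nth_rewrite 3 [← Real.rpow_one d]
        rw [← Real.rpow_add hd0]; norm_num
      rw [e1, e2]
      have h3 : 0 ≤ d ^ (1/2 : ℝ) * l := by positivity
      calc d ^ (1/2 : ℝ) * l = (d ^ (1/2 : ℝ) * l) * 1 := by ring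
        _ ≤ (d ^ (1/2 : ℝ) * l) * (d * L) := mul_le_mul_of_nonneg_left h.le h3
        _ = _ := by ring
    have h2 : d ^ (3/2 : ℝ) * l ≤ Real.exp (d * L + d ^ (3/2 : ℝ) * l) := by
      have := Real.add_one_le_exp (d * L + d ^ (3/2 : ℝ) * l)
      have h3 : 0 ≤ d * L := by positivity
      linarith
    calc Real.sqrt d * l ≤ (d ^ (3/2 : ℝ) * l) * L := h1
      _ ≤ Real.exp (d * L + d ^ (3/2 : ℝ) * l) * L := mul_le_mul_of_nonneg_right h2 hL0.le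
      _ = 1 * L * Real.exp (d * L + d ^ (3/2 : ℝ) * l) := by ring
      _ ≤ (1 + 1 / Real.sqrt m) * L * Real.exp (d * L + d ^ (3/2 : ℝ) * l) := by
          refine mul_le_mul_of_nonneg_right (mul_le_mul_of_nonneg_right ?_ hL0.le) (Real.exp_pos _).le
          have : 0 < 1 / Real.sqrt m := by positivity
          linarith

lemma LL_lower {Q T : ℝ} (hQ : 1 ≤ Q) (hT : 3 ≤ T) : LL 1 3 ≤ LL Q T := by
  unfold LL
  have h1 : Real.log 1 ≤ Real.log Q := Real.log_le_log one_pos hQ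
  have h3 := log_T_pos (le_refl (3:ℝ))
  have h4 := loglog_pos (le_refl (3:ℝ))
  have h5 : Real.log 3 ≤ Real.log T := Real.log_le_log (by norm_num) hT
  have h6 : Real.log (Real.log 3) ≤ Real.log (Real.log T) := Real.log_le_log (by linarith) h5
  have h7 : Real.log 3 ^ (2/3:ℝ) ≤ Real.log T ^ (2/3:ℝ) := Real.rpow_le_rpow (by linarith) h5 (by norm_num)
  have h8 : Real.log (Real.log 3) ^ (1/3:ℝ) ≤ Real.log (Real.log T) ^ (1/3:ℝ) :=
    Real.rpow_le_rpow h4.le h6 (by norm_num)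
  have h9 := mul_le_mul h7 h8 (Real.rpow_nonneg h4.le _) (Real.rpow_nonneg (by linarith) _)
  linarith

lemma LL_one_three_pos : 0 < LL 1 3 := by
  unfold LL
  have h3 := log_T_pos (le_refl (3:ℝ))
  have h4 := loglog_pos (le_refl (3:ℝ))
  have : 0 < Real.log 3 ^ (2/3:ℝ) * Real.log (Real.log 3) ^ (1/3:ℝ) := by positivity
  rw [Real.log_one]; linarith

/-- Conversion of the final inequality. -/
lemma final_conv {M₀ c₂ C₂ : ℝ} (hM₀ : 0 ≤ M₀) (hc₂ : 0 < c₂) (hC₂ : 0 < C₂) :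
    ∃ c C : ℝ, 0 < c ∧ 0 < C ∧ ∀ Q T d δ : ℝ, 1 ≤ Q → 3 ≤ T → 0 ≤ d → d ≤ 1 → 0 ≤ δ →
      c₂ * Real.exp (-(C₂ * d * MM M₀ Q T d)) ≤ δ * MM M₀ Q T d →
      c * Real.exp (-(C * (d * LL Q T + d ^ (3/2 : ℝ) * Real.log T))) ≤ δ * LL Q T := by
  set ℓ₀ := LL 1 3 with hℓ₀
  have hℓ0 : 0 < ℓ₀ := LL_one_three_pos
  set K₃ := 1 + 1 / Real.sqrt (Real.log (Real.log 3)) with hK₃
  have hK₃0 : 0 < K₃ := by
    have : 0 < Real.sqrt (Real.log (Real.log 3)) := Real.sqrt_pos.2 (loglog_pos le_rfl)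
    positivity
  set K₁ := 1 + K₃ + M₀ / ℓ₀ with hK₁
  have hK₁0 : 0 < K₁ := by positivity
  refine ⟨c₂ * Real.exp (-(C₂ * M₀)) / K₁, C₂ + 1, by positivity, by positivity, ?_⟩
  intro Q T d δ hQ hT hd hd1 hδ h
  have hLL := LL_nonneg hQ hT
  have hlT := log_T_pos hT
  have hLlow := LL_lower hQ hT
  set L := LL Q T with hL
  have hL0 : 0 < L := lt_of_lt_of_le hℓ0 hLlow
  set E := d * L + d ^ (3/2 : ℝ) * Real.log T with hE
  have hE0 : 0 ≤ E := by positivity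
  have hexp1 : 1 ≤ Real.exp E := Real.one_le_exp hE0
  have hM : MM M₀ Q T d ≤ K₁ * L * Real.exp E := by
    have h1 := sqrt_log_le hQ hT hd
    have h2 : M₀ ≤ M₀ / ℓ₀ * L := by
      rw [div_mul_eq_mul_div, le_div_iff₀ hℓ0]
      exact mul_le_mul_of_nonneg_left hLlow hM₀
    have h3 : L ≤ L * Real.exp E := le_mul_of_one_le_right hL0.le hexp1
    have h4 : M₀ / ℓ₀ * L ≤ M₀ / ℓ₀ * L * Real.exp E := le_mul_of_one_le_right (by positivity) hexp1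
    unfold MM
    rw [← hL, hK₁]
    calc L + Real.sqrt d * Real.log T + M₀
        ≤ L * Real.exp E + K₃ * L * Real.exp E + M₀ / ℓ₀ * L * Real.exp E := by
          refine add_le_add (add_le_add h3 h1) (h2.trans h4)
      _ = _ := by ring
  have hdM : d * MM M₀ Q T d ≤ E + M₀ := by
    unfold MM
    rw [← hL, hE]
    have e1 : d * Real.sqrt d = d ^ (3/2 : ℝ) := by
      rcases hd.eq_or_lt with h0 | h0
      · rw [← h0]; simp
      · rw [Real.sqrt_eq_rpow]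
        nth_rewrite 1 [← Real.rpow_one d]
        rw [← Real.rpow_add h0]; norm_num
    have e2 : d * (L + Real.sqrt d * Real.log T + M₀) = d * L + (d * Real.sqrt d) * Real.log T + d * M₀ := by
      ring
    rw [e2, e1]
    have : d * M₀ ≤ 1 * M₀ := mul_le_mul_of_nonneg_right hd1 hM₀
    linarith
  have h5 : c₂ * Real.exp (-(C₂ * (E + M₀))) ≤ δ * (K₁ * L * Real.exp E) := by
    calc c₂ * Real.exp (-(C₂ * (E + M₀))) ≤ c₂ * Real.exp (-(C₂ * d * MM M₀ Q T d)) := by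
          refine mul_le_mul_of_nonneg_left (Real.exp_le_exp.2 ?_) hc₂.le
          have := mul_le_mul_of_nonneg_left hdM hC₂.le
          linarith
      _ ≤ δ * MM M₀ Q T d := h
      _ ≤ _ := mul_le_mul_of_nonneg_left hM hδ
  have e3 : Real.exp (-(C₂ * (E + M₀))) = Real.exp (-(C₂ * M₀)) * Real.exp (-((C₂ + 1) * E)) * Real.exp E := by
    rw [← Real.exp_add, ← Real.exp_add]; congr 1; ring
  rw [e3] at h5
  have hexpE := Real.exp_pos E
  have h6 : (c₂ * Real.exp (-(C₂ * M₀)) * Real.exp (-((C₂ + 1) * E))) * Real.exp E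
      ≤ (K₁ * (δ * L)) * Real.exp E := by
    calc _ = c₂ * (Real.exp (-(C₂ * M₀)) * Real.exp (-((C₂ + 1) * E)) * Real.exp E) := by ring
      _ ≤ δ * (K₁ * L * Real.exp E) := h5
      _ = _ := by ring
  have h7 := le_of_mul_le_mul_right h6 hexpE
  rw [div_mul_eq_mul_div, div_le_iff₀ hK₁0]
  linarith

end Vale.Agent.P026.H392
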