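import Vale.Agent.P026.H392.DH
import Vale.Agent.P026.H142.TwistD
import Vale.Agent.P026.H142.Page
import Vale.Agent.P026.H267.Main
import Vale.Agent.P026.H267.Dichotomy

open Complex Set Filter Topology

namespace Vale.Agent.P026.H392

open Vale.Agent.P026.H517 (rchar char_real rchar_one rchar_mul abs_rchar_le)
open Vale.Agent.P026.H267 (CharIdx Lf InRegion EE DHProp)

/-- Zeros of zeta keep away from `1`. -/
lemma zeta_far : ∃ K₀ : ℝ, 0 < K₀ ∧ ∀ ρ : ℂ, riemannZeta ρ = 0 → ‖1 / (1 - ρ)‖ ≤ K₀ := by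
  have h := riemannZeta_eventually_ne_zero_nhds_one
  rw [Metric.eventually_nhds_iff] at h
  obtain ⟨r, hr, h⟩ := h
  refine ⟨1 / r, by positivity, ?_⟩
  intro ρ hρ
  have h1 : r ≤ ‖1 - ρ‖ := by
    by_contra hcon
    push Not at hcon
    refine h (y := ρ) ?_ hρ
    rw [dist_eq_norm, ← norm_neg, neg_sub]
    exact hcon
  rw [norm_div, norm_one]
  exact one_div_le_one_div_of_le hr h1

/-- Elementary facts on `MM`. -/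
lemma MM_facts {M₀ Q T d : ℝ} (hQ : 1 ≤ Q) (hT : 3 ≤ T) (hM₀ : 0 ≤ M₀) :
    M₀ ≤ MM M₀ Q T d ∧ Real.log Q ≤ MM M₀ Q T d ∧ Q ≤ Real.exp (MM M₀ Q T d) := by
  have hLL := LL_nonneg hQ hT
  have hlT := log_T_pos hT
  have h2 : 0 ≤ Real.sqrt d * Real.log T := by positivity
  have h3 : 0 ≤ (Real.log T) ^ (2/3 : ℝ) * (Real.log (Real.log T)) ^ (1/3 : ℝ) := by
    have := loglog_pos hT
    positivity
  have h4 : Real.log Q ≤ MM M₀ Q T d := by unfold MM LL; linarith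
  refine ⟨by unfold MM; linarith, h4, ?_⟩
  calc Q = Real.exp (Real.log Q) := (Real.exp_log (by linarith)).symm
    _ ≤ _ := Real.exp_le_exp.2 h4

/-- The main term for `χ₁` itself. -/
lemma self_main {c₁ M B δ L1 G r Xd K : ℝ} (hc₁ : 0 < c₁) (hM1 : 1 ≤ M) (hδ : 0 < δ)
    (hB : 8 / c₁ ≤ B) (hG : 0 < G) (hL1 : L1 ≤ 2 * δ * G) (hr : c₁ / (M + 3) ≤ r) (hXd : 0 < Xd)
    (hK : K ≤ L1 * Xd / (r * G)) : K ≤ B * (δ * M) * Xd := by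
  have hr1 : 0 < r := lt_of_lt_of_le (by positivity) hr
  refine hK.trans ?_
  rw [div_le_iff₀ (by positivity)]
  have h1 : 1 ≤ (4 / c₁) * M * r := by
    have h2 : c₁ ≤ r * (M + 3) := (div_le_iff₀ (by linarith)).1 hr
    have h3 : r * (M + 3) ≤ r * (4 * M) := mul_le_mul_of_nonneg_left (by linarith) hr1.le
    calc (1:ℝ) = (1 / c₁) * c₁ := by field_simp
      _ ≤ (1 / c₁) * (r * (4 * M)) := mul_le_mul_of_nonneg_left (h2.trans h3) (by positivity)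
      _ = _ := by ring
  calc L1 * Xd ≤ (2 * δ * G) * Xd := mul_le_mul_of_nonneg_right hL1 hXd.le
    _ = (2 * δ * G) * Xd * 1 := by ring
    _ ≤ (2 * δ * G) * Xd * ((4 / c₁) * M * r) := mul_le_mul_of_nonneg_left h1 (by positivity)
    _ = (8 / c₁) * (δ * M) * Xd * (r * G) := by ring
    _ ≤ B * (δ * M) * Xd * (r * G) := by gcongr

/-- `δ` large: trivial. -/
lemma large_trivial {κ c₁ M B δ d : ℝ} (hκ : 10 ≤ κ) (hc₁ : 0 < c₁) (hM1 : 1 ≤ M) (hd : 0 ≤ d)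
    (hB : 8 / c₁ ≤ B) (h1 : c₁ / (M + 3) ≤ δ) :
    1 / (32 * κ + 8 * B) * Real.exp (-(10 * κ * d * M)) ≤ δ * M := by
  have hδ : 0 < δ := lt_of_lt_of_le (by positivity) h1
  have hB0 : 0 < B := lt_of_lt_of_le (by positivity) hB
  have h2 : c₁ ≤ δ * (M + 3) := (div_le_iff₀ (by linarith)).1 h1
  have h3 : c₁ / 4 ≤ δ * M := by nlinarith
  refine le_trans ?_ h3
  have h5 : 1 / (32 * κ + 8 * B) ≤ c₁ / 4 := by
    rw [div_le_iff₀ (by positivity)]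
    have h6 : c₁ / 4 * (8 * (8 / c₁)) = 16 := by field_simp; ring
    have h7 : c₁ / 4 * (8 * (8 / c₁)) ≤ c₁ / 4 * (32 * κ + 8 * B) :=
      mul_le_mul_of_nonneg_left (by linarith) (by positivity)
    linarith
  have h8 : Real.exp (-(10 * κ * d * M)) ≤ 1 := by
    rw [Real.exp_le_one_iff]
    have : 0 ≤ 10 * κ * d * M := by positivity
    linarith
  calc 1 / (32 * κ + 8 * B) * Real.exp (-(10 * κ * d * M)) ≤ c₁ / 4 * 1 :=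
        mul_le_mul h5 h8 (Real.exp_pos _).le (by positivity)
    _ = _ := mul_one _

/-- Repulsion of the other zeros of `L(s, χ₁)`. -/
lemma dh_self {κ d₀ M₁ M₂ : ℝ} (H : KEH κ d₀ M₁) (hκ : 10 ≤ κ) (hd₀' : d₀ ≤ 1/8) (hM₁ : 1 ≤ M₁)
    (hM₂ : 1 ≤ M₂) (hpa : PosArith κ M₂) {c₁ : ℝ} (hc₁ : 0 < c₁)
    (hpage : ∀ (q : ℕ) [NeZero q] (χ : DirichletCharacter ℂ q), χ ≠ 1 →
      ∀ z : ℂ, DirichletCharacter.LFunction χ z = 0 → ‖z - 1‖ ≤ c₁ / Real.log (q + 2) →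
      analyticOrderNatAt (DirichletCharacter.LFunction χ) z = 1 ∧
      ∀ ρ : ℂ, DirichletCharacter.LFunction χ ρ = 0 → ρ ≠ z → c₁ / Real.log (q + 2) < ‖ρ - 1‖)
    {M₀ B : ℝ} (hM₀1 : M₁ ≤ M₀) (hM₀2 : M₂ ≤ M₀)
    (hM₀4 : 8 * ((3 + 20 * κ + 8 / c₁) * (1 + 4 * κ) ^ 16) ≤ M₀) (hB : 8 / c₁ ≤ B)
    {Q T d : ℝ} (hQ : 1 ≤ Q) (hT : 3 ≤ T) (hd : 0 ≤ d) (hdd₀ : d ≤ d₀) (hdκ : d ≤ 1/(80*κ))
    {q₁ : ℕ} [NeZero q₁] {χ₁ : DirichletCharacter ℂ q₁} (hq₁ : (q₁:ℝ) ≤ Q)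
    (hne₁ : χ₁ ≠ 1) (hsq₁ : χ₁ ^ 2 = 1) {δ : ℝ} (hδ : 0 < δ)
    (hz : DirichletCharacter.LFunction χ₁ ((1 - δ : ℝ) : ℂ) = 0) {ρ : ℂ}
    (hzero : DirichletCharacter.LFunction χ₁ ρ = 0) (hre : 1 - d ≤ ρ.re) (him : |ρ.im| ≤ T)
    (hρne : ρ ≠ ((1 - δ : ℝ) : ℂ)) :
    1 / (32 * κ + 8 * B) * Real.exp (-(10 * κ * d * MM M₀ Q T d)) ≤ δ * MM M₀ Q T d := by
  obtain ⟨hMM₀, hlogQ, hqM'⟩ := MM_facts (M₀ := M₀) (d := d) hQ hT (by linarith)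
  set M := MM M₀ Q T d with hM
  have hM1 : 1 ≤ M := hM₁.trans (hM₀1.trans hMM₀)
  have hM0 : 0 < M := by linarith
  have hB0 : 0 < B := lt_of_lt_of_le (by positivity) hB
  have hqM : (q₁ : ℝ) ≤ Real.exp M := hq₁.trans hqM'
  have hq1 : (1:ℝ) ≤ q₁ := by exact_mod_cast Nat.pos_of_ne_zero (NeZero.ne q₁)
  have hlogq : Real.log ((q₁ : ℝ) + 2) ≤ M + 3 := by
    have h1 : (q₁ : ℝ) + 2 ≤ Real.exp (M + 3) := by
      rw [Real.exp_add]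
      have h3 : (1:ℝ) + 3 ≤ Real.exp 3 := by
        have := Real.add_one_le_exp (3:ℝ)
        linarith
      have h4 : 1 ≤ Real.exp M := Real.one_le_exp hM0.le
      nlinarith
    calc _ ≤ Real.log (Real.exp (M + 3)) := Real.log_le_log (by positivity) h1
      _ = _ := Real.log_exp _
  have hlogq0 : 0 < Real.log ((q₁ : ℝ) + 2) := Real.log_pos (by linarith)
  rcases le_or_gt δ (c₁ / Real.log ((q₁ : ℝ) + 2)) with hsmall | hlarge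
  · have hrc : RealChar χ₁ (rchar χ₁) := ⟨fun n => char_real hsq₁ n⟩
    have hN1 : 1 ≤ ⌊Real.exp (2 * κ * M)⌋₊ :=
      Nat.one_le_iff_ne_zero.2 (Nat.floor_pos.2 (Real.one_le_exp (by positivity))).ne'
    obtain ⟨w, hw1, hw, hws, hG⟩ := exists_selberg_E (x := rchar χ₁) (abs_rchar_le χ₁) hN1
    have hfar0 := (hpage q₁ χ₁ hne₁ _ hz (by
      rw [show ((1 - δ : ℝ) : ℂ) - 1 = ((-δ : ℝ) : ℂ) by push_cast; ring, Complex.norm_real,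
        Real.norm_eq_abs, abs_neg, abs_of_pos hδ]
      exact hsmall)).2 ρ hzero hρne
    have hfar : c₁ / (M + 3) ≤ ‖1 - ρ‖ := by
      rw [← norm_neg, neg_sub]
      refine le_trans ?_ hfar0.le
      exact div_le_div_of_nonneg_left hc₁.le hlogq0 hlogq
    obtain ⟨mn, hmn1, hmn2⟩ := H142.twist_self H hκ hd₀' hM₁ hc₁ hM₀1 hM₀4 hQ hT hd hdd₀ hq₁ hne₁ hsq₁
      hrc hw hws hG hzero hre him hfar
    refine dh_one hκ hM₂ hpa hne₁ hsq₁ hδ hz (hM₀2.trans hMM₀) hqM hd hdκ hw1 hw hws hG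
      (ψ := fun n => χ₁ (n : ZMod q₁)) (by simp)
      (fun n => DirichletCharacter.norm_le_one χ₁ _) (ρ := ρ) (mn := mn) hB0.le hre hmn2 ?_
    intro hδM
    obtain ⟨hGpos, hL1⟩ := L1_over_G hκ hM₂ hpa hne₁ hsq₁ hδ hz (hM₀2.trans hMM₀) hqM hδM
    exact self_main hc₁ hM1 hδ hB hGpos hL1 hfar (by positivity) hmn1
  · exact large_trivial hκ hc₁ hM1 hd hB
      ((div_le_div_of_nonneg_left hc₁.le hlogq0 hlogq).trans hlarge.le)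

/-- Repulsion of the zeros of other `L`-functions. -/
lemma dh_generic {κ d₀ M₁ M₂ : ℝ} (H : KEH κ d₀ M₁) (hκ : 10 ≤ κ) (hd₀' : d₀ ≤ 1/8) (hM₁ : 1 ≤ M₁)
    (hM₂ : 1 ≤ M₂) (hpa : PosArith κ M₂) {K₀ : ℝ} (hK₀ : 0 < K₀)
    {M₀ B : ℝ} (hM₀1 : M₁ ≤ M₀) (hM₀2 : M₂ ≤ M₀)
    (hM₀3 : 8 * (23 * κ + 2 * K₀) * (5 * κ) ^ 16 ≤ M₀) (hB : 0 ≤ B)
    {Q T d : ℝ} (hQ : 1 ≤ Q) (hT : 3 ≤ T) (hd : 0 ≤ d) (hdd₀ : d ≤ d₀) (hdκ : d ≤ 1/(80*κ))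
    {q₁ : ℕ} [NeZero q₁] {χ₁ : DirichletCharacter ℂ q₁} (hq₁ : (q₁:ℝ) ≤ Q) (hprim₁ : χ₁.IsPrimitive)
    (hne₁ : χ₁ ≠ 1) (hsq₁ : χ₁ ^ 2 = 1) {δ : ℝ} (hδ : 0 < δ)
    (hz : DirichletCharacter.LFunction χ₁ ((1 - δ : ℝ) : ℂ) = 0)
    {q : ℕ} [NeZero q] {χ : DirichletCharacter ℂ q} (hq : (q:ℝ) ≤ Q) (hprim : χ.IsPrimitive)
    (hχ : χ ≠ 1) (hne : (⟨q, χ⟩ : Σ q : ℕ, DirichletCharacter ℂ q) ≠ ⟨q₁, χ₁⟩) {ρ : ℂ}
    (hzero : DirichletCharacter.LFunction χ ρ = 0) (hre : 1 - d ≤ ρ.re) (him : |ρ.im| ≤ T) :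
    1 / (32 * κ + 8 * B) * Real.exp (-(10 * κ * d * MM M₀ Q T d)) ≤ δ * MM M₀ Q T d := by
  obtain ⟨hMM₀, hlogQ, hqM'⟩ := MM_facts (M₀ := M₀) (d := d) hQ hT (by linarith)
  set M := MM M₀ Q T d with hM
  have hM1 : 1 ≤ M := hM₁.trans (hM₀1.trans hMM₀)
  have hM0 : 0 < M := by linarith
  have hκ0 : 0 < κ := by linarith
  have hqM : (q₁ : ℝ) ≤ Real.exp M := hq₁.trans hqM'
  have hrc : RealChar χ₁ (rchar χ₁) := ⟨fun n => char_real hsq₁ n⟩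
  have hN1 : 1 ≤ ⌊Real.exp (2 * κ * M)⌋₊ :=
    Nat.one_le_iff_ne_zero.2 (Nat.floor_pos.2 (Real.one_le_exp (by positivity))).ne'
  obtain ⟨w, hw1, hw, hws, hG⟩ := exists_selberg_E (x := rchar χ₁) (abs_rchar_le χ₁) hN1
  have htw := twist_generic H hκ hd₀' hM₁ hK₀.le hM₀1 hM₀3 hQ hT hd hdd₀ hq₁ hprim₁ hrc hw hws
    hq hprim hχ hne hzero hre him
  refine dh_one hκ hM₂ hpa hne₁ hsq₁ hδ hz (hM₀2.trans hMM₀) hqM hd hdκ hw1 hw hws hG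
    (ψ := fun n => χ (n : ZMod q)) (by simp)
    (fun n => DirichletCharacter.norm_le_one χ _) (ρ := ρ) (mn := 0) hB hre ?_ ?_
  · rw [sub_zero]; exact htw
  · intro _
    rw [norm_zero]; positivity

/-- The main term for zeta. -/
lemma zeta_main {K₀ M B δ G Xd a b c : ℝ} (hM1 : 1 ≤ M) (hδ : 0 < δ) (hK₀ : 0 < K₀)
    (hB : 2 * K₀ ≤ B) (hG : 0 < G) (ha : a ≤ K₀) (hb0 : 0 ≤ b) (hb : b ≤ 2 * δ * G)
    (hc0 : 0 ≤ c) (hc : c ≤ Xd) : a * b * c * (1 / G) ≤ B * (δ * M) * Xd := by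
  have hXd : 0 ≤ Xd := hc0.trans hc
  have hGi : 0 ≤ 1 / G := by positivity
  have h1 : a * b ≤ K₀ * (2 * δ * G) := mul_le_mul ha hb hb0 hK₀.le
  have h2 : a * b * c ≤ K₀ * (2 * δ * G) * Xd := mul_le_mul h1 hc hc0 (by positivity)
  calc a * b * c * (1 / G) ≤ K₀ * (2 * δ * G) * Xd * (1 / G) := mul_le_mul_of_nonneg_right h2 hGi
    _ = (2 * K₀) * (δ * 1) * Xd := by field_simp
    _ ≤ B * (δ * M) * Xd := by
      have hB0 : 0 ≤ B := by linarith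
      gcongr

/-- Repulsion of the zeros of zeta. -/
lemma dh_zeta {κ d₀ M₁ M₂ : ℝ} (H : KEH κ d₀ M₁) (hκ : 10 ≤ κ) (hd₀' : d₀ ≤ 1/8) (hM₁ : 1 ≤ M₁)
    (hM₂ : 1 ≤ M₂) (hpa : PosArith κ M₂) {K₀ : ℝ} (hK₀ : 0 < K₀)
    {M₀ B : ℝ} (hM₀1 : M₁ ≤ M₀) (hM₀2 : M₂ ≤ M₀)
    (hM₀3 : 8 * (23 * κ + 2 * K₀) * (5 * κ) ^ 16 ≤ M₀) (hB : 2 * K₀ ≤ B)
    {Q T d : ℝ} (hQ : 1 ≤ Q) (hT : 3 ≤ T) (hd : 0 ≤ d) (hdd₀ : d ≤ d₀) (hdκ : d ≤ 1/(80*κ))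
    {q₁ : ℕ} [NeZero q₁] {χ₁ : DirichletCharacter ℂ q₁} (hq₁ : (q₁:ℝ) ≤ Q)
    (hne₁ : χ₁ ≠ 1) (hsq₁ : χ₁ ^ 2 = 1) {δ : ℝ} (hδ : 0 < δ)
    (hz : DirichletCharacter.LFunction χ₁ ((1 - δ : ℝ) : ℂ) = 0) {ρ : ℂ}
    (hzero : riemannZeta ρ = 0) (hfar : ‖1 / (1 - ρ)‖ ≤ K₀) (hre : 1 - d ≤ ρ.re) (him : |ρ.im| ≤ T) :
    1 / (32 * κ + 8 * B) * Real.exp (-(10 * κ * d * MM M₀ Q T d)) ≤ δ * MM M₀ Q T d := by
  obtain ⟨hMM₀, hlogQ, hqM'⟩ := MM_facts (M₀ := M₀) (d := d) hQ hT (by linarith)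
  set M := MM M₀ Q T d with hM
  have hM1 : 1 ≤ M := hM₁.trans (hM₀1.trans hMM₀)
  have hM0 : 0 < M := by linarith
  have hκ0 : 0 < κ := by linarith
  have hB0 : 0 < B := lt_of_lt_of_le (by positivity) hB
  have hqM : (q₁ : ℝ) ≤ Real.exp M := hq₁.trans hqM'
  have hrc : RealChar χ₁ (rchar χ₁) := ⟨fun n => char_real hsq₁ n⟩
  have hN1 : 1 ≤ ⌊Real.exp (2 * κ * M)⌋₊ :=
    Nat.one_le_iff_ne_zero.2 (Nat.floor_pos.2 (Real.one_le_exp (by positivity))).ne'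
  obtain ⟨w, hw1, hw, hws, hG⟩ := exists_selberg_E (x := rchar χ₁) (abs_rchar_le χ₁) hN1
  have htw := twist_zeta H hκ hd₀' hM₁ hK₀.le hM₀1 hM₀3 hQ hT hd hdd₀ hq₁ hne₁ hrc hw hws hzero
    hre him hfar
  rw [hG] at htw
  refine dh_one hκ hM₂ hpa hne₁ hsq₁ hδ hz (hM₀2.trans hMM₀) hqM hd hdκ hw1 hw hws hG
    (ψ := fun _ => 1) rfl (fun n => by simp) (ρ := ρ)
    (mn := (1 / (1 - ρ)) * DirichletCharacter.LFunction χ₁ 1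
      * pw (ρ - 1) (Real.exp (10 * κ * M))
      * ((1 / GS (nuE (rchar χ₁)) ⌊Real.exp (2 * κ * M)⌋₊ : ℝ) : ℂ)) hB0.le hre ?_ ?_
  · simpa only [one_mul] using htw
  · intro hδM
    obtain ⟨hGpos, hL1⟩ := L1_over_G hκ hM₂ hpa hne₁ hsq₁ hδ hz (hM₀2.trans hMM₀) hqM hδM
    have hX0 : 0 < Real.exp (10 * κ * M) := Real.exp_pos _
    have hX1 : 1 ≤ Real.exp (10 * κ * M) := Real.one_le_exp (by positivity)
    have hpw : ‖pw (ρ - 1) (Real.exp (10 * κ * M))‖ ≤ Real.exp (10 * κ * M) ^ d := by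
      rw [norm_pw hX0]
      apply Real.rpow_le_rpow_of_exponent_le hX1
      rw [Complex.sub_re, Complex.one_re]
      linarith
    rw [norm_mul, norm_mul, norm_mul, Complex.norm_real, Real.norm_eq_abs,
      abs_of_pos (by positivity)]
    exact zeta_main hM1 hδ hK₀ hB hGpos hfar (norm_nonneg _) hL1 (norm_nonneg _) hpw

/-- Deuring–Heilbronn repulsion in Vinogradov–Korobov form. -/
theorem deuring_heilbronn : ∃ c C d0 : ℝ, 0 < c ∧ 0 < C ∧ 0 < d0 ∧ DHProp c C d0 := by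
  obtain ⟨CV, cV, hCV, hcV, hVK⟩ := H517.exists_VKSum
  obtain ⟨κ, d₀, M₁, hκ, hd₀, hd₀', hM₁, H⟩ := exists_KEH hCV hcV hVK
  obtain ⟨M₂, hM₂, hpa⟩ := pos_arith hκ
  have hpa' : PosArith κ M₂ := hpa
  obtain ⟨K₀, hK₀, hzf⟩ := zeta_far
  obtain ⟨c₁, hc₁, hpage⟩ := H142.page_other
  have hκ0 : 0 < κ := by linarith
  obtain ⟨M₀, hM₀1, hM₀2, hM₀3, hM₀4⟩ : ∃ M₀ : ℝ, M₁ ≤ M₀ ∧ M₂ ≤ M₀ ∧
      8 * (23 * κ + 2 * K₀) * (5 * κ) ^ 16 ≤ M₀ ∧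
      8 * ((3 + 20 * κ + 8 / c₁) * (1 + 4 * κ) ^ 16) ≤ M₀ :=
    ⟨max (max M₁ M₂) (max (8 * (23 * κ + 2 * K₀) * (5 * κ) ^ 16)
      (8 * ((3 + 20 * κ + 8 / c₁) * (1 + 4 * κ) ^ 16))),
      (le_max_left _ _).trans (le_max_left _ _), (le_max_right _ _).trans (le_max_left _ _),
      (le_max_left _ _).trans (le_max_right _ _), (le_max_right _ _).trans (le_max_right _ _)⟩
  have hM₀0 : 0 ≤ M₀ := by linarith
  have h8c : 0 < 8 / c₁ := by positivity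
  obtain ⟨B, hB1, hB2⟩ : ∃ B : ℝ, 2 * K₀ ≤ B ∧ 8 / c₁ ≤ B :=
    ⟨2 * K₀ + 8 / c₁, by linarith, by linarith⟩
  have hB0 : 0 < B := lt_of_lt_of_le h8c hB2
  obtain ⟨c, C, hc, hC, hconv⟩ := final_conv (M₀ := M₀) (c₂ := 1 / (32 * κ + 8 * B)) (C₂ := 10 * κ)
    hM₀0 (by positivity) (by positivity)
  refine ⟨c, C, min (min d₀ (1/(80*κ))) 1, hc, hC, by positivity, ?_⟩
  intro Q hQ T hT d hd hdd χ₁ hq₁ hprim₁ hsq₁ hne₁ δ hδ hz x hx hxz hxne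
  have hdd₀ : d ≤ d₀ := hdd.trans ((min_le_left _ _).trans (min_le_left _ _))
  have hdκ : d ≤ 1/(80*κ) := hdd.trans ((min_le_left _ _).trans (min_le_right _ _))
  have hd1 : d ≤ 1 := hdd.trans (min_le_right _ _)
  have : NeZero (χ₁.1 : ℕ) := ⟨χ₁.1.pos.ne'⟩
  have : NeZero (x.1.1 : ℕ) := ⟨x.1.1.pos.ne'⟩
  refine hconv Q T d δ hQ hT hd hd1 hδ.le ?_
  obtain ⟨hxQ, hxp, hxre, hxim⟩ := hx
  have hz' : DirichletCharacter.LFunction χ₁.2 ((1 - δ : ℝ) : ℂ) = 0 := hz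
  have hxz' : DirichletCharacter.LFunction x.1.2 x.2 = 0 := hxz
  by_cases hself : x.1 = χ₁
  · have hρne : x.2 ≠ ((1 - δ : ℝ) : ℂ) := fun h => hxne (Prod.ext hself h)
    have hzero : DirichletCharacter.LFunction χ₁.2 x.2 = 0 := by
      have : Lf x.1 x.2 = 0 := hxz
      rw [hself] at this
      exact this
    exact dh_self H hκ hd₀' hM₁ hM₂ hpa' hc₁ hpage hM₀1 hM₀2 hM₀4 hB2 hQ hT hd hdd₀ hdκ hq₁ hne₁ hsq₁
      hδ hz' hzero hxre hxim hρne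
  · rcases H267.ne_one_or_of_primitive hxp with hx1 | hx1
    · have hne : (⟨(x.1.1 : ℕ), x.1.2⟩ : Σ q : ℕ, DirichletCharacter ℂ q) ≠ ⟨(χ₁.1 : ℕ), χ₁.2⟩ := by
        intro h
        apply hself
        obtain ⟨⟨q, χ⟩, ρ⟩ := x
        obtain ⟨q₁, ψ₁⟩ := χ₁
        simp only [Sigma.mk.injEq] at h ⊢
        obtain ⟨h1, h2⟩ := h
        have h3 : q = q₁ := PNat.coe_injective h1
        subst h3
        exact ⟨rfl, h2⟩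
      exact dh_generic H hκ hd₀' hM₁ hM₂ hpa' hK₀ hM₀1 hM₀2 hM₀3 hB0.le hQ hT hd hdd₀ hdκ hq₁ hprim₁
        hne₁ hsq₁ hδ hz' hxQ hxp hx1 hne hxz' hxre hxim
    · have hzeta : riemannZeta x.2 = 0 := by
        obtain ⟨⟨q, χ⟩, ρ⟩ := x
        simp only at hx1 hxz' ⊢
        have h3 : q = 1 := PNat.coe_injective (by rw [hx1]; rfl)
        subst h3
        rw [← DirichletCharacter.LFunction_modOne_eq (χ := χ)]
        exact hxz'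
      exact dh_zeta H hκ hd₀' hM₁ hM₂ hpa' hK₀ hM₀1 hM₀2 hM₀3 hB1 hQ hT hd hdd₀ hdκ hq₁
        hne₁ hsq₁ hδ hz' hzeta (hzf _ hzeta) hxre hxim

end Vale.Agent.P026.H392
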