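import Mathlib

open Complex Set Filter Topology MeasureTheory intervalIntegral

namespace Vale.Agent.P026.H392

/-- The function `u ↦ u^{-s}` on the reals. -/
noncomputable def pw (s : ℂ) (u : ℝ) : ℂ := (u : ℂ) ^ (-s)

lemma norm_pw {s : ℂ} {u : ℝ} (hu : 0 < u) : ‖pw s u‖ = u ^ (-s.re) := by
  rw [pw, Complex.norm_cpow_eq_rpow_re_of_pos hu, Complex.neg_re]

lemma hasDerivAt_pw {s : ℂ} {u : ℝ} (hu : 0 < u) :
    HasDerivAt (pw s) (-s * (u:ℂ) ^ (-s - 1)) u := by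
  have h1 : HasDerivAt (fun z : ℂ => z ^ (-s)) (-s * (u:ℂ) ^ (-s - 1) * 1) (u:ℂ) := by
    exact (hasDerivAt_id (u:ℂ)).cpow_const (Or.inl (by simpa using hu))
  have h2 := h1.comp_ofReal
  rw [mul_one] at h2
  exact h2

lemma norm_deriv_pw {s : ℂ} {u : ℝ} (hu : 0 < u) :
    ‖-s * (u:ℂ) ^ (-s - 1)‖ = ‖s‖ * u ^ (-s.re - 1) := by
  rw [norm_mul, norm_neg, Complex.norm_cpow_eq_rpow_re_of_pos hu]
  simp

lemma continuousOn_pw (s : ℂ) : ContinuousOn (pw s) (Ioi 0) := fun _ hu =>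
  (hasDerivAt_pw hu).continuousAt.continuousWithinAt

lemma intervalIntegrable_pw (s : ℂ) {a b : ℝ} (ha : 0 < a) (hb : 0 < b) :
    IntervalIntegrable (pw s) volume a b := by
  refine (ContinuousOn.mono (continuousOn_pw s) ?_).intervalIntegrable
  intro x hx
  exact lt_of_lt_of_le (lt_min ha hb) hx.1

/-- One step of the comparison. -/
lemma unit_step {s : ℂ} (hs : 0 ≤ s.re) {v : ℝ} (hv : 0 < v) :
    ‖pw s (v + 1) - ∫ u in v..(v+1), pw s u‖ ≤ ‖s‖ * v ^ (-s.re - 1) := by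
  have hb : ∀ u ∈ Icc v (v+1), ‖pw s (v+1) - pw s u‖ ≤ ‖s‖ * v ^ (-s.re - 1) := by
    intro u hu
    have h1 : ∀ x ∈ Icc v (v+1), HasDerivWithinAt (pw s) (-s * (x:ℂ) ^ (-s - 1)) (Icc v (v+1)) x :=
      fun x hx => (hasDerivAt_pw (lt_of_lt_of_le hv hx.1)).hasDerivWithinAt
    have h2 : ∀ x ∈ Icc v (v+1), ‖-s * (x:ℂ) ^ (-s - 1)‖ ≤ ‖s‖ * v ^ (-s.re - 1) := by
      intro x hx
      rw [norm_deriv_pw (lt_of_lt_of_le hv hx.1)]
      refine mul_le_mul_of_nonneg_left ?_ (norm_nonneg _)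
      exact Real.rpow_le_rpow_of_nonpos hv hx.1 (by linarith)
    have h3 := Convex.norm_image_sub_le_of_norm_hasDerivWithin_le h1 h2 (convex_Icc v (v+1)) hu
      (right_mem_Icc.2 (by linarith : v ≤ v+1))
    refine h3.trans ?_
    have h4 : ‖v + 1 - u‖ ≤ 1 := by
      rw [Real.norm_eq_abs, abs_of_nonneg (by linarith [hu.2])]
      linarith [hu.1]
    have h5 : 0 ≤ ‖s‖ * v ^ (-s.re - 1) := by positivity
    nlinarith
  have hint : IntervalIntegrable (pw s) volume v (v+1) := intervalIntegrable_pw s hv (by linarith)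
  have h6 : pw s (v + 1) - ∫ u in v..(v+1), pw s u = ∫ u in v..(v+1), (pw s (v+1) - pw s u) := by
    rw [intervalIntegral.integral_sub (by simp) hint]
    simp
  rw [h6]
  have := intervalIntegral.norm_integral_le_of_norm_le_const (a := v) (b := v+1)
    (f := fun u => pw s (v+1) - pw s u) (C := ‖s‖ * v ^ (-s.re - 1)) (by
      intro u hu
      rw [uIoc_of_le (by linarith : v ≤ v+1)] at hu
      exact hb u ⟨hu.1.le, hu.2⟩)
  simpa using this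

lemma one_add_rpow_neg_le {x σ : ℝ} (hx0 : 0 ≤ x) (hx1 : x ≤ 1) (hσ : 1/2 ≤ σ) :
    (1 + x) ^ (-σ) ≤ 1 - x / 4 := by
  have h1 : (1 + x) ^ (-σ) ≤ (1 + x) ^ (-(1/2 : ℝ)) :=
    Real.rpow_le_rpow_of_exponent_le (by linarith) (by linarith)
  refine h1.trans ?_
  rw [Real.rpow_neg (by linarith), ← Real.sqrt_eq_rpow, inv_le_comm₀ (Real.sqrt_pos.2 (by linarith))
    (by linarith)]
  refine Real.le_sqrt_of_sq_le ?_
  have hpos : 0 < 1 - x / 4 := by linarith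
  rw [inv_pow, inv_le_iff_one_le_mul₀ (by positivity)]
  nlinarith [mul_nonneg hx0 hx0, mul_nonneg (mul_nonneg hx0 hx0) hx0]

/-- telescoping bound -/
lemma rpow_telescope {v σ : ℝ} (hv : 1 ≤ v) (hσ : 1/2 ≤ σ) :
    v ^ (-σ - 1) ≤ 4 * (v ^ (-σ) - (v + 1) ^ (-σ)) := by
  have hv0 : 0 < v := by linarith
  have h1 : (v + 1) ^ (-σ) = v ^ (-σ) * (1 + 1/v) ^ (-σ) := by
    rw [← Real.mul_rpow hv0.le (by positivity)]
    congr 1
    field_simp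
  have h2 : (1 + 1/v) ^ (-σ) ≤ 1 - (1/v) / 4 :=
    one_add_rpow_neg_le (by positivity) (by rw [div_le_one hv0]; exact hv) hσ
  have h3 : v ^ (-σ - 1) = v ^ (-σ) * (1/v) := by
    rw [Real.rpow_sub_one hv0.ne']; ring
  have h4 : 0 < v ^ (-σ) := Real.rpow_pos_of_pos hv0 _
  rw [h1, h3]
  nlinarith [mul_le_mul_of_nonneg_left h2 h4.le]

/-- Euler–Maclaurin of order zero for `(n+a)^{-s}`. -/
lemma em_sum {s : ℂ} (hs : 1/2 ≤ s.re) {a : ℝ} (ha : 0 ≤ a) {N N' : ℕ} (hN : 1 ≤ N) (hNN : N ≤ N') :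
    ‖(∑ n ∈ Finset.Ioc N N', pw s (n + a)) - ∫ u in ((N:ℝ) + a)..((N':ℝ) + a), pw s u‖
      ≤ 4 * ‖s‖ * ((N:ℝ) ^ (-s.re) - (N' : ℝ) ^ (-s.re)) := by
  induction N', hNN using Nat.le_induction with
  | base => simp
  | succ M hM ih =>
    have hN0 : (0:ℝ) < N := by exact_mod_cast hN
    have hM1 : (1:ℝ) ≤ M := by exact_mod_cast hN.trans hM
    have hMa : (0:ℝ) < (M:ℝ) + a := by linarith
    have h1 : ∑ n ∈ Finset.Ioc N (M+1), pw s (n + a)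
        = (∑ n ∈ Finset.Ioc N M, pw s (n + a)) + pw s (((M:ℝ) + a) + 1) := by
      rw [Finset.sum_Ioc_succ_top hM]
      congr 2
      push_cast; ring
    have h2 : ∫ u in ((N:ℝ) + a)..(((M+1 : ℕ):ℝ) + a), pw s u
        = (∫ u in ((N:ℝ) + a)..((M:ℝ) + a), pw s u) + ∫ u in ((M:ℝ) + a)..(((M:ℝ) + a)+1), pw s u := by
      have e : (((M+1 : ℕ):ℝ) + a) = ((M:ℝ) + a) + 1 := by push_cast; ring
      rw [e]
      exact (intervalIntegral.integral_add_adjacent_intervals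
        (intervalIntegrable_pw s (by linarith) hMa) (intervalIntegrable_pw s hMa (by linarith))).symm
    rw [h1, h2]
    have h3 := unit_step (s := s) (by linarith) hMa
    have h4 : ((M:ℝ) + a) ^ (-s.re - 1) ≤ (M:ℝ) ^ (-s.re - 1) :=
      Real.rpow_le_rpow_of_nonpos (by linarith) (by linarith) (by linarith)
    have h5 := rpow_telescope (v := (M:ℝ)) (σ := s.re) hM1 hs
    have h6 : ‖s‖ * ((M:ℝ) + a) ^ (-s.re - 1) ≤ ‖s‖ * (4 * ((M:ℝ) ^ (-s.re) - ((M:ℝ) + 1) ^ (-s.re))) :=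
      mul_le_mul_of_nonneg_left (h4.trans h5) (norm_nonneg _)
    have h7 : (((M + 1 : ℕ) : ℝ)) = (M:ℝ) + 1 := by push_cast; ring
    rw [h7]
    calc _ = ‖((∑ n ∈ Finset.Ioc N M, pw s (n + a)) - ∫ u in ((N:ℝ) + a)..((M:ℝ) + a), pw s u)
          + (pw s (((M:ℝ) + a) + 1) - ∫ u in ((M:ℝ) + a)..(((M:ℝ) + a)+1), pw s u)‖ := by
          congr 1; ring
      _ ≤ _ := (norm_add_le _ _)
      _ ≤ 4 * ‖s‖ * ((N:ℝ) ^ (-s.re) - (M : ℝ) ^ (-s.re)) + ‖s‖ * ((M:ℝ) + a) ^ (-s.re - 1) :=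
          add_le_add ih h3
      _ ≤ _ := by linarith

lemma em_sum' {s : ℂ} (hs : 1/2 ≤ s.re) {a : ℝ} (ha : 0 ≤ a) {N N' : ℕ} (hN : 1 ≤ N) (hNN : N ≤ N') :
    ‖(∑ n ∈ Finset.Ioc N N', pw s (n + a)) - ∫ u in ((N:ℝ) + a)..((N':ℝ) + a), pw s u‖
      ≤ 4 * ‖s‖ * (N:ℝ) ^ (-s.re) := by
  refine (em_sum hs ha hN hNN).trans ?_
  have h1 : 0 ≤ (N' : ℝ) ^ (-s.re) := by positivity
  have h2 : 0 ≤ 4 * ‖s‖ := by positivity
  nlinarith

end Vale.Agent.P026.H392
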