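import Vale.Agent.P026.H392.Per

open Complex Set Filter Topology MeasureTheory intervalIntegral

namespace Vale.Agent.P026.H392

/-- Partial sums minus the main term. -/
noncomputable def FF (q : ℕ) (ψ : ℕ → ℂ) (s : ℂ) (n : ℕ) : ℂ :=
  (∑ k ∈ Finset.Icc 1 n, ψ k * pw s k) - mean q ψ * ∫ u in (1:ℝ)..(n:ℝ), pw s u

lemma FF_sub {q : ℕ} {ψ : ℕ → ℂ} {s : ℂ} {n₁ n₂ : ℕ} (h1 : 1 ≤ n₁) (h : n₁ ≤ n₂) :
    FF q ψ s n₂ - FF q ψ s n₁ = (∑ k ∈ Finset.Ioc n₁ n₂, ψ k * pw s k)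
      - mean q ψ * ∫ u in (n₁:ℝ)..(n₂:ℝ), pw s u := by
  have hn1 : (0:ℝ) < n₁ := by exact_mod_cast h1
  have hn2 : (0:ℝ) < n₂ := by exact_mod_cast (by omega : 0 < n₂)
  have e : Finset.Icc 1 n₂ = Finset.Icc 1 n₁ ∪ Finset.Ioc n₁ n₂ := by
    ext x; simp only [Finset.mem_Icc, Finset.mem_union, Finset.mem_Ioc]; omega
  have hd : Disjoint (Finset.Icc 1 n₁) (Finset.Ioc n₁ n₂) := by
    rw [Finset.disjoint_left]
    intro x hx hx2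
    rw [Finset.mem_Icc] at hx
    rw [Finset.mem_Ioc] at hx2
    omega
  have h2 := intervalIntegral.integral_add_adjacent_intervals
    (intervalIntegrable_pw s one_pos hn1) (intervalIntegrable_pw s hn1 hn2)
  unfold FF
  rw [e, Finset.sum_union hd, ← h2]
  ring

lemma FF_diff_gen {s : ℂ} (hs : 1/2 ≤ s.re)
    {q : ℕ} (hq : 0 < q) {ψ : ℕ → ℂ} (hψ : ∀ n, ‖ψ n‖ ≤ 1) (hper : ∀ n, ψ (n + q) = ψ n)
    {M : ℕ} (hM : 1 ≤ M) {n₁ n₂ : ℕ} (hn : q * (M + 1) ≤ n₁)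
    (hnn : n₁ ≤ n₂) {B w : ℝ} (hB0 : 0 ≤ B) (hw0 : 0 ≤ w) (hws : w ≤ s.re)
    (hTB : ∀ a : ℝ, 0 ≤ a → a ≤ 1 → ∀ N N' : ℕ, M ≤ N → N ≤ N' →
      ‖(∑ n ∈ Finset.Ioc N N', pw s (n + a)) - ∫ u in ((N:ℝ) + a)..((N':ℝ) + a), pw s u‖
        ≤ B * (N:ℝ) ^ (-w)) :
    ‖FF q ψ s n₂ - FF q ψ s n₁‖
      ≤ (q:ℝ) ^ (1 - s.re) * (B + 6) * (M:ℝ) ^ (-w) := by
  have hq0 : (0:ℝ) < q := by exact_mod_cast hq
  have hM0 : (0:ℝ) < M := by exact_mod_cast hM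
  -- M₁ + 1 = n₁ / q, M₂ + 1 = n₂ / q
  obtain ⟨M₁, hM₁⟩ : ∃ M₁, n₁ / q = M₁ + 1 := ⟨n₁ / q - 1, by
    have : M + 1 ≤ n₁ / q := by
      rw [Nat.le_div_iff_mul_le hq]; linarith [mul_comm q (M+1)]
    omega⟩
  obtain ⟨M₂, hM₂⟩ : ∃ M₂, n₂ / q = M₂ + 1 := ⟨n₂ / q - 1, by
    have : M + 1 ≤ n₂ / q := by
      rw [Nat.le_div_iff_mul_le hq]; linarith [mul_comm q (M+1)]
    omega⟩
  have hMM₁ : M ≤ M₁ := by
    have : M + 1 ≤ n₁ / q := by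
      rw [Nat.le_div_iff_mul_le hq]; linarith [mul_comm q (M+1)]
    omega
  have h12 : M₁ ≤ M₂ := by
    have : n₁ / q ≤ n₂ / q := Nat.div_le_div_right hnn
    omega
  have hd1 := Nat.div_add_mod n₁ q
  have hd2 := Nat.div_add_mod n₂ q
  have hm1 := Nat.mod_lt n₁ hq
  have hm2 := Nat.mod_lt n₂ hq
  rw [hM₁] at hd1
  rw [hM₂] at hd2
  have hMM1R : (M:ℝ) ≤ M₁ := by exact_mod_cast hMM₁
  have hmain := per_mult_gen hs hq hψ hper (by omega : 1 ≤ M₁) h12 hws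
    (fun a ha ha1 => hTB a ha ha1 M₁ M₂ hMM₁ h12)
  have hMpow : (M₁:ℝ) ^ (-w) ≤ (M:ℝ) ^ (-w) :=
    Real.rpow_le_rpow_of_nonpos hM0 hMM1R (by linarith)
  have hK0 : 0 < B + 2 := by positivity
  have hmain' := hmain.trans (mul_le_mul_of_nonneg_left hMpow (by positivity))
  have hA1 : 1 ≤ q * (M₁ + 1) := Nat.one_le_iff_ne_zero.2 (by positivity)
  have hA2 : 1 ≤ q * (M₂ + 1) := Nat.one_le_iff_ne_zero.2 (by positivity)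
  rw [← FF_sub hA1 (Nat.mul_le_mul_left q (by omega))] at hmain'
  -- remainders
  have hrem : ∀ (K n : ℕ), M ≤ K → q * (K+1) ≤ n → n < q * (K+1) + q →
      ‖FF q ψ s n - FF q ψ s (q * (K+1))‖ ≤ 2 * ((q:ℝ) ^ (1 - s.re) * (M:ℝ) ^ (-w)) := by
    intro K n hK h1 h2
    rw [FF_sub (Nat.one_le_iff_ne_zero.2 (by positivity)) h1]
    have hKR : (M:ℝ) ≤ K := by exact_mod_cast hK
    have hz : (q:ℝ) * M ≤ ((q * (K+1) : ℕ):ℝ) := by push_cast; nlinarith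
    have hqM : (0:ℝ) < q * M := by positivity
    have h2' : ((n:ℝ) - ((q * (K+1) : ℕ):ℝ)) ≤ q := by
      have : (n:ℝ) < ((q * (K+1) : ℕ):ℝ) + q := by exact_mod_cast h2
      linarith
    have h1' : ((q * (K+1) : ℕ):ℝ) ≤ n := by exact_mod_cast h1
    have a1 := norm_sum_pw_trivial (s := s) (by linarith) hψ hqM hz h1
    have a2 := norm_integral_pw_trivial (s := s) (by linarith) hqM hz h1'
    have hP : 0 ≤ ((q:ℝ) * M) ^ (-s.re) := by positivity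
    have a3 : ((q:ℝ) * M) ^ (-s.re) * ((n:ℝ) - ((q * (K+1) : ℕ):ℝ)) ≤ (q:ℝ) ^ (1 - s.re) * (M:ℝ) ^ (-w) := by
      calc _ ≤ ((q:ℝ) * M) ^ (-s.re) * q := mul_le_mul_of_nonneg_left h2' hP
        _ = (q:ℝ) ^ (1 - s.re) * (M:ℝ) ^ (-s.re) := by
            rw [Real.mul_rpow hq0.le hM0.le, sub_eq_add_neg, add_comm (1:ℝ), Real.rpow_add_one hq0.ne']
            ring
        _ ≤ _ := by
            refine mul_le_mul_of_nonneg_left ?_ (by positivity)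
            exact Real.rpow_le_rpow_of_exponent_le (by exact_mod_cast hM) (by linarith)
    calc _ ≤ ‖∑ k ∈ Finset.Ioc (q * (K+1)) n, ψ k * pw s k‖
          + ‖mean q ψ * ∫ u in ((q * (K+1) : ℕ):ℝ)..(n:ℝ), pw s u‖ := norm_sub_le _ _
      _ ≤ (q:ℝ) ^ (1 - s.re) * (M:ℝ) ^ (-w) + 1 * ((q:ℝ) ^ (1 - s.re) * (M:ℝ) ^ (-w)) := by
          rw [norm_mul]
          refine add_le_add (a1.trans a3) (mul_le_mul (norm_mean_le hq hψ) (a2.trans a3) (norm_nonneg _)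
            zero_le_one)
      _ = _ := by ring
  have r1 := hrem M₁ n₁ hMM₁ (by omega) (by omega)
  have r2 := hrem M₂ n₂ (hMM₁.trans h12) (by omega) (by omega)
  have e : FF q ψ s n₂ - FF q ψ s n₁
      = (FF q ψ s n₂ - FF q ψ s (q * (M₂+1))) + (FF q ψ s (q * (M₂+1)) - FF q ψ s (q * (M₁+1)))
        - (FF q ψ s n₁ - FF q ψ s (q * (M₁+1))) := by ring
  rw [e]
  calc _ ≤ ‖FF q ψ s n₂ - FF q ψ s (q * (M₂+1))‖ + ‖FF q ψ s (q * (M₂+1)) - FF q ψ s (q * (M₁+1))‖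
        + ‖FF q ψ s n₁ - FF q ψ s (q * (M₁+1))‖ :=
        (norm_sub_le _ _).trans (by gcongr; exact norm_add_le _ _)
    _ ≤ _ := by linarith

lemma FF_diff_bound {C c : ℝ} (hC : 0 < C) (hc : 0 < c) (hVK : VKSum C c) {T : ℝ} (hT : 3 ≤ T)
    {s : ℂ} (hs : 1/2 ≤ s.re) (hs2 : s.re ≤ 2) (him : |s.im| ≤ 4 * T)
    {v₀ : ℝ} (hv : 0 < v₀) (hsw : 1 - s.re ≤ wOne c T v₀)
    {q : ℕ} (hq : 0 < q) {ψ : ℕ → ℂ} (hψ : ∀ n, ‖ψ n‖ ≤ 1) (hper : ∀ n, ψ (n + q) = ψ n)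
    {M : ℕ} (hM : 1 ≤ M) (hMv : v₀ ≤ Real.log M) {n₁ n₂ : ℕ} (hn : q * (M + 1) ≤ n₁)
    (hnn : n₁ ≤ n₂) :
    ‖FF q ψ s n₂ - FF q ψ s n₁‖
      ≤ (q:ℝ) ^ (1 - s.re) * (2 * (C + 20) / wOne c T v₀ + 6) * (M:ℝ) ^ (-wOne c T v₀) := by
  have hw0 : 0 < wOne c T v₀ := wOne_pos hc hT hv
  have hw1 : wOne c T v₀ ≤ 1/4 := wOne_le hc
  have hM0 : (0:ℝ) < M := by exact_mod_cast hM
  refine FF_diff_gen hs hq hψ hper hM hn hnn (by positivity) hw0.le (by linarith) ?_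
  intro a ha ha1 N N' hMN hNN
  have hMNR : (M:ℝ) ≤ N := by exact_mod_cast hMN
  exact tail_bound hC hc hVK hT hs hs2 him ha ha1 hv hsw (hM.trans hMN)
    (hMv.trans (Real.log_le_log hM0 hMNR)) hNN

/-- Existence of the limit `ell` together with the quantitative bound. -/
theorem exists_ell {C c : ℝ} (hC : 0 < C) (hc : 0 < c) (hVK : VKSum C c) {T : ℝ} (hT : 3 ≤ T)
    {s : ℂ} (hs : 1/2 ≤ s.re) (hs2 : s.re ≤ 2) (him : |s.im| ≤ 4 * T)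
    {v₀ : ℝ} (hv : 0 < v₀) (hsw : 1 - s.re ≤ wOne c T v₀)
    {q : ℕ} (hq : 0 < q) {ψ : ℕ → ℂ} (hψ : ∀ n, ‖ψ n‖ ≤ 1) (hper : ∀ n, ψ (n + q) = ψ n) :
    ∃ ℓ : ℂ, Tendsto (FF q ψ s) atTop (𝓝 ℓ) ∧
      ∀ M : ℕ, 1 ≤ M → v₀ ≤ Real.log M → ∀ n, q * (M + 1) ≤ n →
        ‖FF q ψ s n - ℓ‖
          ≤ (q:ℝ) ^ (1 - s.re) * (2 * (C + 20) / wOne c T v₀ + 6) * (M:ℝ) ^ (-wOne c T v₀) := by
  have hw0 : 0 < wOne c T v₀ := wOne_pos hc hT hv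
  have hcauchy : CauchySeq (FF q ψ s) := by
    rw [Metric.cauchySeq_iff']
    intro ε hε
    have hlim : Tendsto (fun M : ℕ => (q:ℝ) ^ (1 - s.re) * (2 * (C + 20) / wOne c T v₀ + 6)
        * (M:ℝ) ^ (-wOne c T v₀)) atTop (𝓝 ((q:ℝ) ^ (1 - s.re) * (2 * (C + 20) / wOne c T v₀ + 6) * 0)) :=
      ((tendsto_rpow_neg_atTop hw0).comp tendsto_natCast_atTop_atTop).const_mul _
    rw [mul_zero] at hlim
    have h1 : ∀ᶠ M : ℕ in atTop, (q:ℝ) ^ (1 - s.re) * (2 * (C + 20) / wOne c T v₀ + 6)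
        * (M:ℝ) ^ (-wOne c T v₀) < ε := hlim.eventually_lt_const hε
    have h2 : ∀ᶠ M : ℕ in atTop, v₀ ≤ Real.log M :=
      (Real.tendsto_log_atTop.comp tendsto_natCast_atTop_atTop).eventually_ge_atTop v₀
    obtain ⟨M, hM1, hM2, hM3⟩ := (h1.and (h2.and (eventually_ge_atTop 1))).exists
    refine ⟨q * (M+1), fun n hn => ?_⟩
    rw [dist_eq_norm]
    exact (FF_diff_bound hC hc hVK hT hs hs2 him hv hsw hq hψ hper hM3 hM2 le_rfl hn).trans_lt hM1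
  obtain ⟨ℓ, hℓ⟩ := cauchySeq_tendsto_of_complete hcauchy
  refine ⟨ℓ, hℓ, fun M hM hMv n hn => ?_⟩
  have h1 : Tendsto (fun n₂ => ‖FF q ψ s n₂ - FF q ψ s n‖) atTop (𝓝 ‖ℓ - FF q ψ s n‖) :=
    (hℓ.sub_const _).norm
  rw [norm_sub_rev]
  refine le_of_tendsto h1 ?_
  filter_upwards [eventually_ge_atTop n] with n₂ hn₂
  exact FF_diff_bound hC hc hVK hT hs hs2 him hv hsw hq hψ hper hM hMv hn hn₂

end Vale.Agent.P026.H392
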