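import Vale.Agent.P026.H392.Selb

open Finset ArithmeticFunction
open scoped ArithmeticFunction.Moebius BigOperators

namespace Vale.Agent.P026.H392

/-- `f = 1 * x`. -/
noncomputable def fE (x : ℕ → ℝ) (n : ℕ) : ℝ := ∑ b ∈ n.divisors, x b

/-- The density of multiples of `D` in the sequence `f(n)`. -/
noncomputable def nuE (x : ℕ → ℝ) : ArithmeticFunction ℝ :=
  ArithmeticFunction.prodPrimeFactors (fun p => 1 - (1 - 1/(p:ℝ)) * (1 - x p / p))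

lemma nuE_mult (x : ℕ → ℝ) : (nuE x).IsMultiplicative :=
  ArithmeticFunction.IsMultiplicative.prodPrimeFactors _

lemma nuE_prime (x : ℕ → ℝ) {p : ℕ} (hp : p.Prime) :
    nuE x p = 1 - (1 - 1/(p:ℝ)) * (1 - x p / p) := by
  unfold nuE
  rw [ArithmeticFunction.prodPrimeFactors_apply hp.ne_zero, hp.primeFactors, Finset.prod_singleton]

lemma nuE_pos {x : ℕ → ℝ} (hx : ∀ n, |x n| ≤ 1) {p : ℕ} (hp : p.Prime) : 0 < nuE x p := by
  rw [nuE_prime x hp]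
  have h2 : (2:ℝ) ≤ p := by exact_mod_cast hp.two_le
  have hx1 := (abs_le.1 (hx p)).1
  have h3 : 0 < (p:ℝ) := by linarith
  have h4 : 1 - x p / p ≤ 1 + 1 / p := by
    have : -(x p / p) ≤ 1 / p := by
      rw [← neg_div]; exact div_le_div_of_nonneg_right (by linarith) h3.le
    linarith
  have h5 : 0 ≤ 1 - 1/(p:ℝ) := by
    rw [sub_nonneg, div_le_one h3]; linarith
  have h6 : (1 - 1/(p:ℝ)) * (1 - x p / p) ≤ (1 - 1/(p:ℝ)) * (1 + 1 / p) :=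
    mul_le_mul_of_nonneg_left h4 h5
  have h7 : 0 < 1/(p:ℝ) := by positivity
  nlinarith

lemma nuE_lt_one {x : ℕ → ℝ} (hx : ∀ n, |x n| ≤ 1) {p : ℕ} (hp : p.Prime) : nuE x p < 1 := by
  rw [nuE_prime x hp]
  have h2 : (2:ℝ) ≤ p := by exact_mod_cast hp.two_le
  have hx1 := (abs_le.1 (hx p)).2
  have h3 : 0 < (p:ℝ) := by linarith
  have h5 : 0 < 1 - 1/(p:ℝ) := by
    rw [sub_pos, div_lt_one h3]; linarith
  have h4 : 0 < 1 - x p / p := by
    rw [sub_pos, div_lt_one h3]; linarith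
  have := mul_pos h5 h4
  linarith

/-- Selberg's weights for the density `nuE x`. -/
theorem exists_selberg_E {x : ℕ → ℝ} (hx : ∀ n, |x n| ≤ 1) {N : ℕ} (hN : 1 ≤ N) :
    ∃ w : ℕ → ℝ, w 1 = 1 ∧ (∀ d, |w d| ≤ 1) ∧ (∀ d, w d ≠ 0 → Squarefree d ∧ d ≤ N) ∧
      ∑ d ∈ Icc 1 N, ∑ e ∈ Icc 1 N, w d * w e * nuE x (Nat.lcm d e) = 1 / GS (nuE x) N :=
  exists_selberg (nuE_mult x) (fun _ hp => nuE_pos hx hp) (fun _ hp => nuE_lt_one hx hp) hN

end Vale.Agent.P026.H392
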