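import Vale.Agent.P026.H392.KElink

open Complex Set Filter Topology

namespace Vale.Agent.P026.H392

/-- Summatory function of a Dirichlet convolution. -/
noncomputable def cv (u v : ℕ → ℂ) (y : ℝ) : ℂ :=
  ∑ n ∈ Finset.Icc 1 ⌊y⌋₊, ∑ d ∈ n.divisors, u d * v (n / d)

/-- Pairs with product at most `N`. -/
def PP (N : ℕ) : Finset (ℕ × ℕ) :=
  (Finset.Icc 1 N ×ˢ Finset.Icc 1 N).filter (fun x => x.1 * x.2 ≤ N)

lemma mem_PP {N : ℕ} {x : ℕ × ℕ} : x ∈ PP N ↔ 1 ≤ x.1 ∧ 1 ≤ x.2 ∧ x.1 * x.2 ≤ N := by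
  unfold PP
  simp only [Finset.mem_filter, Finset.mem_product, Finset.mem_Icc]
  constructor
  · rintro ⟨⟨⟨h1, h2⟩, h3, h4⟩, h5⟩
    exact ⟨h1, h3, h5⟩
  · rintro ⟨h1, h3, h5⟩
    exact ⟨⟨⟨h1, (Nat.le_mul_of_pos_right x.1 h3).trans h5⟩, h3,
      (Nat.le_mul_of_pos_left x.2 h1).trans h5⟩, h5⟩

lemma sum_conv_eq_pairs {G : Type*} [AddCommMonoid G] (F : ℕ → ℕ → G) (P : ℕ → Prop) [DecidablePred P] (N : ℕ) :
    ∑ n ∈ (Finset.Icc 1 N).filter P, ∑ d ∈ n.divisors, F d (n / d)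
      = ∑ x ∈ (PP N).filter (fun x => P (x.1 * x.2)), F x.1 x.2 := by
  classical
  have h1 : ∀ n ∈ (Finset.Icc 1 N).filter P, ∑ d ∈ n.divisors, F d (n / d)
      = ∑ x ∈ ((PP N).filter (fun x => P (x.1 * x.2))).filter (fun x => x.1 * x.2 = n), F x.1 x.2 := by
    intro n hn
    rw [Finset.mem_filter, Finset.mem_Icc] at hn
    rw [← Nat.sum_divisorsAntidiagonal (fun a b => F a b)]
    refine Finset.sum_congr ?_ fun _ _ => rfl
    ext x
    simp only [Nat.mem_divisorsAntidiagonal, Finset.mem_filter, mem_PP]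
    constructor
    · rintro ⟨h1, h2⟩
      refine ⟨⟨⟨?_, ?_, ?_⟩, ?_⟩, h1⟩
      · exact Nat.pos_of_ne_zero (by rintro h; rw [h, zero_mul] at h1; omega)
      · exact Nat.pos_of_ne_zero (by rintro h; rw [h, mul_zero] at h1; omega)
      · rw [h1]; exact hn.1.2
      · rw [h1]; exact hn.2
    · rintro ⟨_, h⟩
      exact ⟨h, by omega⟩
  rw [Finset.sum_congr rfl h1]
  refine Finset.sum_fiberwise_of_maps_to ?_ _
  intro x hx
  rw [Finset.mem_filter, mem_PP] at hx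
  rw [Finset.mem_filter, Finset.mem_Icc]
  exact ⟨⟨Nat.mul_pos hx.1.1 hx.1.2.1, hx.1.2.2⟩, hx.2⟩

lemma cv_eq_pairs (u v : ℕ → ℂ) (y : ℝ) : cv u v y = ∑ x ∈ PP ⌊y⌋₊, u x.1 * v x.2 := by
  have := sum_conv_eq_pairs (fun a b => u a * v b) (fun _ => True) ⌊y⌋₊
  simp only [Finset.filter_true] at this
  exact this

lemma hyper_identity (u v : ℕ → ℂ) {N U V : ℕ} (h1 : U * V ≤ N) (h2 : N < (U + 1) * (V + 1)) :
    ∑ x ∈ PP N, u x.1 * v x.2
      = (∑ a ∈ Finset.Icc 1 U, u a * ∑ b ∈ Finset.Icc 1 (N / a), v b)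
        + (∑ b ∈ Finset.Icc 1 V, v b * ∑ a ∈ Finset.Icc 1 (N / b), u a)
        - (∑ a ∈ Finset.Icc 1 U, u a) * (∑ b ∈ Finset.Icc 1 V, v b) := by
  classical
  have hA : (∑ a ∈ Finset.Icc 1 U, u a * ∑ b ∈ Finset.Icc 1 (N / a), v b)
      = ∑ x ∈ (PP N).filter (fun x => x.1 ≤ U), u x.1 * v x.2 := by
    simp_rw [Finset.mul_sum]
    rw [Finset.sum_sigma' (Finset.Icc 1 U) (fun a => Finset.Icc 1 (N / a)) (fun a b => u a * v b)]
    refine Finset.sum_nbij' (fun x => (x.1, x.2)) (fun x => ⟨x.1, x.2⟩) ?_ ?_ ?_ ?_ ?_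
    · rintro ⟨a, b⟩ hx
      simp only [Finset.mem_sigma, Finset.mem_Icc] at hx
      simp only [Finset.mem_filter, mem_PP]
      refine ⟨⟨hx.1.1, hx.2.1, ?_⟩, hx.1.2⟩
      have := (Nat.le_div_iff_mul_le (by omega : 0 < a)).1 hx.2.2
      rwa [mul_comm]
    · rintro ⟨a, b⟩ hx
      simp only [Finset.mem_filter, mem_PP] at hx
      simp only [Finset.mem_sigma, Finset.mem_Icc]
      refine ⟨⟨hx.1.1, hx.2⟩, hx.1.2.1, ?_⟩
      rw [Nat.le_div_iff_mul_le (by omega : 0 < a), mul_comm]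
      exact hx.1.2.2
    · rintro ⟨a, b⟩ _; rfl
    · rintro ⟨a, b⟩ _; rfl
    · rintro ⟨a, b⟩ _; rfl
  have hB : (∑ b ∈ Finset.Icc 1 V, v b * ∑ a ∈ Finset.Icc 1 (N / b), u a)
      = ∑ x ∈ (PP N).filter (fun x => x.2 ≤ V), u x.1 * v x.2 := by
    simp_rw [Finset.mul_sum]
    rw [Finset.sum_sigma' (Finset.Icc 1 V) (fun b => Finset.Icc 1 (N / b)) (fun b a => v b * u a)]
    refine Finset.sum_nbij' (fun x => (x.2, x.1)) (fun x => ⟨x.2, x.1⟩) ?_ ?_ ?_ ?_ ?_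
    · rintro ⟨b, a⟩ hx
      simp only [Finset.mem_sigma, Finset.mem_Icc] at hx
      simp only [Finset.mem_filter, mem_PP]
      refine ⟨⟨hx.2.1, hx.1.1, ?_⟩, hx.1.2⟩
      exact (Nat.le_div_iff_mul_le (by omega : 0 < b)).1 hx.2.2
    · rintro ⟨a, b⟩ hx
      simp only [Finset.mem_filter, mem_PP] at hx
      simp only [Finset.mem_sigma, Finset.mem_Icc]
      refine ⟨⟨hx.1.2.1, hx.2⟩, hx.1.1, ?_⟩
      rw [Nat.le_div_iff_mul_le (by omega : 0 < b)]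
      exact hx.1.2.2
    · rintro ⟨a, b⟩ _; rfl
    · rintro ⟨a, b⟩ _; rfl
    · rintro ⟨a, b⟩ _; exact mul_comm _ _
  have hC : (∑ a ∈ Finset.Icc 1 U, u a) * (∑ b ∈ Finset.Icc 1 V, v b)
      = ∑ x ∈ (PP N).filter (fun x => x.1 ≤ U ∧ x.2 ≤ V), u x.1 * v x.2 := by
    rw [Finset.sum_mul_sum, ← Finset.sum_product']
    refine Finset.sum_congr ?_ fun _ _ => rfl
    ext ⟨a, b⟩
    simp only [Finset.mem_product, Finset.mem_Icc, Finset.mem_filter, mem_PP]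
    constructor
    · rintro ⟨⟨ha, ha'⟩, hb, hb'⟩
      exact ⟨⟨ha, hb, (Nat.mul_le_mul ha' hb').trans h1⟩, ha', hb'⟩
    · rintro ⟨⟨ha, hb, _⟩, ha', hb'⟩
      exact ⟨⟨ha, ha'⟩, hb, hb'⟩
  rw [hA, hB, hC]
  have hun : PP N = (PP N).filter (fun x => x.1 ≤ U) ∪ (PP N).filter (fun x => x.2 ≤ V) := by
    ext x
    simp only [Finset.mem_union, Finset.mem_filter]
    constructor
    · intro hx
      by_contra hcon
      push Not at hcon
      have h3 := hcon.1 hx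
      have h4 := hcon.2 hx
      rw [mem_PP] at hx
      have : (U + 1) * (V + 1) ≤ x.1 * x.2 := Nat.mul_le_mul h3 h4
      omega
    · rintro (h | h)
      · exact h.1
      · exact h.1
  have hin : (PP N).filter (fun x => x.1 ≤ U) ∩ (PP N).filter (fun x => x.2 ≤ V)
      = (PP N).filter (fun x => x.1 ≤ U ∧ x.2 ≤ V) := by
    ext x
    simp only [Finset.mem_inter, Finset.mem_filter]
    tauto
  have h3 := Finset.sum_union_inter (s₁ := (PP N).filter (fun x => x.1 ≤ U))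
    (s₂ := (PP N).filter (fun x => x.2 ≤ V)) (f := fun x : ℕ × ℕ => u x.1 * v x.2)
  rw [← hun, hin] at h3
  rw [← h3]; ring

lemma sum_rpow_le {d x : ℝ} (hd : 0 ≤ d) (hx : 1 ≤ x) :
    ∑ n ∈ Finset.Icc 1 ⌊x⌋₊, (n:ℝ) ^ (-(1 - d)) ≤ x ^ d * (1 + Real.log x) := by
  have h1 : ∀ n ∈ Finset.Icc 1 ⌊x⌋₊, (n:ℝ) ^ (-(1 - d)) ≤ x ^ d * (n:ℝ)⁻¹ := by
    intro n hn
    rw [Finset.mem_Icc] at hn
    have hn0 : (0:ℝ) < n := by exact_mod_cast hn.1
    have hnx : (n:ℝ) ≤ x := (Nat.le_floor_iff (by linarith)).1 hn.2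
    calc (n:ℝ) ^ (-(1 - d)) = (n:ℝ) ^ d * (n:ℝ)⁻¹ := by
          rw [show -(1 - d) = d + -1 by ring, Real.rpow_add hn0, Real.rpow_neg_one]
      _ ≤ x ^ d * (n:ℝ)⁻¹ :=
          mul_le_mul_of_nonneg_right (Real.rpow_le_rpow hn0.le hnx hd) (by positivity)
  have h2 : ∑ n ∈ Finset.Icc 1 ⌊x⌋₊, (n:ℝ)⁻¹ ≤ 1 + Real.log x := by
    have := harmonic_floor_le_one_add_log x hx
    rw [harmonic_eq_sum_Icc] at this
    push_cast at this
    exact this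
  calc _ ≤ ∑ n ∈ Finset.Icc 1 ⌊x⌋₊, x ^ d * (n:ℝ)⁻¹ := Finset.sum_le_sum h1
    _ = x ^ d * ∑ n ∈ Finset.Icc 1 ⌊x⌋₊, (n:ℝ)⁻¹ := by rw [Finset.mul_sum]
    _ ≤ _ := mul_le_mul_of_nonneg_left h2 (by positivity)

/-- Hyperbola method with error terms. -/
theorem hyper_est {u v : ℕ → ℂ} {s α β κ₀ lam : ℂ} {d ε x₀ y : ℝ} (hd : 0 ≤ d)
    (hs : 1 - d ≤ s.re)
    (hu : ∀ n : ℕ, 1 ≤ n → ‖u n‖ ≤ (n:ℝ) ^ (-(1 - d))) (hv : ∀ n : ℕ, 1 ≤ n → ‖v n‖ ≤ (n:ℝ) ^ (-(1 - d)))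
    (hε : 0 ≤ ε) (hε1 : ε ≤ 1) (hx₀ : 1 ≤ x₀) (hy : x₀ ^ 2 ≤ y)
    (hA : ∀ t : ℝ, x₀ ≤ t → ‖(∑ n ∈ Finset.Icc 1 ⌊t⌋₊, u n) - α - κ₀ * pw (s - 1) t‖ ≤ ε)
    (hB : ∀ t : ℝ, x₀ ≤ t → ‖(∑ n ∈ Finset.Icc 1 ⌊t⌋₊, v n) - β‖ ≤ ε)
    (hB1 : κ₀ = 0 ∨ ∀ t : ℝ, x₀ ≤ t → ‖(∑ n ∈ Finset.Icc 1 ⌊t⌋₊, v n * pw (1 - s) n) - lam‖ ≤ ε) :
    ‖cv u v y - α * β - κ₀ * lam * pw (s - 1) y‖
      ≤ ε * y ^ d * (3 + 2 * Real.log y + 2 * ‖κ₀‖) := by
  have hx0 : 0 < x₀ := by linarith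
  have hx02 : 1 ≤ x₀ ^ 2 := one_le_pow₀ hx₀
  have hy1 : 1 ≤ y := hx02.trans hy
  have hy0 : 0 < y := by linarith
  set r := Real.sqrt y with hr
  have hr0 : 0 < r := Real.sqrt_pos.2 hy0
  have hrr : r * r = y := Real.mul_self_sqrt hy0.le
  have hrx : x₀ ≤ r := Real.le_sqrt_of_sq_le hy
  have hr1 : 1 ≤ r := hx₀.trans hrx
  have hry : r ≤ y := by nlinarith
  set U := ⌊r⌋₊ with hU
  set N := ⌊y⌋₊ with hN
  have hUr : (U:ℝ) ≤ r := Nat.floor_le hr0.le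
  have hUr1 : r < U + 1 := Nat.lt_floor_add_one r
  have h1 : U * U ≤ N := by
    rw [hN]
    apply Nat.le_floor
    push_cast
    calc (U:ℝ) * U ≤ r * r := mul_le_mul hUr hUr (Nat.cast_nonneg _) hr0.le
      _ = y := hrr
  have h2 : N < (U + 1) * (U + 1) := by
    have : (N:ℝ) < ((U + 1) * (U + 1) : ℕ) := by
      push_cast
      calc (N:ℝ) ≤ y := Nat.floor_le hy0.le
        _ = r * r := hrr.symm
        _ < (U + 1) * (U + 1) := mul_lt_mul'' hUr1 hUr1 hr0.le hr0.le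
    exact_mod_cast this
  have hid := hyper_identity u v h1 h2
  rw [cv_eq_pairs, hid]
  -- bounds for the index range
  have hdivx : ∀ a ∈ Finset.Icc 1 U, x₀ ≤ y / a ∧ ⌊y / (a:ℝ)⌋₊ = N / a ∧ (0:ℝ) < a := by
    intro a ha
    rw [Finset.mem_Icc] at ha
    have ha0 : (0:ℝ) < a := by exact_mod_cast ha.1
    have har : (a:ℝ) ≤ r := le_trans (by exact_mod_cast ha.2) hUr
    refine ⟨?_, ?_, ha0⟩
    · rw [le_div_iff₀ ha0]
      calc x₀ * a ≤ r * r := mul_le_mul hrx har ha0.le hr0.le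
        _ = y := hrr
    · rw [hN, Nat.floor_div_natCast]
  set A := ∑ a ∈ Finset.Icc 1 U, u a with hAdef
  set B := ∑ b ∈ Finset.Icc 1 U, v b with hBdef
  set B1 := ∑ b ∈ Finset.Icc 1 U, v b * pw (1 - s) b with hB1def
  have hAr := hA r hrx
  have hBr := hB r hrx
  rw [← hU, ← hAdef] at hAr
  rw [← hU, ← hBdef] at hBr
  have hsumu : ∑ a ∈ Finset.Icc 1 U, ‖u a‖ ≤ y ^ d * (1 + Real.log y) := by
    calc ∑ a ∈ Finset.Icc 1 U, ‖u a‖ ≤ ∑ a ∈ Finset.Icc 1 U, (a:ℝ) ^ (-(1 - d)) :=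
          Finset.sum_le_sum fun a ha => hu a (Finset.mem_Icc.1 ha).1
      _ ≤ r ^ d * (1 + Real.log r) := sum_rpow_le hd hr1
      _ ≤ _ := by
          have : 0 ≤ Real.log r := Real.log_nonneg hr1
          exact mul_le_mul (Real.rpow_le_rpow hr0.le hry hd)
            (by linarith [Real.log_le_log hr0 hry]) (by linarith) (by positivity)
  have hsumv : ∑ a ∈ Finset.Icc 1 U, ‖v a‖ ≤ y ^ d * (1 + Real.log y) := by
    calc ∑ a ∈ Finset.Icc 1 U, ‖v a‖ ≤ ∑ a ∈ Finset.Icc 1 U, (a:ℝ) ^ (-(1 - d)) :=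
          Finset.sum_le_sum fun a ha => hv a (Finset.mem_Icc.1 ha).1
      _ ≤ r ^ d * (1 + Real.log r) := sum_rpow_le hd hr1
      _ ≤ _ := by
          have : 0 ≤ Real.log r := Real.log_nonneg hr1
          exact mul_le_mul (Real.rpow_le_rpow hr0.le hry hd)
            (by linarith [Real.log_le_log hr0 hry]) (by linarith) (by positivity)
  -- first sum
  have hE1 : ‖(∑ a ∈ Finset.Icc 1 U, u a * ∑ b ∈ Finset.Icc 1 (N / a), v b) - β * A‖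
      ≤ (y ^ d * (1 + Real.log y)) * ε := by
    have : (∑ a ∈ Finset.Icc 1 U, u a * ∑ b ∈ Finset.Icc 1 (N / a), v b) - β * A
        = ∑ a ∈ Finset.Icc 1 U, u a * ((∑ b ∈ Finset.Icc 1 (N / a), v b) - β) := by
      rw [hAdef, Finset.mul_sum, ← Finset.sum_sub_distrib]
      exact Finset.sum_congr rfl fun a _ => by ring
    rw [this]
    calc _ ≤ ∑ a ∈ Finset.Icc 1 U, ‖u a‖ * ε := by
          refine (norm_sum_le _ _).trans (Finset.sum_le_sum fun a ha => ?_)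
          rw [norm_mul]
          refine mul_le_mul_of_nonneg_left ?_ (norm_nonneg _)
          obtain ⟨h3, h4, _⟩ := hdivx a ha
          have := hB _ h3
          rwa [h4] at this
      _ = (∑ a ∈ Finset.Icc 1 U, ‖u a‖) * ε := by rw [Finset.sum_mul]
      _ ≤ _ := mul_le_mul_of_nonneg_right hsumu hε
  -- second sum
  have hE2 : ‖(∑ b ∈ Finset.Icc 1 U, v b * ∑ a ∈ Finset.Icc 1 (N / b), u a)
      - α * B - κ₀ * pw (s - 1) y * B1‖ ≤ (y ^ d * (1 + Real.log y)) * ε := by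
    have : (∑ b ∈ Finset.Icc 1 U, v b * ∑ a ∈ Finset.Icc 1 (N / b), u a)
      - α * B - κ₀ * pw (s - 1) y * B1
        = ∑ b ∈ Finset.Icc 1 U, v b * ((∑ a ∈ Finset.Icc 1 (N / b), u a) - α
            - κ₀ * pw (s - 1) (y / b)) := by
      rw [hBdef, hB1def, Finset.mul_sum, Finset.mul_sum, ← Finset.sum_sub_distrib,
        ← Finset.sum_sub_distrib]
      refine Finset.sum_congr rfl fun b hb => ?_
      obtain ⟨_, _, hb0⟩ := hdivx b hb
      have e1 : pw (s - 1) (y / b) = pw (s - 1) y * pw (1 - s) b := by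
        rw [div_eq_mul_inv, pw_mul hy0 (inv_pos.2 hb0)]
        congr 1
        unfold pw
        rw [Complex.ofReal_inv, Complex.inv_cpow, ← Complex.cpow_neg]
        · congr 1; ring
        · rw [Complex.arg_ofReal_of_nonneg hb0.le]
          exact Real.pi_pos.ne
      rw [e1]; ring
    rw [this]
    calc _ ≤ ∑ b ∈ Finset.Icc 1 U, ‖v b‖ * ε := by
          refine (norm_sum_le _ _).trans (Finset.sum_le_sum fun b hb => ?_)
          rw [norm_mul]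
          refine mul_le_mul_of_nonneg_left ?_ (norm_nonneg _)
          obtain ⟨h3, h4, _⟩ := hdivx b hb
          have := hA _ h3
          rwa [h4] at this
      _ = (∑ b ∈ Finset.Icc 1 U, ‖v b‖) * ε := by rw [Finset.sum_mul]
      _ ≤ _ := mul_le_mul_of_nonneg_right hsumv hε
  have hpwy : ‖pw (s - 1) y‖ ≤ y ^ d := by
    rw [norm_pw hy0]
    refine Real.rpow_le_rpow_of_exponent_le hy1 ?_
    rw [Complex.sub_re, Complex.one_re]; linarith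
  have hpwr : ‖pw (s - 1) r‖ ≤ y ^ d := by
    rw [norm_pw hr0]
    calc r ^ (-(s - 1).re) ≤ r ^ d := by
          refine Real.rpow_le_rpow_of_exponent_le hr1 ?_
          rw [Complex.sub_re, Complex.one_re]; linarith
      _ ≤ y ^ d := Real.rpow_le_rpow hr0.le hry hd
  have hyd : 1 ≤ y ^ d := Real.one_le_rpow hy1 hd
  -- cross term
  have hE3 : ‖(A - α) * (B - β)‖ ≤ (‖κ₀‖ * y ^ d + ε) * ε := by
    rw [norm_mul]
    refine mul_le_mul ?_ hBr (norm_nonneg _) (by positivity)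
    calc ‖A - α‖ = ‖(A - α - κ₀ * pw (s - 1) r) + κ₀ * pw (s - 1) r‖ := by congr 1; ring
      _ ≤ ε + ‖κ₀‖ * y ^ d := by
          refine (norm_add_le _ _).trans (add_le_add hAr ?_)
          rw [norm_mul]
          exact mul_le_mul_of_nonneg_left hpwr (norm_nonneg _)
      _ = _ := by ring
  have hE4 : ‖κ₀ * pw (s - 1) y * (B1 - lam)‖ ≤ ‖κ₀‖ * y ^ d * ε := by
    rcases hB1 with h | h
    · rw [h]; simp
    · have := h r hrx
      rw [← hU, ← hB1def] at this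
      rw [norm_mul, norm_mul]
      exact mul_le_mul (mul_le_mul_of_nonneg_left hpwy (norm_nonneg _)) this (norm_nonneg _) (by positivity)
  have hfinal : (∑ a ∈ Finset.Icc 1 U, u a * ∑ b ∈ Finset.Icc 1 (N / a), v b)
        + (∑ b ∈ Finset.Icc 1 U, v b * ∑ a ∈ Finset.Icc 1 (N / b), u a)
        - A * B - α * β - κ₀ * lam * pw (s - 1) y
      = ((∑ a ∈ Finset.Icc 1 U, u a * ∑ b ∈ Finset.Icc 1 (N / a), v b) - β * A)
        + ((∑ b ∈ Finset.Icc 1 U, v b * ∑ a ∈ Finset.Icc 1 (N / b), u a)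
          - α * B - κ₀ * pw (s - 1) y * B1)
        - (A - α) * (B - β) + κ₀ * pw (s - 1) y * (B1 - lam) := by ring
  rw [hfinal]
  have hlog : 0 ≤ Real.log y := Real.log_nonneg hy1
  calc _ ≤ (y ^ d * (1 + Real.log y)) * ε + (y ^ d * (1 + Real.log y)) * ε
        + (‖κ₀‖ * y ^ d + ε) * ε + ‖κ₀‖ * y ^ d * ε := by
        refine (norm_add_le _ _).trans (add_le_add ((norm_sub_le _ _).trans
          (add_le_add ((norm_add_le _ _).trans (add_le_add hE1 hE2)) hE3)) hE4)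
    _ ≤ ε * y ^ d * (3 + 2 * Real.log y + 2 * ‖κ₀‖) := by
        have h5 : ε * ε ≤ ε * y ^ d := mul_le_mul_of_nonneg_left (hε1.trans hyd) hε
        nlinarith

end Vale.Agent.P026.H392
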