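import Vale.Agent.P026.H392.Ell

open Complex Set Filter Topology MeasureTheory intervalIntegral

namespace Vale.Agent.P026.H392

/-- `log Q + (log T)^{2/3} (log log T)^{1/3}`. -/
noncomputable def LL (Q T : ℝ) : ℝ :=
  Real.log Q + (Real.log T) ^ (2/3 : ℝ) * (Real.log (Real.log T)) ^ (1/3 : ℝ)

/-- `LL + √d log T + M₀`. -/
noncomputable def MM (M₀ Q T d : ℝ) : ℝ := LL Q T + Real.sqrt d * Real.log T + M₀

lemma loglog_pos {T : ℝ} (hT : 3 ≤ T) : 0 < Real.log (Real.log T) := Real.log_pos (log_T_pos hT)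

lemma LL_nonneg {Q T : ℝ} (hQ : 1 ≤ Q) (hT : 3 ≤ T) : 0 ≤ LL Q T := by
  have h1 := Real.log_nonneg hQ
  have h2 := log_T_pos hT
  have h3 := loglog_pos hT
  unfold LL
  positivity

lemma LL_cube {Q T : ℝ} (hQ : 1 ≤ Q) (hT : 3 ≤ T) :
    (Real.log T)^2 * Real.log (Real.log T) ≤ (LL Q T)^3 := by
  have h1 := Real.log_nonneg hQ
  have h2 := log_T_pos hT
  have h3 := loglog_pos hT
  have h4 : (Real.log T) ^ (2/3 : ℝ) * (Real.log (Real.log T)) ^ (1/3 : ℝ) ≤ LL Q T := by
    unfold LL; linarith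
  have h5 : 0 ≤ (Real.log T) ^ (2/3 : ℝ) * (Real.log (Real.log T)) ^ (1/3 : ℝ) := by positivity
  have h6 := pow_le_pow_left₀ h5 h4 3
  refine le_trans (le_of_eq ?_) h6
  rw [mul_pow, ← Real.rpow_natCast, ← Real.rpow_natCast, ← Real.rpow_mul (by linarith),
    ← Real.rpow_natCast, ← Real.rpow_mul h3.le]
  norm_num

/-- case 2 of the parameter choice -/
lemma param_case2 {c₁ Cp A y M d w lT llT r : ℝ} (hc₁ : 0 < c₁) (hCp : 1 ≤ Cp)
    (hA : 1 ≤ A) (hy80 : 80 ≤ y) (hcy : c₁ * y = 40 * A) (hM10 : 10 ≤ M) (hd : 0 ≤ d)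
    (hlT : 0 < lT) (hll : 0 < llT) (hll' : llT = Real.log lT)
    (hMlT : M ≤ lT) (hCc2 : Real.log (2 * Cp / c₁) ≤ Real.log M)
    (hr : r = (M / lT)^2) (hdM : d ≤ r) (hllM : llT ≤ r * M) (hw : w = c₁ / 2 * y^2 * r) :
    2 * d ≤ w ∧ 0 < w ∧ (A * (y + 3) + 4) * d * M + A * Real.log M + Real.log (Cp / w) ≤ w * (y * M) := by
  have hM0 : 0 < M := by linarith
  have hy0 : 0 < y := by linarith
  have hr0 : 0 < r := by rw [hr]; positivity
  have hCc : 0 < 2 * Cp / c₁ := by positivity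
  have hlMll : Real.log M ≤ llT := by rw [hll']; exact Real.log_le_log hM0 hMlT
  have hlM0 : 0 ≤ Real.log M := Real.log_nonneg (by linarith)
  have e0 : c₁ * y^3 / 6 = A * (20 / 3 * (y * y)) := by
    have : c₁ * y^3 = 40 * A * y^2 := by rw [← hcy]; ring
    rw [this]; ring
  have hcy3 : A * (y + 3) + 4 ≤ c₁ * y^3 / 6 := by
    rw [e0]
    have h1 : y + 3 + 4 ≤ 20 / 3 * (y * y) := by nlinarith only [hy80]
    calc A * (y + 3) + 4 ≤ A * (y + 3) + 4 * A := by linarith
      _ = A * (y + 3 + 4) := by ring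
      _ ≤ _ := mul_le_mul_of_nonneg_left h1 (by linarith)
  have hAy : 83 * A ≤ A * (y + 3) := by
    rw [mul_comm]; exact mul_le_mul_of_nonneg_left (by linarith) (by linarith)
  have hcyA : A ≤ c₁ * y^3 / 6 := by linarith
  have hcy3' : 3 ≤ c₁ * y^3 / 6 := by linarith
  have hG0 : 0 < c₁ * y^3 / 6 := by positivity
  have hwpos : 0 < w := by rw [hw]; positivity
  refine ⟨?_, hwpos, ?_⟩
  · rw [hw]
    have h1 : 4 ≤ c₁ * y^2 := by
      have e : c₁ * y^2 = 40 * A * y := by rw [← hcy]; ring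
      rw [e]
      have : 1 ≤ A * y := one_le_mul_of_one_le_of_one_le hA (by linarith)
      linarith
    have h2 : 4 * r ≤ c₁ * y^2 * r := mul_le_mul_of_nonneg_right h1 hr0.le
    linarith
  · have h1 : w * (y * M) = c₁ * y^3 / 6 * (r * M) + c₁ * y^3 / 6 * (r * M) + c₁ * y^3 / 6 * (r * M) := by
      rw [hw]; ring
    rw [h1]
    have h2 : (A * (y + 3) + 4) * d * M ≤ c₁ * y^3 / 6 * (r * M) := by
      have h3 : (A * (y + 3) + 4) * d ≤ c₁ * y^3 / 6 * r :=
        mul_le_mul hcy3 hdM hd hG0.le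
      calc _ ≤ (c₁ * y^3 / 6 * r) * M := mul_le_mul_of_nonneg_right h3 hM0.le
        _ = _ := by ring
    have h4 : A * Real.log M ≤ c₁ * y^3 / 6 * (r * M) :=
      mul_le_mul hcyA (hlMll.trans hllM) hlM0 hG0.le
    have h5 : Real.log (Cp / w) ≤ c₁ * y^3 / 6 * (r * M) := by
      have e1 : Cp / w = (2 * Cp / c₁) * (lT^2 / (y^2 * M^2)) := by
        rw [hw, hr]; field_simp
      have hyM1 : 1 ≤ y * M := one_le_mul_of_one_le_of_one_le (by linarith) (by linarith)
      have e2 : Cp / w ≤ (2 * Cp / c₁) * lT^2 := by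
        rw [e1]
        refine mul_le_mul_of_nonneg_left ?_ hCc.le
        rw [div_le_iff₀ (by positivity)]
        have : 1 ≤ y^2 * M^2 := by
          rw [← mul_pow]; exact one_le_pow₀ hyM1
        exact le_mul_of_one_le_right (sq_nonneg _) this
      have e3 : Real.log (Cp / w) ≤ Real.log (2 * Cp / c₁) + 2 * llT := by
        refine (Real.log_le_log (by positivity) e2).trans (le_of_eq ?_)
        rw [Real.log_mul hCc.ne' (by positivity), Real.log_pow, hll']
        norm_num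
      have e4 : Real.log (Cp / w) ≤ 3 * llT := by linarith
      exact e4.trans (mul_le_mul hcy3' hllM hll.le hG0.le)
    linarith

/-- The numerical heart of `KE`: choice of parameters. -/
lemma param_bound {c₁ Cp A : ℝ} (hc₁ : 0 < c₁) (hc₁' : c₁ ≤ 1/2) (hCp : 1 ≤ Cp) (hA : 1 ≤ A)
    {y M₀ d₀ : ℝ} (hy : y = 40 * A / c₁) (hM₀ : M₀ = 2 * Cp / c₁ + 10)
    (hd₀ : d₀ = c₁ / 4 * y / (A * (y + 3) + 4))
    {Q T d M : ℝ} (hQ : 1 ≤ Q) (hT : 3 ≤ T) (hd : 0 ≤ d) (hdd : d ≤ d₀)
    (hM : M = MM M₀ Q T d) {w : ℝ} (hw : w = c₁ / 2 * min ((y * M/Real.log T)^2) 1) :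
    2 * d ≤ w ∧ 0 < w ∧ (A * (y + 3) + 4) * d * M + A * Real.log M + Real.log (Cp / w) ≤ w * (y * M) := by
  have hlT := log_T_pos hT
  have hll := loglog_pos hT
  have hLL := LL_nonneg hQ hT
  have hy0 : 0 < y := by rw [hy]; positivity
  have hyA : 80 * A ≤ y := by
    rw [hy, le_div_iff₀ hc₁]
    have : A * c₁ ≤ A * (1/2) := mul_le_mul_of_nonneg_left hc₁' (by linarith)
    linarith
  have hy80 : 80 ≤ y := by linarith
  have hsq : 0 ≤ Real.sqrt d * Real.log T := by positivity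
  have hCc : 0 < 2 * Cp / c₁ := by positivity
  have hMM0 : M₀ ≤ M := by rw [hM]; unfold MM; linarith
  have hM10 : 10 ≤ M := by linarith
  have hM0 : 0 < M := by linarith
  have hMCc : 2 * Cp / c₁ ≤ M := by linarith
  have hMsq : Real.sqrt d * Real.log T ≤ M := by
    rw [hM]; unfold MM; rw [hM₀]; linarith
  have hMLL : LL Q T ≤ M := by
    rw [hM]; unfold MM; rw [hM₀]; linarith
  have hcy : c₁ * y = 40 * A := by rw [hy]; field_simp
  have hlogCc2 : Real.log (2 * Cp / c₁) ≤ Real.log M := Real.log_le_log hCc hMCc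
  rcases le_total 1 ((y * M/Real.log T)^2) with h | h
  · -- case 1
    have hlMM : Real.log M ≤ M := (Real.log_le_sub_one_of_pos hM0).trans (by linarith)
    have hden : 0 < A * (y + 3) + 4 := by positivity
    have hd1 : (A * (y + 3) + 4) * d ≤ c₁ / 4 * y := by
      rw [hd₀, le_div_iff₀ hden] at hdd
      linarith
    have hlogCc : Real.log (2 * Cp / c₁) ≤ M := hlogCc2.trans hlMM
    have hdsmall : d ≤ c₁ / 4 := by
      have h1 : y ≤ A * (y + 3) + 4 := by
        have : 1 * (y + 3) ≤ A * (y + 3) := mul_le_mul_of_nonneg_right hA (by linarith)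
        linarith
      have h2 : y * d ≤ (A * (y + 3) + 4) * d := mul_le_mul_of_nonneg_right h1 hd
      have h3 : y * d ≤ y * (c₁ / 4) := by linarith
      exact le_of_mul_le_mul_left h3 hy0
    have hw' : w = c₁ / 2 := by rw [hw, min_eq_right h]; ring
    refine ⟨by rw [hw']; linarith, by rw [hw']; positivity, ?_⟩
    have h1 : Cp / w = 2 * Cp / c₁ := by rw [hw']; field_simp
    rw [h1, hw']
    have h2 : (A * (y + 3) + 4) * d * M ≤ c₁ / 4 * y * M := mul_le_mul_of_nonneg_right hd1 hM0.le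
    have h3 : c₁ / 2 * (y * M) = c₁ / 4 * y * M + 10 * (A * M) := by
      have e : c₁ / 2 * (y * M) = c₁ / 4 * y * M + (c₁ * y) / 4 * M := by ring
      rw [e, hcy]; ring
    rw [h3]
    have h4 : A * Real.log M ≤ A * M := mul_le_mul_of_nonneg_left hlMM (by linarith)
    have h5 : 1 * M ≤ A * M := mul_le_mul_of_nonneg_right hA hM0.le
    linarith
  · -- case 2
    have hlT0 : 0 < Real.log T := by linarith
    have hw'' : w = c₁ / 2 * y^2 * (M/Real.log T)^2 := by rw [hw, min_eq_left h]; ring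
    have hyM : y * M ≤ Real.log T := by
      have h1 : |y * M / Real.log T| ≤ 1 := by
        rw [← sq_le_one_iff_abs_le_one]; exact h
      have h2 := (abs_le.1 h1).2
      rwa [div_le_one hlT0] at h2
    have hMlT : M ≤ Real.log T :=
      (le_mul_of_one_le_left hM0.le (by linarith)).trans hyM
    have hdM : d ≤ (M / Real.log T)^2 := by
      have h1 : Real.sqrt d ≤ M / Real.log T := by rw [le_div_iff₀ hlT0]; exact hMsq
      have h2 := pow_le_pow_left₀ (Real.sqrt_nonneg d) h1 2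
      rwa [Real.sq_sqrt hd] at h2
    have hllM : Real.log (Real.log T) ≤ (M / Real.log T)^2 * M := by
      have h1 := LL_cube hQ hT
      have h2 := pow_le_pow_left₀ hLL hMLL 3
      have h3 : Real.log (Real.log T) ≤ M^3 / (Real.log T)^2 := by
        rw [le_div_iff₀ (by positivity)]; linarith
      calc _ ≤ M^3 / (Real.log T)^2 := h3
        _ = _ := by ring
    exact param_case2 hc₁ hCp hA hy80 hcy hM10 hd hlT0 hll rfl hMlT hlogCc2 rfl hdM hllM hw''

end Vale.Agent.P026.H392
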