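import Vale.Agent.P026.H392.Tail

open Complex Set Filter Topology MeasureTheory intervalIntegral

namespace Vale.Agent.P026.H392

lemma pw_mul {s : ℂ} {x y : ℝ} (hx : 0 < x) (hy : 0 < y) : pw s (x * y) = pw s x * pw s y := by
  rw [pw, pw, pw]
  push_cast
  rw [Complex.mul_cpow_ofReal_nonneg hx.le hy.le]

/-- substitution -/
lemma integral_pw_scale {s : ℂ} {q x y : ℝ} (hq : 0 < q) (hx : 0 < x) (hy : 0 < y) :
    pw s q * ∫ u in x..y, pw s u = (1 / q) * ∫ v in (q * x)..(q * y), pw s v := by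
  have h1 : ∫ u in x..y, pw s (q * u) = q⁻¹ • ∫ v in (q * x)..(q * y), pw s v :=
    intervalIntegral.integral_comp_mul_left (fun v => pw s v) hq.ne'
  have h2 : ∫ u in x..y, pw s (q * u) = ∫ u in x..y, pw s q * pw s u := by
    apply intervalIntegral.integral_congr
    intro u hu
    have hu0 : 0 < u := lt_of_lt_of_le (lt_min hx hy) hu.1
    exact pw_mul hq hu0
  rw [intervalIntegral.integral_const_mul] at h2
  rw [← h2, h1]
  simp

/-- trivial bound of an integral -/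
lemma norm_integral_pw_trivial {s : ℂ} (hs : 0 ≤ s.re) {x y z : ℝ} (hz : 0 < z) (hx : z ≤ x)
    (hxy : x ≤ y) : ‖∫ u in x..y, pw s u‖ ≤ z ^ (-s.re) * (y - x) := by
  have := intervalIntegral.norm_integral_le_of_norm_le_const (a := x) (b := y)
    (f := fun u => pw s u) (C := z ^ (-s.re)) (by
      intro u hu
      rw [uIoc_of_le hxy] at hu
      have hu0 : 0 < u := by linarith [hu.1]
      rw [norm_pw hu0]
      exact Real.rpow_le_rpow_of_nonpos hz (by linarith [hu.1]) (by linarith))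
  rwa [abs_of_nonneg (by linarith)] at this

lemma norm_sum_pw_trivial {s : ℂ} (hs : 0 ≤ s.re) {ψ : ℕ → ℂ} (hψ : ∀ n, ‖ψ n‖ ≤ 1)
    {z : ℝ} (hz : 0 < z) {M M' : ℕ} (hM : z ≤ M) (h : M ≤ M') :
    ‖∑ n ∈ Finset.Ioc M M', ψ n * pw s n‖ ≤ z ^ (-s.re) * ((M' : ℝ) - M) := by
  calc _ ≤ ∑ n ∈ Finset.Ioc M M', ‖ψ n * pw s n‖ := norm_sum_le _ _
    _ ≤ ∑ n ∈ Finset.Ioc M M', z ^ (-s.re) := by
        refine Finset.sum_le_sum fun n hn => ?_
        have h1 : (M:ℝ) < n := by exact_mod_cast (Finset.mem_Ioc.1 hn).1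
        have hn0 : (0:ℝ) < n := by linarith
        rw [norm_mul, norm_pw hn0]
        have h2 : (n:ℝ) ^ (-s.re) ≤ z ^ (-s.re) :=
          Real.rpow_le_rpow_of_nonpos hz (by linarith) (by linarith)
        have h3 : 0 ≤ (n:ℝ) ^ (-s.re) := by positivity
        calc ‖ψ n‖ * (n:ℝ) ^ (-s.re) ≤ 1 * (n:ℝ) ^ (-s.re) :=
              mul_le_mul_of_nonneg_right (hψ n) h3
          _ ≤ _ := by linarith
    _ = _ := by
        rw [Finset.sum_const, Nat.card_Ioc, nsmul_eq_mul, Nat.cast_sub h]; ring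

/-- The mean of a `q`-periodic function. -/
noncomputable def mean (q : ℕ) (ψ : ℕ → ℂ) : ℂ := (∑ a ∈ Finset.range q, ψ a) / q

lemma norm_mean_le {q : ℕ} (hq : 0 < q) {ψ : ℕ → ℂ} (hψ : ∀ n, ‖ψ n‖ ≤ 1) : ‖mean q ψ‖ ≤ 1 := by
  have hq' : (0:ℝ) < q := by exact_mod_cast hq
  rw [mean, norm_div, Complex.norm_natCast, div_le_one hq']
  calc _ ≤ ∑ a ∈ Finset.range q, ‖ψ a‖ := norm_sum_le _ _
    _ ≤ ∑ a ∈ Finset.range q, (1:ℝ) := Finset.sum_le_sum fun n _ => hψ n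
    _ = q := by simp

lemma sum_Icc_eq_mean {q : ℕ} (hq : 0 < q) {ψ : ℕ → ℂ} (hper : ∀ n, ψ (n + q) = ψ n) :
    ∑ a ∈ Finset.Icc 1 q, ψ a = q * mean q ψ := by
  have hq' : (q:ℂ) ≠ 0 := by exact_mod_cast hq.ne'
  rw [mean, mul_div_cancel₀ _ hq']
  have h1 : ∑ a ∈ Finset.Icc 1 q, ψ a = ∑ a ∈ Finset.range q, ψ (a + 1) := by
    rw [Finset.range_eq_Ico, Finset.sum_Ico_add' (fun a => ψ a) 0 q 1]
    rfl
  have h2 : ∑ a ∈ Finset.range q, ψ (a + 1) + ψ 0 = ∑ a ∈ Finset.range q, ψ a + ψ q :=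
    (Finset.sum_range_succ' ψ q).symm.trans (Finset.sum_range_succ ψ q)
  have h3 : ψ q = ψ 0 := by simpa using hper 0
  rw [h1]
  rw [h3] at h2
  exact add_right_cancel h2

lemma sum_Ioc_shift (f : ℕ → ℂ) (A q : ℕ) :
    ∑ n ∈ Finset.Ioc A (A + q), f n = ∑ a ∈ Finset.Icc 1 q, f (A + a) := by
  have h := Finset.sum_Ico_add (fun n => f n) 1 (q+1) A
  have e1 : Finset.Ico (1 + A) (q + 1 + A) = Finset.Ioc A (A + q) := by
    ext x; simp only [Finset.mem_Ico, Finset.mem_Ioc]; omega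
  have e2 : Finset.Ico 1 (q+1) = Finset.Icc 1 q := by
    ext x; simp only [Finset.mem_Ico, Finset.mem_Icc]; omega
  rw [e1, e2] at h
  exact h.symm

lemma sum_residues (f : ℕ → ℂ) (q : ℕ) {M M' : ℕ} (h : M ≤ M') :
    ∑ n ∈ Finset.Ioc (q * M) (q * M'), f n
      = ∑ a ∈ Finset.Icc 1 q, ∑ m ∈ Finset.Ico M M', f (q * m + a) := by
  induction M', h using Nat.le_induction with
  | base => simp
  | succ K hK ih =>
    have h1 : q * M ≤ q * K := Nat.mul_le_mul_left q hK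
    have h2 : q * K ≤ q * (K + 1) := Nat.mul_le_mul_left q (by omega)
    rw [← Finset.sum_Ioc_consecutive f h1 h2, ih, show q * (K+1) = q * K + q by ring,
      sum_Ioc_shift]
    rw [← Finset.sum_add_distrib]
    refine Finset.sum_congr rfl fun a _ => ?_
    rw [Finset.sum_Ico_succ_top hK]

/-- Bound over complete multiples of `q`, from bounds for each residue class. -/
lemma per_mult_gen {s : ℂ} (hs : 1/2 ≤ s.re)
    {q : ℕ} (hq : 0 < q) {ψ : ℕ → ℂ} (hψ : ∀ n, ‖ψ n‖ ≤ 1) (hper : ∀ n, ψ (n + q) = ψ n)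
    {M M' : ℕ} (hM : 1 ≤ M) (h : M ≤ M') {B w : ℝ} (hws : w ≤ s.re)
    (hTB : ∀ a : ℝ, 0 ≤ a → a ≤ 1 →
      ‖(∑ n ∈ Finset.Ioc M M', pw s (n + a)) - ∫ u in ((M:ℝ) + a)..((M':ℝ) + a), pw s u‖
        ≤ B * (M:ℝ) ^ (-w)) :
    ‖(∑ n ∈ Finset.Ioc (q * (M+1)) (q * (M'+1)), ψ n * pw s n)
        - mean q ψ * ∫ u in ((q * (M+1) : ℕ):ℝ)..((q * (M'+1) : ℕ):ℝ), pw s u‖
      ≤ (q:ℝ) ^ (1 - s.re) * (B + 2) * (M:ℝ) ^ (-w) := by
  have hq0 : (0:ℝ) < q := by exact_mod_cast hq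
  have hM0 : (0:ℝ) < M := by exact_mod_cast hM
  have hM1 : (1:ℝ) ≤ M := by exact_mod_cast hM
  have hMM : (M:ℝ) ≤ M' := by exact_mod_cast h
  have hqC : (q:ℂ) ≠ 0 := by exact_mod_cast hq.ne'
  have hψper : ∀ m a : ℕ, ψ (q * m + a) = ψ a := by
    intro m a
    induction m with
    | zero => simp
    | succ m ih => rw [show q * (m+1) + a = (q * m + a) + q by ring, hper, ih]
  set J : ℂ := ∫ u in ((q * (M+1) : ℕ):ℝ)..((q * (M'+1) : ℕ):ℝ), pw s u with hJ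
  -- rewrite the sum
  have hsum : ∑ n ∈ Finset.Ioc (q * (M+1)) (q * (M'+1)), ψ n * pw s n
      = ∑ a ∈ Finset.Icc 1 q, ψ a * (pw s q * ∑ m ∈ Finset.Ioc M M', pw s (m + (a:ℝ)/q)) := by
    rw [sum_residues _ q (by omega : M + 1 ≤ M' + 1)]
    refine Finset.sum_congr rfl fun a ha => ?_
    rw [Finset.mul_sum, Finset.mul_sum]
    have e : Finset.Ico (M+1) (M'+1) = Finset.Ioc M M' := by
      ext x; simp only [Finset.mem_Ico, Finset.mem_Ioc]; omega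
    rw [e]
    refine Finset.sum_congr rfl fun m hm => ?_
    have hm0 : (0:ℝ) < m := by exact_mod_cast (by have := (Finset.mem_Ioc.1 hm).1; omega : 0 < m)
    rw [hψper, ← pw_mul hq0 (by positivity)]
    congr 2
    push_cast
    field_simp
  have hmean : mean q ψ * J = ∑ a ∈ Finset.Icc 1 q, ψ a * ((1 / q) * J) := by
    rw [← Finset.sum_mul, sum_Icc_eq_mean hq hper]
    field_simp
  rw [hsum, hmean, ← Finset.sum_sub_distrib]
  have hterm : ∀ a ∈ Finset.Icc 1 q,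
      ‖ψ a * (pw s q * ∑ m ∈ Finset.Ioc M M', pw s (m + (a:ℝ)/q)) - ψ a * ((1 / q) * J)‖
        ≤ (q:ℝ) ^ (-s.re) * (B + 2) * (M:ℝ) ^ (-w) := by
    intro a ha
    rw [Finset.mem_Icc] at ha
    have ha1 : (1:ℝ) ≤ a := by exact_mod_cast ha.1
    have haq : (a:ℝ) ≤ q := by exact_mod_cast ha.2
    have haq1 : (a:ℝ)/q ≤ 1 := by rw [div_le_one hq0]; exact haq
    have haq0 : 0 < (a:ℝ)/q := by positivity
    have hT1 := hTB ((a:ℝ)/q) haq0.le haq1
    -- change of variables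
    have hsc := integral_pw_scale (s := s) hq0 (x := (M:ℝ) + a/q) (y := (M':ℝ) + a/q)
      (by positivity) (by positivity)
    have e1 : (q:ℝ) * ((M:ℝ) + a/q) = q * M + a := by field_simp
    have e2 : (q:ℝ) * ((M':ℝ) + a/q) = q * M' + a := by field_simp
    rw [e1, e2] at hsc
    -- difference of integrals
    have hqM : (0:ℝ) < q * M := by positivity
    have hqM' : (0:ℝ) < q * M' := by
      have : (0:ℝ) < M' := lt_of_lt_of_le hM0 hMM
      positivity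
    have hle : (q:ℝ) * M ≤ q * M' := by gcongr
    have i1 : IntervalIntegrable (pw s) volume ((q:ℝ) * M + a) ((q * (M+1) : ℕ):ℝ) := by
      apply intervalIntegrable_pw
      · linarith
      · push_cast; nlinarith
    have i2 : IntervalIntegrable (pw s) volume ((q * (M+1) : ℕ):ℝ) ((q:ℝ) * M' + a) := by
      apply intervalIntegrable_pw
      · push_cast; nlinarith
      · linarith
    have i3 : IntervalIntegrable (pw s) volume ((q:ℝ) * M' + a) ((q * (M'+1) : ℕ):ℝ) := by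
      apply intervalIntegrable_pw
      · linarith
      · push_cast; nlinarith
    have hdiff : (∫ v in ((q:ℝ) * M + a)..((q:ℝ) * M' + a), pw s v) - J
        = (∫ v in ((q:ℝ) * M + a)..((q * (M+1) : ℕ):ℝ), pw s v)
          - ∫ v in ((q:ℝ) * M' + a)..((q * (M'+1) : ℕ):ℝ), pw s v := by
      have a1 := intervalIntegral.integral_add_adjacent_intervals i1 i2
      have a2 := intervalIntegral.integral_add_adjacent_intervals i2 i3
      rw [hJ, ← a1, ← a2]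
      ring
    have b1 : ‖∫ v in ((q:ℝ) * M + a)..((q * (M+1) : ℕ):ℝ), pw s v‖ ≤ ((q:ℝ) * M) ^ (-s.re) * q := by
      refine (norm_integral_pw_trivial (by linarith) hqM (by linarith) ?_).trans ?_
      · push_cast; nlinarith
      · apply mul_le_mul_of_nonneg_left _ (by positivity)
        push_cast; nlinarith
    have b2 : ‖∫ v in ((q:ℝ) * M' + a)..((q * (M'+1) : ℕ):ℝ), pw s v‖ ≤ ((q:ℝ) * M) ^ (-s.re) * q := by
      refine (norm_integral_pw_trivial (z := (q:ℝ) * M) (by linarith) hqM (by linarith) ?_).trans ?_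
      · push_cast; nlinarith
      · apply mul_le_mul_of_nonneg_left _ (by positivity)
        push_cast; nlinarith
    have b3 : ‖(∫ v in ((q:ℝ) * M + a)..((q:ℝ) * M' + a), pw s v) - J‖ ≤ 2 * ((q:ℝ) * M) ^ (-s.re) * q := by
      rw [hdiff]
      refine (norm_sub_le _ _).trans ?_
      linarith
    have hkey : pw s q * (∑ m ∈ Finset.Ioc M M', pw s (m + (a:ℝ)/q)) - (1 / q) * J
        = pw s q * ((∑ m ∈ Finset.Ioc M M', pw s (m + (a:ℝ)/q))
            - ∫ u in ((M:ℝ) + (a:ℝ)/q)..((M':ℝ) + (a:ℝ)/q), pw s u)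
          + (1 / q) * ((∫ v in ((q:ℝ) * M + a)..((q:ℝ) * M' + a), pw s v) - J) := by
      rw [mul_sub, hsc]; push_cast; ring
    rw [← mul_sub, norm_mul, hkey]
    have hpq : ‖pw s q‖ = (q:ℝ) ^ (-s.re) := norm_pw hq0
    have hMw : (M:ℝ) ^ (-s.re) ≤ (M:ℝ) ^ (-w) :=
      Real.rpow_le_rpow_of_exponent_le hM1 (by linarith)
    have hq1 : ‖(1 / (q:ℂ))‖ = 1 / q := by simp
    calc ‖ψ a‖ * ‖_‖ ≤ 1 * ‖_‖ := mul_le_mul_of_nonneg_right (hψ a) (norm_nonneg _)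
      _ ≤ ‖pw s q * ((∑ m ∈ Finset.Ioc M M', pw s (m + (a:ℝ)/q))
            - ∫ u in ((M:ℝ) + (a:ℝ)/q)..((M':ℝ) + (a:ℝ)/q), pw s u)‖
          + ‖(1 / (q:ℂ)) * ((∫ v in ((q:ℝ) * M + a)..((q:ℝ) * M' + a), pw s v) - J)‖ := by
          rw [one_mul]; exact norm_add_le _ _
      _ ≤ (q:ℝ) ^ (-s.re) * (B * (M:ℝ) ^ (-w))
          + (1 / q) * (2 * ((q:ℝ) * M) ^ (-s.re) * q) := by
          rw [norm_mul, norm_mul, hpq, hq1]
          gcongr
      _ = (q:ℝ) ^ (-s.re) * (B * (M:ℝ) ^ (-w)) + 2 * ((q:ℝ) ^ (-s.re) * (M:ℝ) ^ (-s.re)) := by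
          rw [Real.mul_rpow hq0.le hM0.le]; field_simp
      _ ≤ (q:ℝ) ^ (-s.re) * (B * (M:ℝ) ^ (-w)) + 2 * ((q:ℝ) ^ (-s.re) * (M:ℝ) ^ (-w)) := by
          gcongr
      _ = _ := by ring
  calc _ ≤ ∑ a ∈ Finset.Icc 1 q, ‖_‖ := norm_sum_le _ _
    _ ≤ ∑ a ∈ Finset.Icc 1 q, (q:ℝ) ^ (-s.re) * (B + 2) * (M:ℝ) ^ (-w) :=
        Finset.sum_le_sum hterm
    _ = (q * (q:ℝ) ^ (-s.re)) * (B + 2) * (M:ℝ) ^ (-w) := by
        rw [Finset.sum_const, Nat.card_Icc, nsmul_eq_mul]; simp; ring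
    _ = _ := by
        congr 2
        rw [sub_eq_add_neg, add_comm, Real.rpow_add_one hq0.ne']; ring

/-- Bound over complete multiples of `q`. -/
lemma per_mult {C c : ℝ} (hC : 0 < C) (hc : 0 < c) (hVK : VKSum C c) {T : ℝ} (hT : 3 ≤ T)
    {s : ℂ} (hs : 1/2 ≤ s.re) (hs2 : s.re ≤ 2) (him : |s.im| ≤ 4 * T)
    {v₀ : ℝ} (hv : 0 < v₀) (hsw : 1 - s.re ≤ wOne c T v₀)
    {q : ℕ} (hq : 0 < q) {ψ : ℕ → ℂ} (hψ : ∀ n, ‖ψ n‖ ≤ 1) (hper : ∀ n, ψ (n + q) = ψ n)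
    {M M' : ℕ} (hM : 1 ≤ M) (hMv : v₀ ≤ Real.log M) (h : M ≤ M') :
    ‖(∑ n ∈ Finset.Ioc (q * (M+1)) (q * (M'+1)), ψ n * pw s n)
        - mean q ψ * ∫ u in ((q * (M+1) : ℕ):ℝ)..((q * (M'+1) : ℕ):ℝ), pw s u‖
      ≤ (q:ℝ) ^ (1 - s.re) * (2 * (C + 20) / wOne c T v₀ + 2) * (M:ℝ) ^ (-wOne c T v₀) := by
  have hw1 : wOne c T v₀ ≤ 1/4 := wOne_le hc
  exact per_mult_gen hs hq hψ hper hM h (by linarith) (fun a ha ha1 =>
    tail_bound hC hc hVK hT hs hs2 him ha ha1 hv hsw hM hMv h)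

end Vale.Agent.P026.H392
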