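import Mathlib

open Finset ArithmeticFunction
open scoped ArithmeticFunction.Moebius BigOperators

namespace Vale.Agent.P026.H392

/-- The sieve problem with density `nu` and all primes up to `N` (empty support). -/
noncomputable def bsv (nu : ArithmeticFunction ℝ) (hm : nu.IsMultiplicative)
    (hp : ∀ p : ℕ, p.Prime → 0 < nu p) (hp1 : ∀ p : ℕ, p.Prime → nu p < 1) (N : ℕ) : BoundingSieve where
  support := ∅
  prodPrimes := primorial N
  prodPrimes_squarefree := by
    unfold primorial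
    refine Finset.squarefree_prod_of_pairwise_isCoprime ?_ ?_
    · intro a ha b hb hab
      simp only [Finset.coe_filter, Finset.mem_range, Set.mem_ofPred_eq] at ha hb
      exact Nat.coprime_iff_isRelPrime.1 ((Nat.coprime_primes ha.2 hb.2).2 hab)
    · intro a ha
      exact (Finset.mem_filter.1 ha).2.squarefree
  weights := 0
  weights_nonneg := fun _ => le_rfl
  totalMass := 0
  nu := nu
  nu_mult := hm
  nu_pos_of_prime := fun p h _ => hp p h
  nu_lt_one_of_prime := fun p h _ => hp1 p h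

/-- Selberg's `g`. -/
noncomputable def gS (nu : ArithmeticFunction ℝ) (m : ℕ) : ℝ :=
  nu m * ∏ p ∈ m.primeFactors, (1 - nu p)⁻¹

/-- Selberg's `G`. -/
noncomputable def GS (nu : ArithmeticFunction ℝ) (N : ℕ) : ℝ :=
  ∑ m ∈ (Icc 1 N).filter Squarefree, gS nu m

lemma squarefree_dvd_primorial {N m : ℕ} (hm : Squarefree m) (hN : m ≤ N) : m ∣ primorial N := by
  have h0 : m ≠ 0 := hm.ne_zero
  rw [← Nat.prod_primeFactors_of_squarefree hm]
  unfold primorial
  refine Finset.prod_dvd_prod_of_subset _ _ _ ?_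
  intro p hp
  rw [Finset.mem_filter, Finset.mem_range]
  refine ⟨?_, Nat.prime_of_mem_primeFactors hp⟩
  have := Nat.le_of_mem_primeFactors hp
  omega

lemma divisors_filter_eq (nu : ArithmeticFunction ℝ) (hm : nu.IsMultiplicative)
    (hp : ∀ p : ℕ, p.Prime → 0 < nu p) (hp1 : ∀ p : ℕ, p.Prime → nu p < 1) (N : ℕ) :
    ((bsv nu hm hp hp1 N).prodPrimes.divisors.filter (fun m => m ≤ N)) = (Icc 1 N).filter Squarefree := by
  ext m
  simp only [Finset.mem_filter, Nat.mem_divisors, Finset.mem_Icc]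
  constructor
  · rintro ⟨⟨h1, h2⟩, h3⟩
    have hsq : Squarefree m := (bsv nu hm hp hp1 N).prodPrimes_squarefree.squarefree_of_dvd h1
    exact ⟨⟨Nat.pos_of_ne_zero hsq.ne_zero, h3⟩, hsq⟩
  · rintro ⟨⟨h1, h2⟩, h3⟩
    exact ⟨⟨squarefree_dvd_primorial h3 h2, BoundingSieve.prodPrimes_ne_zero⟩, h2⟩

section
variable (nu : ArithmeticFunction ℝ) (hm : nu.IsMultiplicative)
    (hp : ∀ p : ℕ, p.Prime → 0 < nu p) (hp1 : ∀ p : ℕ, p.Prime → nu p < 1) (N : ℕ)

/-- Selberg's weights. -/
noncomputable def wS (d : ℕ) : ℝ :=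
  if d ∣ primorial N then
    (nu d)⁻¹ * ((μ d : ℝ) / GS nu N) *
      ∑ l ∈ ((Icc 1 N).filter Squarefree).filter (fun l => d ∣ l), gS nu l
  else 0

include hm hp hp1 in
lemma gS_eq (m : ℕ) : gS nu m = (bsv nu hm hp hp1 N).selbergTerms m := by
  rw [BoundingSieve.selbergTerms_apply]; rfl

include hm hp hp1 in
lemma gS_nonneg {m : ℕ} (h : Squarefree m) : 0 < gS nu m := by
  rw [gS_eq nu hm hp hp1 m]
  exact BoundingSieve.selbergTerms_pos (squarefree_dvd_primorial h le_rfl)

include hm hp hp1 in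
lemma GS_pos (hN : 1 ≤ N) : 1 ≤ GS nu N := by
  unfold GS
  have h1 : gS nu 1 = 1 := by simp [gS, hm.map_one]
  calc (1:ℝ) = ∑ m ∈ {1}, gS nu m := by rw [Finset.sum_singleton, h1]
    _ ≤ _ := by
      refine Finset.sum_le_sum_of_subset_of_nonneg ?_ ?_
      · intro x hx
        rw [Finset.mem_singleton] at hx
        subst hx
        simp [hN]
      · intro i hi _
        exact (gS_nonneg nu hm hp hp1 (Finset.mem_filter.1 hi).2).le

include hm in
lemma wS_one (hG : GS nu N ≠ 0) : wS nu N 1 = 1 := by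
  unfold wS
  rw [if_pos (one_dvd _), hm.map_one]
  simp only [ArithmeticFunction.moebius_apply_one, Int.cast_one, inv_one, one_mul, one_dvd,
    Finset.filter_true]
  unfold GS at hG ⊢
  field_simp

lemma wS_supp {d : ℕ} (h : wS nu N d ≠ 0) : Squarefree d ∧ d ≤ N := by
  unfold wS at h
  have hd : d ∣ primorial N := by
    by_contra hc
    rw [if_neg hc] at h
    exact h rfl
  rw [if_pos hd] at h
  have h2 : ∑ l ∈ ((Icc 1 N).filter Squarefree).filter (fun l => d ∣ l), gS nu l ≠ 0 := right_ne_zero_of_mul h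
  obtain ⟨l, hl, _⟩ := Finset.exists_ne_zero_of_sum_ne_zero h2
  simp only [Finset.mem_filter, Finset.mem_Icc] at hl
  exact ⟨hl.1.2.squarefree_of_dvd hl.2, (Nat.le_of_dvd (by omega) hl.2).trans hl.1.1.2⟩

include hm hp hp1 in
/-- `∑_{l | d} nu(d) w(d)`. -/
lemma sum_nu_wS {l : ℕ} (hl : l ∣ primorial N) :
    (∑ d ∈ (primorial N).divisors, if l ∣ d then nu d * wS nu N d else 0)
      = if l ≤ N then (μ l : ℝ) * gS nu l / GS nu N else 0 := by
  classical
  have hP : Squarefree (primorial N) := (bsv nu hm hp hp1 N).prodPrimes_squarefree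
  have hP0 : primorial N ≠ 0 := hP.ne_zero
  have hnu : ∀ d, d ∣ primorial N → nu d ≠ 0 := fun d hd =>
    BoundingSieve.nu_ne_zero (s := bsv nu hm hp hp1 N) hd
  have h1 : ∀ d ∈ (primorial N).divisors, (if l ∣ d then nu d * wS nu N d else 0)
      = ∑ m ∈ (Icc 1 N).filter Squarefree, if (l ∣ d ∧ d ∣ m) then (μ d : ℝ) * (gS nu m / GS nu N) else 0 := by
    intro d hd
    have hd' : d ∣ primorial N := Nat.dvd_of_mem_divisors hd
    split_ifs with h
    · unfold wS
      rw [if_pos hd', Finset.sum_filter, mul_assoc, mul_inv_cancel_left₀ (hnu d hd'), Finset.mul_sum]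
      refine Finset.sum_congr rfl fun m _ => ?_
      by_cases hdm : d ∣ m
      · rw [if_pos hdm, if_pos ⟨h, hdm⟩]; ring
      · rw [if_neg hdm, if_neg (fun h => hdm h.2)]; ring
    · rw [Finset.sum_eq_zero]
      intro m _
      rw [if_neg (fun h' => h h'.1)]
  rw [Finset.sum_congr rfl h1, Finset.sum_comm]
  have h2 : ∀ m ∈ (Icc 1 N).filter Squarefree,
      (∑ d ∈ (primorial N).divisors, if (l ∣ d ∧ d ∣ m) then (μ d : ℝ) * (gS nu m / GS nu N) else 0)
        = if m = l then (μ l : ℝ) * (gS nu l / GS nu N) else 0 := by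
    intro m hm'
    simp only [Finset.mem_filter, Finset.mem_Icc] at hm'
    have hmP : m ∣ primorial N := squarefree_dvd_primorial hm'.2 hm'.1.2
    have hm0 : m ≠ 0 := by omega
    by_cases hlm : l ∣ m
    · obtain ⟨k, rfl⟩ := hlm
      have hk0 : k ≠ 0 := right_ne_zero_of_mul hm0
      have hl0 : l ≠ 0 := left_ne_zero_of_mul hm0
      have hcop : Nat.Coprime l k := Nat.coprime_of_squarefree_mul hm'.2
      -- d = l * e, e | k
      have h3 : (∑ d ∈ (primorial N).divisors, if (l ∣ d ∧ d ∣ l * k) then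
          (μ d : ℝ) * (gS nu (l * k) / GS nu N) else 0)
          = ∑ e ∈ k.divisors, (μ (l * e) : ℝ) * (gS nu (l * k) / GS nu N) := by
        rw [← Finset.sum_filter]
        symm
        refine Finset.sum_nbij (fun e => l * e) ?_ ?_ ?_ ?_
        · intro e he
          have he' := Nat.dvd_of_mem_divisors he
          simp only [Finset.mem_filter, Nat.mem_divisors]
          exact ⟨⟨(Nat.mul_dvd_mul_left l he').trans hmP, hP0⟩, Dvd.intro _ rfl, Nat.mul_dvd_mul_left l he'⟩
        · intro a _ b _ hab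
          exact Nat.eq_of_mul_eq_mul_left (Nat.pos_of_ne_zero hl0) hab
        · intro d hd
          simp only [Finset.coe_filter, Nat.mem_divisors, Set.mem_ofPred_eq] at hd
          obtain ⟨⟨_, _⟩, ⟨e, rfl⟩, h5⟩ := hd
          refine ⟨e, ?_, rfl⟩
          simp only [Finset.mem_coe, Nat.mem_divisors]
          exact ⟨(Nat.mul_dvd_mul_iff_left (Nat.pos_of_ne_zero hl0)).1 h5, hk0⟩
        · intro e _; rfl
      rw [h3]
      have h4 : ∀ e ∈ k.divisors, (μ (l * e) : ℝ) * (gS nu (l * k) / GS nu N)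
          = (μ e : ℝ) * ((μ l : ℝ) * (gS nu (l * k) / GS nu N)) := by
        intro e he
        have he' := Nat.dvd_of_mem_divisors he
        rw [ArithmeticFunction.isMultiplicative_moebius.map_mul_of_coprime
          (Nat.Coprime.coprime_dvd_right he' hcop)]
        push_cast; ring
      rw [Finset.sum_congr rfl h4, ← Finset.sum_mul]
      have h5 : (∑ e ∈ k.divisors, (μ e : ℝ)) = if k = 1 then 1 else 0 := by
        have h6 : (∑ e ∈ k.divisors, μ e) = if k = 1 then 1 else 0 := by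
          rw [← ArithmeticFunction.coe_mul_zeta_apply, ArithmeticFunction.moebius_mul_coe_zeta,
            ArithmeticFunction.one_apply]
        calc (∑ e ∈ k.divisors, (μ e : ℝ)) = ((∑ e ∈ k.divisors, μ e : ℤ) : ℝ) := by push_cast; rfl
          _ = _ := by rw [h6]; split_ifs <;> simp
      rw [h5]
      by_cases hk1 : k = 1
      · subst hk1; simp
      · rw [if_neg hk1, zero_mul, if_neg]
        intro h
        exact hk1 (Nat.eq_of_mul_eq_mul_left (Nat.pos_of_ne_zero hl0) (by rw [h, mul_one]))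
    · rw [Finset.sum_eq_zero, if_neg]
      · rintro rfl; exact hlm dvd_rfl
      · intro d _
        rw [if_neg]
        rintro ⟨h5, h6⟩
        exact hlm (h5.trans h6)
  rw [Finset.sum_congr rfl h2, Finset.sum_ite_eq']
  have hlsq : Squarefree l := hP.squarefree_of_dvd hl
  by_cases hlN : l ≤ N
  · rw [if_pos hlN, if_pos]
    · ring
    · simp only [Finset.mem_filter, Finset.mem_Icc]
      exact ⟨⟨Nat.pos_of_ne_zero hlsq.ne_zero, hlN⟩, hlsq⟩
  · rw [if_neg hlN, if_neg]
    simp only [Finset.mem_filter, Finset.mem_Icc]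
    rintro ⟨⟨_, h⟩, _⟩
    exact hlN h

include hm hp hp1 in
/-- The value of the quadratic form. -/
lemma quad_wS (hN : 1 ≤ N) :
    ∑ d ∈ (primorial N).divisors, ∑ e ∈ (primorial N).divisors,
      wS nu N d * wS nu N e * nu (Nat.lcm d e) = 1 / GS nu N := by
  classical
  have hG := GS_pos nu hm hp hp1 N hN
  have h1 := BoundingSieve.mainSum_lambdaSquared_eq_sum_sum_mul (s := bsv nu hm hp hp1 N) (wS nu N)
  have h2 := BoundingSieve.mainSum_lambdaSquared_eq_sum_mul_sum_sq (s := bsv nu hm hp hp1 N) (wS nu N)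
  have h3 : ∑ d ∈ (primorial N).divisors, ∑ e ∈ (primorial N).divisors,
      wS nu N d * wS nu N e * nu (Nat.lcm d e)
      = (bsv nu hm hp hp1 N).mainSum (BoundingSieve.lambdaSquared (wS nu N)) := by
    rw [h1]
    refine Finset.sum_congr rfl fun d hd => Finset.sum_congr rfl fun e he => ?_
    have hd' : d ∣ (bsv nu hm hp hp1 N).prodPrimes := Nat.dvd_of_mem_divisors hd
    have hgcd : nu (d.gcd e) ≠ 0 :=
      BoundingSieve.nu_ne_zero (s := bsv nu hm hp hp1 N) ((Nat.gcd_dvd_left d e).trans hd')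
    change wS nu N d * wS nu N e * nu (Nat.lcm d e) = nu d * wS nu N d * nu e * wS nu N e * (nu (d.gcd e))⁻¹
    rw [hm.map_lcm hgcd]
    field_simp
  rw [h3, h2]
  have h4 : ∀ l ∈ (bsv nu hm hp hp1 N).prodPrimes.divisors,
      ((bsv nu hm hp hp1 N).selbergTerms l)⁻¹ *
        (∑ d ∈ (bsv nu hm hp hp1 N).prodPrimes.divisors,
          if l ∣ d then (bsv nu hm hp hp1 N).nu d * wS nu N d else 0) ^ 2
      = if l ≤ N then gS nu l / (GS nu N)^2 else 0 := by
    intro l hl
    have hl' : l ∣ primorial N := Nat.dvd_of_mem_divisors hl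
    have h5 := sum_nu_wS nu hm hp hp1 N hl'
    have h6 : (∑ d ∈ (bsv nu hm hp hp1 N).prodPrimes.divisors,
          if l ∣ d then (bsv nu hm hp hp1 N).nu d * wS nu N d else 0)
        = if l ≤ N then (μ l : ℝ) * gS nu l / GS nu N else 0 := h5
    rw [h6, ← gS_eq nu hm hp hp1 N]
    have hlsq : Squarefree l := (bsv nu hm hp hp1 N).prodPrimes_squarefree.squarefree_of_dvd hl'
    have hg := gS_nonneg nu hm hp hp1 hlsq
    split_ifs with h
    · have hμ : ((μ l : ℝ))^2 = 1 := by
        have := ArithmeticFunction.moebius_sq_eq_one_of_squarefree hlsq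
        exact_mod_cast this
      field_simp
      rw [hμ]
    · simp
  rw [Finset.sum_congr rfl h4, ← Finset.sum_filter, divisors_filter_eq nu hm hp hp1 N, ← Finset.sum_div]
  change GS nu N / (GS nu N)^2 = 1 / GS nu N
  field_simp

include hm hp hp1 in
/-- Selberg's weights are bounded by `1`. -/
lemma abs_wS_le (hN : 1 ≤ N) (d : ℕ) : |wS nu N d| ≤ 1 := by
  classical
  by_cases hd : d ∣ primorial N
  swap
  · unfold wS; rw [if_neg hd]; simp
  have hG := GS_pos nu hm hp hp1 N hN
  have hP : Squarefree (primorial N) := (bsv nu hm hp hp1 N).prodPrimes_squarefree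
  have hP0 : primorial N ≠ 0 := hP.ne_zero
  have hdsq : Squarefree d := hP.squarefree_of_dvd hd
  have hd0 : 0 < d := Nat.pos_of_ne_zero hdsq.ne_zero
  have hgm : (bsv nu hm hp hp1 N).selbergTerms.IsMultiplicative := BoundingSieve.selbergTerms_isMultiplicative
  have hgeq := gS_eq nu hm hp hp1 N
  have hnud : 0 < nu d := BoundingSieve.nu_pos_of_dvd_prodPrimes (s := bsv nu hm hp hp1 N) hd
  -- T
  set A := ((Icc 1 N).filter Squarefree).filter (fun m => Nat.Coprime m d ∧ d * m ≤ N) with hA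
  set T := ∑ m ∈ A, gS nu m with hT
  have hT0 : 0 ≤ T := Finset.sum_nonneg fun m hm' =>
    (gS_nonneg nu hm hp hp1 (Finset.mem_filter.1 (Finset.mem_filter.1 hm').1).2).le
  have hsum1 : ∑ l ∈ ((Icc 1 N).filter Squarefree).filter (fun l => d ∣ l), gS nu l = gS nu d * T := by
    rw [hT, Finset.mul_sum]
    symm
    refine Finset.sum_nbij (fun m => d * m) ?_ ?_ ?_ ?_
    · intro m hm'
      simp only [hA, Finset.mem_filter, Finset.mem_Icc] at hm' ⊢
      refine ⟨⟨⟨Nat.mul_pos hd0 (by omega), hm'.2.2⟩, ?_⟩, Dvd.intro _ rfl⟩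
      exact (Nat.squarefree_mul (Nat.Coprime.symm hm'.2.1)).2 ⟨hdsq, hm'.1.2⟩
    · intro a _ b _ hab
      exact Nat.eq_of_mul_eq_mul_left hd0 hab
    · intro l hl
      simp only [Finset.coe_filter, Finset.mem_filter, Finset.mem_Icc, Set.mem_ofPred_eq] at hl
      obtain ⟨⟨⟨h1, h2⟩, h3⟩, ⟨m, rfl⟩⟩ := hl
      refine ⟨m, ?_, rfl⟩
      have hm0 : 0 < m := Nat.pos_of_ne_zero (by rintro rfl; simp at h1)
      have hcop : Nat.Coprime d m := Nat.coprime_of_squarefree_mul h3
      simp only [hA, Finset.coe_filter, Finset.mem_filter, Finset.mem_Icc, Set.mem_ofPred_eq]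
      refine ⟨⟨⟨hm0, ?_⟩, h3.squarefree_of_dvd (Dvd.intro_left _ rfl)⟩, hcop.symm, h2⟩
      exact (Nat.le_mul_of_pos_left m hd0).trans h2
    · intro m hm'
      simp only [hA, Finset.mem_filter, Finset.mem_Icc] at hm'
      rw [hgeq, hgeq, hgeq, hgm.map_mul_of_coprime (Nat.Coprime.symm hm'.2.1)]
  have hsum2 : (nu d)⁻¹ * gS nu d = ∑ k ∈ d.divisors, gS nu k := by
    have h := BoundingSieve.sum_divisors_selbergTerms_eq_selbergTerms_mul_nu_inv
      (s := bsv nu hm hp hp1 N) hd
    rw [← Finset.sum_filter, Nat.divisors_filter_dvd_of_dvd BoundingSieve.prodPrimes_ne_zero hd] at h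
    rw [hgeq, mul_comm]
    change (bsv nu hm hp hp1 N).selbergTerms d * ((bsv nu hm hp hp1 N).nu d)⁻¹ = _
    rw [← h]
    exact Finset.sum_congr rfl fun k _ => (hgeq k).symm
  have hle : (∑ k ∈ d.divisors, gS nu k) * T ≤ GS nu N := by
    rw [hT, Finset.sum_mul_sum, ← Finset.sum_product']
    unfold GS
    have hinj : Set.InjOn (fun x : ℕ × ℕ => x.1 * x.2) (d.divisors ×ˢ A : Finset (ℕ × ℕ)) := by
      rintro ⟨k, m⟩ h1 ⟨k', m'⟩ h2 h3
      simp only [Finset.coe_product, Set.mem_prod, Finset.mem_coe, Nat.mem_divisors, hA,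
        Finset.mem_filter, Finset.mem_Icc] at h1 h2 h3
      have hk : k = Nat.gcd (k * m) d := by
        rw [Nat.Coprime.gcd_mul_right_cancel k h1.2.2.1]
        exact (Nat.gcd_eq_left h1.1.1).symm
      have hk' : k' = Nat.gcd (k' * m') d := by
        rw [Nat.Coprime.gcd_mul_right_cancel k' h2.2.2.1]
        exact (Nat.gcd_eq_left h2.1.1).symm
      have hkk : k = k' := by rw [hk, h3, ← hk']
      subst hkk
      have hk0 : 0 < k := Nat.pos_of_dvd_of_pos h1.1.1 hd0
      have := Nat.eq_of_mul_eq_mul_left hk0 h3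
      rw [this]
    calc ∑ x ∈ d.divisors ×ˢ A, gS nu x.1 * gS nu x.2
        = ∑ x ∈ d.divisors ×ˢ A, gS nu (x.1 * x.2) := by
          refine Finset.sum_congr rfl ?_
          rintro ⟨k, m⟩ hx
          simp only [Finset.mem_product, Nat.mem_divisors, hA, Finset.mem_filter, Finset.mem_Icc] at hx
          have hcop : Nat.Coprime k m :=
            Nat.Coprime.symm (Nat.Coprime.coprime_dvd_right hx.1.1 hx.2.2.1)
          rw [hgeq, hgeq, hgeq, hgm.map_mul_of_coprime hcop]
      _ = ∑ y ∈ (d.divisors ×ˢ A).image (fun x : ℕ × ℕ => x.1 * x.2), gS nu y := by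
          rw [Finset.sum_image hinj]
      _ ≤ ∑ m ∈ (Icc 1 N).filter Squarefree, gS nu m := by
          refine Finset.sum_le_sum_of_subset_of_nonneg ?_ ?_
          · intro y hy
            obtain ⟨⟨k, m⟩, hx, rfl⟩ := Finset.mem_image.1 hy
            simp only [Finset.mem_product, Nat.mem_divisors, hA, Finset.mem_filter, Finset.mem_Icc] at hx
            have hk0 : 0 < k := Nat.pos_of_dvd_of_pos hx.1.1 hd0
            have hcop : Nat.Coprime k m :=
              Nat.Coprime.symm (Nat.Coprime.coprime_dvd_right hx.1.1 hx.2.2.1)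
            simp only [Finset.mem_filter, Finset.mem_Icc]
            refine ⟨⟨Nat.mul_pos hk0 (by omega), ?_⟩, (Nat.squarefree_mul hcop).2
              ⟨hdsq.squarefree_of_dvd hx.1.1, hx.2.1.2⟩⟩
            exact (Nat.mul_le_mul_right m (Nat.le_of_dvd hd0 hx.1.1)).trans hx.2.2.2
          · intro i hi _
            exact (gS_nonneg nu hm hp hp1 (Finset.mem_filter.1 hi).2).le
  have hG0 : 0 < GS nu N := by linarith
  have habs : |wS nu N d| = (∑ k ∈ d.divisors, gS nu k) * T / GS nu N := by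
    unfold wS
    rw [if_pos hd, hsum1, ← hsum2]
    have hμ : |(μ d : ℝ)| = 1 := by
      have h1 := ArithmeticFunction.abs_moebius_eq_one_of_squarefree hdsq
      rw [← Int.cast_abs, h1]; simp
    have hg := (gS_nonneg nu hm hp hp1 hdsq).le
    rw [abs_mul, abs_mul, abs_div, abs_mul, hμ, abs_of_nonneg (inv_nonneg.2 hnud.le), abs_of_nonneg hg,
      abs_of_nonneg hT0, abs_of_pos hG0]
    field_simp
  rw [habs, div_le_one hG0]
  exact hle

end

/-- **Selberg's weights**: existence. -/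
theorem exists_selberg {nu : ArithmeticFunction ℝ} (hm : nu.IsMultiplicative)
    (hp : ∀ p : ℕ, p.Prime → 0 < nu p) (hp1 : ∀ p : ℕ, p.Prime → nu p < 1) {N : ℕ} (hN : 1 ≤ N) :
    ∃ w : ℕ → ℝ, w 1 = 1 ∧ (∀ d, |w d| ≤ 1) ∧ (∀ d, w d ≠ 0 → Squarefree d ∧ d ≤ N) ∧
      ∑ d ∈ Icc 1 N, ∑ e ∈ Icc 1 N, w d * w e * nu (Nat.lcm d e) = 1 / GS nu N := by
  classical
  have hG := GS_pos nu hm hp hp1 N hN
  refine ⟨wS nu N, wS_one nu hm N (by linarith), abs_wS_le nu hm hp hp1 N hN,
    fun d h => wS_supp nu N h, ?_⟩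
  rw [← quad_wS nu hm hp hp1 N hN]
  have hP0 : primorial N ≠ 0 := ((bsv nu hm hp hp1 N).prodPrimes_squarefree).ne_zero
  have key : ∀ F : ℕ → ℝ, (∀ d, wS nu N d = 0 → F d = 0) →
      ∑ d ∈ Icc 1 N, F d = ∑ d ∈ (primorial N).divisors, F d := by
    intro F hF
    have h1 : ∑ d ∈ Icc 1 N, F d = ∑ d ∈ (Icc 1 N).filter Squarefree, F d := by
      rw [Finset.sum_filter_of_ne]
      intro d _ h
      exact (wS_supp nu N (fun h' => h (hF d h'))).1
    have h2 : ∑ d ∈ (primorial N).divisors, F d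
        = ∑ d ∈ (primorial N).divisors.filter (fun m => m ≤ N), F d := by
      rw [Finset.sum_filter_of_ne]
      intro d _ h
      exact (wS_supp nu N (fun h' => h (hF d h'))).2
    rw [h1, h2]
    congr 1
    exact (divisors_filter_eq nu hm hp hp1 N).symm
  rw [key (fun d => ∑ e ∈ Icc 1 N, wS nu N d * wS nu N e * nu (Nat.lcm d e)) (by
    intro d h
    simp [h])]
  refine Finset.sum_congr rfl fun d _ => ?_
  exact key (fun e => wS nu N d * wS nu N e * nu (Nat.lcm d e)) (by
    intro e h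
    simp [h])

end Vale.Agent.P026.H392
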