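import Vale.Agent.P026.H392.Hyp
import Vale.Agent.P026.H392.ExcDefs

open Finset ArithmeticFunction
open scoped ArithmeticFunction.Moebius BigOperators

namespace Vale.Agent.P026.H392

lemma sum_moebius_gcd {m b : ℕ} (hm : m ≠ 0) :
    (∑ l ∈ m.divisors, if l ∣ b then ((μ l : ℤ) : ℂ) else 0) = if Nat.Coprime m b then 1 else 0 := by
  classical
  have h1 : (∑ l ∈ m.divisors, if l ∣ b then ((μ l : ℤ) : ℂ) else 0)
      = ∑ l ∈ (Nat.gcd m b).divisors, ((μ l : ℤ) : ℂ) := by
    rw [← Finset.sum_filter]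
    refine Finset.sum_congr ?_ fun _ _ => rfl
    ext l
    simp only [Finset.mem_filter, Nat.mem_divisors, Nat.dvd_gcd_iff]
    have : Nat.gcd m b ≠ 0 := Nat.gcd_ne_zero_left hm
    tauto
  rw [h1]
  have h6 : (∑ e ∈ (Nat.gcd m b).divisors, μ e) = if Nat.gcd m b = 1 then 1 else 0 := by
    rw [← ArithmeticFunction.coe_mul_zeta_apply, ArithmeticFunction.moebius_mul_coe_zeta,
      ArithmeticFunction.one_apply]
  calc (∑ e ∈ (Nat.gcd m b).divisors, ((μ e : ℤ) : ℂ))
      = ((∑ e ∈ (Nat.gcd m b).divisors, μ e : ℤ) : ℂ) := by push_cast; rfl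
    _ = _ := by
      rw [h6]
      unfold Nat.Coprime
      split_ifs <;> simp

/-- Detecting `D ∣ a b`. -/
lemma dvd_mul_indicator {D a b : ℕ} (hD : D ≠ 0) :
    (∑ k ∈ D.divisors, ∑ l ∈ (D / k).divisors,
      if (D / k ∣ a ∧ k * l ∣ b) then ((μ l : ℤ) : ℂ) else 0) = if D ∣ a * b then 1 else 0 := by
  classical
  have h1 : ∀ k ∈ D.divisors, (∑ l ∈ (D / k).divisors,
      if (D / k ∣ a ∧ k * l ∣ b) then ((μ l : ℤ) : ℂ) else 0)
      = if k = Nat.gcd D b then (if D / k ∣ a then 1 else 0) else 0 := by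
    intro k hk
    have hkD := Nat.dvd_of_mem_divisors hk
    have hk0 : 0 < k := Nat.pos_of_mem_divisors hk
    have hDk : D / k ≠ 0 := by
      have := Nat.div_pos (Nat.le_of_dvd (Nat.pos_of_ne_zero hD) hkD) hk0
      omega
    by_cases hka : D / k ∣ a
    · by_cases hkb : k ∣ b
      · obtain ⟨b', rfl⟩ := hkb
        have h2 : (∑ l ∈ (D / k).divisors, if (D / k ∣ a ∧ k * l ∣ k * b') then ((μ l : ℤ) : ℂ) else 0)
            = ∑ l ∈ (D / k).divisors, if l ∣ b' then ((μ l : ℤ) : ℂ) else 0 := by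
          refine Finset.sum_congr rfl fun l _ => ?_
          have : (D / k ∣ a ∧ k * l ∣ k * b') ↔ l ∣ b' := by
            rw [Nat.mul_dvd_mul_iff_left hk0]
            exact ⟨fun h => h.2, fun h => ⟨hka, h⟩⟩
          simp only [this]
        rw [h2, sum_moebius_gcd hDk]
        have h3 : Nat.gcd D (k * b') = k * Nat.gcd (D / k) b' := by
          conv_lhs => rw [← Nat.mul_div_cancel' hkD]
          exact Nat.gcd_mul_left k (D / k) b'
        have h4 : (k = Nat.gcd D (k * b')) ↔ Nat.Coprime (D / k) b' := by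
          rw [h3]
          unfold Nat.Coprime
          constructor
          · intro h
            exact (Nat.eq_of_mul_eq_mul_left hk0 (by rw [mul_one]; exact h)).symm
          · intro h; rw [h, mul_one]
        simp only [h4, hka, if_true]
      · rw [Finset.sum_eq_zero, if_neg]
        · intro h
          exact hkb (h ▸ Nat.gcd_dvd_right D b)
        · intro l _
          rw [if_neg]
          rintro ⟨_, h⟩
          exact hkb ((Dvd.intro _ rfl).trans h)
    · rw [Finset.sum_eq_zero]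
      · simp [hka]
      · intro l _
        rw [if_neg]
        rintro ⟨h, _⟩
        exact hka h
  rw [Finset.sum_congr rfl h1, Finset.sum_ite_eq']
  have hg0 : 0 < Nat.gcd D b := Nat.gcd_pos_of_pos_left b (Nat.pos_of_ne_zero hD)
  rw [if_pos (Nat.mem_divisors.2 ⟨Nat.gcd_dvd_left D b, hD⟩)]
  have h5 : (D / Nat.gcd D b ∣ a) ↔ D ∣ a * b := by
    constructor
    · intro h
      have h6 : D / Nat.gcd D b * Nat.gcd D b ∣ a * b := Nat.mul_dvd_mul h (Nat.gcd_dvd_right D b)
      rwa [Nat.div_mul_cancel (Nat.gcd_dvd_left D b)] at h6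
    · intro h
      have hcop : Nat.Coprime (D / Nat.gcd D b) (b / Nat.gcd D b) := Nat.coprime_div_gcd_div_gcd hg0
      refine Nat.Coprime.dvd_of_dvd_mul_right hcop ?_
      rw [← Nat.mul_dvd_mul_iff_right hg0, Nat.div_mul_cancel (Nat.gcd_dvd_left D b), mul_assoc,
        Nat.div_mul_cancel (Nat.gcd_dvd_right D b)]
      exact h
  simp only [h5]

lemma sum_PP_dvd {u v : ℕ → ℂ} (hu : ∀ m n, u (m * n) = u m * u n) (hv : ∀ m n, v (m * n) = v m * v n)
    {r t : ℕ} (hr : 0 < r) (ht : 0 < t) (N : ℕ) :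
    ∑ x ∈ (PP N).filter (fun x => r ∣ x.1 ∧ t ∣ x.2), u x.1 * v x.2
      = u r * v t * ∑ x ∈ PP (N / (r * t)), u x.1 * v x.2 := by
  classical
  rw [Finset.mul_sum]
  symm
  refine Finset.sum_nbij (fun x => (r * x.1, t * x.2)) ?_ ?_ ?_ ?_
  · rintro ⟨a, b⟩ hx
    simp only [mem_PP] at hx
    simp only [Finset.mem_filter, mem_PP]
    refine ⟨⟨Nat.mul_pos hr hx.1, Nat.mul_pos ht hx.2.1, ?_⟩, Dvd.intro _ rfl, Dvd.intro _ rfl⟩
    have h1 := (Nat.le_div_iff_mul_le (Nat.mul_pos hr ht)).1 hx.2.2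
    calc r * a * (t * b) = a * b * (r * t) := by ring
      _ ≤ N := h1
  · rintro ⟨a, b⟩ _ ⟨a', b'⟩ _ h
    simp only [Prod.mk.injEq] at h
    rw [Nat.eq_of_mul_eq_mul_left hr h.1, Nat.eq_of_mul_eq_mul_left ht h.2]
  · rintro ⟨a, b⟩ hx
    simp only [Finset.coe_filter, mem_PP, Set.mem_ofPred_eq] at hx
    obtain ⟨⟨h1, h2, h3⟩, ⟨a', rfl⟩, ⟨b', rfl⟩⟩ := hx
    refine ⟨(a', b'), ?_, rfl⟩
    rw [Finset.mem_coe, mem_PP]
    refine ⟨Nat.pos_of_ne_zero (by rintro rfl; simp at h1), Nat.pos_of_ne_zero (by rintro rfl; simp at h2), ?_⟩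
    rw [Nat.le_div_iff_mul_le (Nat.mul_pos hr ht)]
    calc a' * b' * (r * t) = r * a' * (t * b') := by ring
      _ ≤ N := h3
  · rintro ⟨a, b⟩ _
    simp only [hu, hv]
    ring

/-- Expansion of the sum over multiples of `D`. -/
lemma ED_expand {u v : ℕ → ℂ} (hu : ∀ m n, u (m * n) = u m * u n) (hv : ∀ m n, v (m * n) = v m * v n)
    {D : ℕ} (hD : D ≠ 0) (X : ℝ) :
    ∑ n ∈ (Icc 1 ⌊X⌋₊).filter (fun n => D ∣ n), ∑ d ∈ n.divisors, u d * v (n / d)
      = ∑ k ∈ D.divisors, ∑ l ∈ (D / k).divisors,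
          ((μ l : ℤ) : ℂ) * (u (D / k) * v (k * l)) * cv u v (X / ((D * l : ℕ) : ℝ)) := by
  classical
  rw [sum_conv_eq_pairs (fun a b => u a * v b) (fun n => D ∣ n) ⌊X⌋₊, Finset.sum_filter]
  have h1 : ∀ x ∈ PP ⌊X⌋₊, (if D ∣ x.1 * x.2 then u x.1 * v x.2 else 0)
      = ∑ k ∈ D.divisors, ∑ l ∈ (D / k).divisors,
        ((μ l : ℤ) : ℂ) * (if (D / k ∣ x.1 ∧ k * l ∣ x.2) then u x.1 * v x.2 else 0) := by
    intro x hx
    rw [mem_PP] at hx
    have h2 := dvd_mul_indicator (a := x.1) (b := x.2) hD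
    calc (if D ∣ x.1 * x.2 then u x.1 * v x.2 else 0)
        = (if D ∣ x.1 * x.2 then 1 else 0) * (u x.1 * v x.2) := by split_ifs <;> simp
      _ = _ := by
        rw [← h2, Finset.sum_mul]
        refine Finset.sum_congr rfl fun k _ => ?_
        rw [Finset.sum_mul]
        refine Finset.sum_congr rfl fun l _ => ?_
        split_ifs <;> simp
  rw [Finset.sum_congr rfl h1, Finset.sum_comm]
  refine Finset.sum_congr rfl fun k hk => ?_
  rw [Finset.sum_comm]
  refine Finset.sum_congr rfl fun l hl => ?_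
  have hkD := Nat.dvd_of_mem_divisors hk
  have hk0 : 0 < k := Nat.pos_of_mem_divisors hk
  have hl0 : 0 < l := Nat.pos_of_mem_divisors hl
  have hDk : 0 < D / k := Nat.div_pos (Nat.le_of_dvd (Nat.pos_of_ne_zero hD) hkD) hk0
  rw [← Finset.mul_sum, ← Finset.sum_filter, sum_PP_dvd hu hv hDk (Nat.mul_pos hk0 hl0), cv_eq_pairs]
  have e : D / k * (k * l) = D * l := by
    rw [← mul_assoc, Nat.div_mul_cancel hkD]
  rw [e, Nat.floor_div_natCast]
  ring

/-- The arithmetic identity behind the main term. -/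
lemma nuE_identity {x : ℕ → ℝ} (hx1 : x 1 = 1) (hxm : ∀ m n, x (m * n) = x m * x n) {D : ℕ}
    (hD : Squarefree D) :
    ∑ k ∈ D.divisors, ∑ l ∈ (D / k).divisors, (μ l : ℝ) * x (k * l) / ((D * l : ℕ) : ℝ) = nuE x D := by
  classical
  -- arithmetic functions
  set A1 : ArithmeticFunction ℝ := ⟨fun l => (μ l : ℝ) * x l / l, by simp⟩ with hA1
  set A2 : ArithmeticFunction ℝ := ⟨fun k => if k = 0 then 0 else x k, by simp⟩ with hA2
  set A3 : ArithmeticFunction ℝ := ⟨fun n => 1 / (n:ℝ), by simp⟩ with hA3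
  set Fn : ArithmeticFunction ℝ := A3.pmul (A2 * (A1 * ((ArithmeticFunction.zeta : ArithmeticFunction ℕ) : ArithmeticFunction ℝ))) with hFn
  have m1 : A1.IsMultiplicative := by
    rw [ArithmeticFunction.IsMultiplicative.iff_ne_zero]
    refine ⟨by simp [hA1, hx1], fun {m n} hm hn hmn => ?_⟩
    simp only [hA1, ArithmeticFunction.coe_mk]
    rw [ArithmeticFunction.isMultiplicative_moebius.map_mul_of_coprime hmn, hxm]
    push_cast
    have : (m:ℝ) ≠ 0 := by exact_mod_cast hm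
    have : (n:ℝ) ≠ 0 := by exact_mod_cast hn
    field_simp
  have m2 : A2.IsMultiplicative := by
    rw [ArithmeticFunction.IsMultiplicative.iff_ne_zero]
    refine ⟨by simp [hA2, hx1], fun {m n} hm hn hmn => ?_⟩
    simp only [hA2, ArithmeticFunction.coe_mk]
    rw [if_neg (Nat.mul_ne_zero hm hn), if_neg hm, if_neg hn, hxm]
  have m3 : A3.IsMultiplicative := by
    rw [ArithmeticFunction.IsMultiplicative.iff_ne_zero]
    refine ⟨by simp [hA3], fun {m n} hm hn hmn => ?_⟩
    simp only [hA3, ArithmeticFunction.coe_mk]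
    push_cast
    have : (m:ℝ) ≠ 0 := by exact_mod_cast hm
    have : (n:ℝ) ≠ 0 := by exact_mod_cast hn
    field_simp
  have mz : ((ArithmeticFunction.zeta : ArithmeticFunction ℕ) : ArithmeticFunction ℝ).IsMultiplicative := ArithmeticFunction.isMultiplicative_zeta.natCast
  have mF : Fn.IsMultiplicative := m3.pmul (m2.mul (m1.mul mz))
  have hFD : ∀ D : ℕ, D ≠ 0 → Fn D
      = ∑ k ∈ D.divisors, ∑ l ∈ (D / k).divisors, (μ l : ℝ) * x (k * l) / ((D * l : ℕ) : ℝ) := by
    intro D hD0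
    simp only [hFn, ArithmeticFunction.pmul_apply]
    rw [ArithmeticFunction.mul_apply, Nat.sum_divisorsAntidiagonal (fun a b => A2 a * (A1 * ((ArithmeticFunction.zeta : ArithmeticFunction ℕ) : ArithmeticFunction ℝ)) b),
      Finset.mul_sum]
    refine Finset.sum_congr rfl fun k hk => ?_
    have hk0 : k ≠ 0 := (Nat.pos_of_mem_divisors hk).ne'
    rw [ArithmeticFunction.coe_mul_zeta_apply, Finset.mul_sum, Finset.mul_sum]
    refine Finset.sum_congr rfl fun l hl => ?_
    have hl0 : l ≠ 0 := (Nat.pos_of_mem_divisors hl).ne'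
    simp only [hA1, hA2, hA3, ArithmeticFunction.coe_mk]
    rw [if_neg hk0, hxm]
    push_cast
    have : (l:ℝ) ≠ 0 := by exact_mod_cast hl0
    have : (D:ℝ) ≠ 0 := by exact_mod_cast hD0
    field_simp
  rw [← hFD D hD.ne_zero]
  have hprime : ∀ p : ℕ, p.Prime → Fn p = nuE x p := by
    intro p hp
    rw [hFD p hp.ne_zero, nuE_prime x hp, Nat.Prime.divisors hp,
      Finset.sum_pair (Ne.symm hp.one_lt.ne')]
    rw [Nat.div_one, Nat.div_self hp.pos, Nat.divisors_one, Nat.Prime.divisors hp,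
      Finset.sum_pair (Ne.symm hp.one_lt.ne'), Finset.sum_singleton]
    simp only [one_mul, mul_one, ArithmeticFunction.moebius_apply_one,
      ArithmeticFunction.moebius_apply_prime hp, hx1]
    have : (p:ℝ) ≠ 0 := by exact_mod_cast hp.ne_zero
    push_cast
    field_simp
    ring
  calc Fn D = Fn (∏ p ∈ D.primeFactors, p) := by rw [Nat.prod_primeFactors_of_squarefree hD]
    _ = ∏ p ∈ D.primeFactors, Fn p := mF.map_prod_of_subset_primeFactors D _ (Finset.Subset.refl _)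
    _ = ∏ p ∈ D.primeFactors, nuE x p :=
        Finset.prod_congr rfl fun p hp => hprime p (Nat.prime_of_mem_primeFactors hp)
    _ = nuE x (∏ p ∈ D.primeFactors, p) :=
        ((nuE_mult x).map_prod_of_subset_primeFactors D _ (Finset.Subset.refl _)).symm
    _ = nuE x D := by rw [Nat.prod_primeFactors_of_squarefree hD]

end Vale.Agent.P026.H392
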