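import Vale.Agent.P026.H392.BlockB

open Complex Set Filter Topology MeasureTheory intervalIntegral

namespace Vale.Agent.P026.H392

/-- The constant `c₁` of the block bound. -/
noncomputable def cOne (c : ℝ) : ℝ := min (c/9) (1/2)

lemma cOne_pos {c : ℝ} (hc : 0 < c) : 0 < cOne c := lt_min (by positivity) (by norm_num)

lemma cOne_le (c : ℝ) : cOne c ≤ 1/2 := min_le_right _ _

/-- The decay rate `w = (c₁/2) min((v₀/log T)², 1)`. -/
noncomputable def wOne (c T v₀ : ℝ) : ℝ := cOne c / 2 * min ((v₀/Real.log T)^2) 1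

lemma wOne_pos {c T v₀ : ℝ} (hc : 0 < c) (hT : 3 ≤ T) (hv : 0 < v₀) : 0 < wOne c T v₀ := by
  have := log_T_pos hT
  have h2 := cOne_pos hc
  unfold wOne
  have : 0 < min ((v₀/Real.log T)^2) 1 := lt_min (by positivity) one_pos
  positivity

lemma wOne_le {c T v₀ : ℝ} (hc : 0 < c) : wOne c T v₀ ≤ 1/4 := by
  have h1 := cOne_pos hc
  have h2 := cOne_le c
  have h3 : min ((v₀/Real.log T)^2) 1 ≤ 1 := min_le_right _ _
  have h4 : 0 ≤ min ((v₀/Real.log T)^2) 1 := le_min (by positivity) (by norm_num)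
  unfold wOne
  nlinarith

lemma sv_ge {c T v₀ v : ℝ} (hc : 0 < c) (hT : 3 ≤ T) (hv : 0 < v₀) (hvv : v₀ ≤ v) :
    2 * wOne c T v₀ * v ≤ cOne c * sv T v := by
  have hlT := log_T_pos hT
  have hv0 : 0 < v := lt_of_lt_of_le hv hvv
  have h1 : sv T v = v * min ((v/Real.log T)^2) 1 := by
    unfold sv
    rw [mul_min_of_nonneg _ _ hv0.le]
    congr 1
    · rw [div_pow]; ring
    · ring
  have h2 : min ((v₀/Real.log T)^2) 1 ≤ min ((v/Real.log T)^2) 1 := by
    apply min_le_min_right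
    gcongr
  rw [h1]
  unfold wOne
  have h3 := cOne_pos hc
  have h4 : cOne c * v * min ((v₀/Real.log T)^2) 1 ≤ cOne c * v * min ((v/Real.log T)^2) 1 := by
    gcongr
  linarith

lemma block_decay {C c : ℝ} (hC : 0 < C) (hc : 0 < c) (hVK : VKSum C c) {T : ℝ} (hT : 3 ≤ T)
    {s : ℂ} (hs : 1/2 ≤ s.re) (hs2 : s.re ≤ 2) (him : |s.im| ≤ 4 * T) {a : ℝ} (ha : 0 ≤ a)
    (ha1 : a ≤ 1) {v₀ : ℝ} (hv : 0 < v₀) (hsw : 1 - s.re ≤ wOne c T v₀)
    {N N' : ℕ} (hN : 1 ≤ N) (hNv : v₀ ≤ Real.log N) (h1 : N ≤ N') (h2 : N' ≤ 2 * N) :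
    ‖(∑ n ∈ Finset.Ioc N N', pw s (n + a)) - ∫ u in ((N:ℝ) + a)..((N':ℝ) + a), pw s u‖
      ≤ (C + 20) * (N:ℝ) ^ (-wOne c T v₀) := by
  have hN0 : (0:ℝ) < N := by exact_mod_cast hN
  refine (block_bound hC hc hVK hT hs hs2 him ha ha1 hN h1 h2).trans ?_
  have h3 := sv_ge hc hT hv hNv
  have hl : 0 < Real.log N := lt_of_lt_of_le hv hNv
  rw [mul_assoc]
  refine mul_le_mul_of_nonneg_left ?_ (by linarith)
  rw [Real.rpow_def_of_pos hN0, Real.rpow_def_of_pos hN0, ← Real.exp_add]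
  apply Real.exp_le_exp.2
  have h4 : Real.log N * (1 - s.re) ≤ Real.log N * wOne c T v₀ :=
    mul_le_mul_of_nonneg_left hsw hl.le
  have h5 : -(min (c/9) (1/2)) * sv T (Real.log N) = -(cOne c * sv T (Real.log N)) := by
    unfold cOne; ring
  rw [h5]
  linarith

theorem tail_bound {C c : ℝ} (hC : 0 < C) (hc : 0 < c) (hVK : VKSum C c) {T : ℝ} (hT : 3 ≤ T)
    {s : ℂ} (hs : 1/2 ≤ s.re) (hs2 : s.re ≤ 2) (him : |s.im| ≤ 4 * T) {a : ℝ} (ha : 0 ≤ a)
    (ha1 : a ≤ 1) {v₀ : ℝ} (hv : 0 < v₀) (hsw : 1 - s.re ≤ wOne c T v₀)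
    {N N' : ℕ} (hN : 1 ≤ N) (hNv : v₀ ≤ Real.log N) (h1 : N ≤ N') :
    ‖(∑ n ∈ Finset.Ioc N N', pw s (n + a)) - ∫ u in ((N:ℝ) + a)..((N':ℝ) + a), pw s u‖
      ≤ 2 * (C + 20) / wOne c T v₀ * (N:ℝ) ^ (-wOne c T v₀) := by
  set w := wOne c T v₀ with hw
  have hw0 : 0 < w := wOne_pos hc hT hv
  have hw1 : w ≤ 1/4 := wOne_le hc
  have hK : C + 20 ≤ 2 * (C + 20) / w := by
    rw [le_div_iff₀ hw0]; nlinarith
  suffices H : ∀ k : ℕ, ∀ N N' : ℕ, N' - N ≤ k → 1 ≤ N → v₀ ≤ Real.log N → N ≤ N' →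
      ‖(∑ n ∈ Finset.Ioc N N', pw s (n + a)) - ∫ u in ((N:ℝ) + a)..((N':ℝ) + a), pw s u‖
      ≤ 2 * (C + 20) / w * (N:ℝ) ^ (-w) from H (N' - N) N N' le_rfl hN hNv h1
  intro k
  induction k with
  | zero =>
    intro N N' hk hN _ h1
    have : N' = N := by omega
    subst this
    simp only [Finset.Ioc_self, Finset.sum_empty, intervalIntegral.integral_same, sub_zero, norm_zero]
    positivity
  | succ k ih =>
    intro N N' hk hN hNv h1
    have hN0 : (0:ℝ) < N := by exact_mod_cast hN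
    have hP : 0 < (N:ℝ) ^ (-w) := by positivity
    by_cases h2 : N' ≤ 2 * N
    · refine (block_decay hC hc hVK hT hs hs2 him ha ha1 hv hsw hN hNv h1 h2).trans ?_
      exact mul_le_mul_of_nonneg_right hK hP.le
    · push Not at h2
      have hB := block_decay hC hc hVK hT hs hs2 him ha ha1 hv hsw hN hNv (by omega : N ≤ 2 * N) le_rfl
      have h2N : v₀ ≤ Real.log ((2 * N : ℕ) : ℝ) := by
        refine hNv.trans (Real.log_le_log hN0 ?_)
        push_cast; linarith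
      have hI := ih (2 * N) N' (by omega) (by omega) h2N h2.le
      have hsplit : ∑ n ∈ Finset.Ioc N N', pw s (n + a)
          = ∑ n ∈ Finset.Ioc N (2*N), pw s (n + a) + ∑ n ∈ Finset.Ioc (2*N) N', pw s (n + a) :=
        (Finset.sum_Ioc_consecutive (fun n : ℕ => pw s (n + a)) (by omega : N ≤ 2 * N) h2.le).symm
      have hisplit : ∫ u in ((N:ℝ) + a)..((N':ℝ) + a), pw s u
          = (∫ u in ((N:ℝ) + a)..(((2*N : ℕ):ℝ) + a), pw s u)
            + ∫ u in (((2*N : ℕ):ℝ) + a)..((N':ℝ) + a), pw s u := by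
        symm
        apply intervalIntegral.integral_add_adjacent_intervals
        · apply intervalIntegrable_pw
          · linarith
          · push_cast; linarith
        · apply intervalIntegrable_pw
          · push_cast; linarith
          · have : (0:ℝ) < N' := by exact_mod_cast (by omega : 0 < N')
            linarith
      rw [hsplit, hisplit]
      have h2w : ((2 * N : ℕ) : ℝ) ^ (-w) ≤ (1 - w/2) * (N:ℝ) ^ (-w) := by
        push_cast
        rw [Real.mul_rpow (by norm_num) hN0.le]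
        refine mul_le_mul_of_nonneg_right ?_ hP.le
        have h3 : (2:ℝ) ^ (-w) = (1 + (-(1/2) : ℝ)) ^ w := by
          rw [Real.rpow_neg (by norm_num), ← Real.inv_rpow (by norm_num)]
          norm_num
        rw [h3]
        have := _root_.rpow_one_add_le_one_add_mul_self (s := -(1/2 : ℝ)) (by norm_num) hw0.le
          (by linarith : w ≤ 1)
        linarith
      have hKpos : 0 < 2 * (C + 20) / w := by positivity
      calc _ = ‖((∑ n ∈ Finset.Ioc N (2*N), pw s (n + a))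
              - ∫ u in ((N:ℝ) + a)..(((2*N : ℕ):ℝ) + a), pw s u)
              + ((∑ n ∈ Finset.Ioc (2*N) N', pw s (n + a))
              - ∫ u in (((2*N : ℕ):ℝ) + a)..((N':ℝ) + a), pw s u)‖ := by congr 1; ring
        _ ≤ _ := norm_add_le _ _
        _ ≤ (C + 20) * (N:ℝ) ^ (-w) + 2 * (C + 20) / w * ((2 * N : ℕ) : ℝ) ^ (-w) := add_le_add hB hI
        _ ≤ (C + 20) * (N:ℝ) ^ (-w) + 2 * (C + 20) / w * ((1 - w/2) * (N:ℝ) ^ (-w)) := by gcongr
        _ = 2 * (C + 20) / w * (N:ℝ) ^ (-w) := by field_simp; ring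

end Vale.Agent.P026.H392
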